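import Vale.Agent.P247.H574.Sta2
import Vale.Agent.P247.H74.CE.Sta

/-!
# P247, stage 2, layer C: the local contribution (statement)
-/

open scoped ContDiff Topology
open Set MeasureTheory Filter Metric

noncomputable section

namespace Vale.Agent.P247.H58.LW

open Vale.Agent.P247.H74 Vale.Agent.P247.H574

/-- the determinant of four vectors of `ℝ⁴` -/
def vol4 (a b c d : R4) : ℝ := Matrix.det (Matrix.of ![a, b, c, d])

/-- the direction `b` is transversal to the tangent lines of the branch `u` near `x = u 0` -/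
def Trans (D : Data) (x : R4) (u : ℂ → R4) (b : R4) : Prop :=
  ∃ c > 0, ∀ᶠ z in 𝓝[≠] (0 : ℂ), c * ‖fderiv ℝ u z 1‖ ≤ ‖Om D x (fderiv ℝ u z 1) b‖

/-- the branch `u` pushed off by the vector field `δ V` -/
def push (u : ℂ → R4) (V : R4 → R4) (δ : ℝ) (t : ℂ) : R4 := u t + δ • V (u t)

/-- the local contribution of the pair of branches `u`, `v` to `∫ f (Φ x - y) vol` -/
def Iuv (u v : ℂ → R4) (V : R4 → R4) (δ ρ : ℝ) (f : R4 → ℝ) : ℝ :=
  ∫ t in ball (0 : ℂ) ρ, ∫ s in ball (0 : ℂ) 1, f (push u V δ t - v s) *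
    vol4 (fderiv ℝ (push u V δ) t 1) (fderiv ℝ (push u V δ) t Complex.I)
      (fderiv ℝ v s 1) (fderiv ℝ v s Complex.I)

/-- `TRV`: transversal directions exist. -/
def TRV_statement : Prop := ∀ (D : Data) (K : Set R4) (x : R4) (N : ℕ) (u : Fin N → ℂ → R4) (ε : ℝ),
  Brs D K x N u ε → ∃ b : R4, ∀ l, Trans D x (u l) b

/-- `LW`: the local contribution at `x` is nonnegative, and it vanishes only if there is one
branch, immersed, and the winding number of the transversal component is zero.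
Here the vector field is vertical near `x`: `V y = cm D x (v y) b`. -/
def LW_statement : Prop := ∀ (D : Data), Good D → ∀ (K : Set R4) (x : R4) (N : ℕ)
  (u : Fin N → ℂ → R4) (ε : ℝ), Brs D K x N u ε → ∀ b : R4, (∀ l, Trans D x (u l) b) →
  ∀ᶠ ρ in 𝓝[>] (0 : ℝ), ∀ μ : Fin N → ℕ, (∀ l, 1 ≤ μ l) → ∀ v : R4 → ℂ, ContDiff ℝ ∞ v →
  ∀ o : Fin N → ℤ, (∀ l, 0 ≤ o l) →
  (∀ l, HasWinding (fun t => Om D (u l t) (fderiv ℝ (u l) t 1) (cm D x (v (u l t)) b)) 0 ρ (o l)) →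
  ∃ M : ℝ, 0 ≤ M ∧ (M = 0 → N = 1 ∧ (∀ l, fderiv ℝ (u l) 0 1 ≠ 0) ∧ ∀ l, o l = 0) ∧
    ∀ᶠ δ in 𝓝[>] (0 : ℝ), ∃ ε₀ > 0, ∀ f : R4 → ℝ, Continuous f → tsupport f ⊆ ball 0 ε₀ →
      ∑ l, ∑ j, (μ l : ℝ) * (μ j : ℝ) * Iuv (u l) (u j) (fun y => cm D x (v y) b) δ ρ f =
        M * ∫ y, f y

end Vale.Agent.P247.H58.LW
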