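import Vale.Agent.P247.H58.LW.Cut

/-!
# From special kernels to all continuous functions
-/

open MeasureTheory Set Metric Filter Topology
open scoped ContDiff

noncomputable section

namespace Vale.Agent.P247.H58.LW

variable {E : Type*} [NormedAddCommGroup E] [NormedSpace ℝ E] [FiniteDimensional ℝ E]

/-- rank one perturbations -/
theorem det_rank_one (M : E →L[ℝ] E) (l : E →L[ℝ] ℝ) (y : E) :
    (M + (l.comp M).smulRight y).det = (1 + l y) * M.det := by
  have e1 : ((M + (l.comp M).smulRight y : E →L[ℝ] E) : E →ₗ[ℝ] E) =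
      (LinearMap.transvection (l : E →ₗ[ℝ] ℝ) y).comp (M : E →ₗ[ℝ] E) := by
    ext x
    simp [LinearMap.transvection.apply]
  change LinearMap.det _ = _ * LinearMap.det _
  rw [e1, LinearMap.det_comp, LinearMap.transvection.det]
  rfl

variable [MeasurableSpace E] [BorelSpace E] (μ : Measure E) [μ.IsAddHaarMeasure] [Nontrivial E]

omit [Nontrivial E] [MeasurableSpace E] [BorelSpace E] [FiniteDimensional ℝ E] in
theorem det_cont {F : E → E} (hF : ContDiff ℝ 1 F) : Continuous fun x => (fderiv ℝ F x).det :=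
  ContinuousLinearMap.continuous_det.comp (hF.continuous_fderiv (by simp))

omit [MeasurableSpace E] [BorelSpace E] in
theorem det_zero_clm : (0 : E →L[ℝ] E).det = 0 := by
  have := det_smul_clm (0 : E →L[ℝ] E) 0
  rw [zero_smul, zero_pow (Module.finrank_pos (R := ℝ) (M := E)).ne', zero_mul] at this
  exact this

theorem int_det {F : E → E} (hF : ContDiff ℝ 1 F) (hs : HasCompactSupport F) :
    Integrable (fun x => (fderiv ℝ F x).det) μ := by
  refine (det_cont hF).integrable_of_hasCompactSupport ?_
  refine HasCompactSupport.intro hs fun x hx => ?_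
  rw [fderiv_eq_zero_of_notMem hx, det_zero_clm]

/-- perturbation in one direction -/
theorem int_perturb {F : E → E} (hF : ContDiff ℝ 1 F) {P : E → ℝ} (hP : ContDiff ℝ 1 P)
    (hPs : HasCompactSupport P) (y : E) :
    ∫ x, ((fderiv ℝ F x + (fderiv ℝ P x).smulRight y).det - (fderiv ℝ F x).det) ∂μ = 0 := by
  obtain ⟨F', hF1, hF2, hF3⟩ := exists_trunc (by simp) hPs hF
  have h1 : ContDiff ℝ 1 (fun x => F' x + P x • y) := hF1.add (hP.smul contDiff_const)
  have h2 : HasCompactSupport (fun x => F' x + P x • y) := hF2.add (hPs.smul_right (f' := fun _ => y))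
  have e1 := integral_det_eq_zero μ h1 h2
  have e2 := integral_det_eq_zero μ hF1 hF2
  have e3 : ∀ x, (fderiv ℝ F x + (fderiv ℝ P x).smulRight y).det - (fderiv ℝ F x).det =
      (fderiv ℝ (fun x => F' x + P x • y) x).det - (fderiv ℝ F' x).det := by
    intro x
    have d1 : fderiv ℝ (fun x => F' x + P x • y) x =
        fderiv ℝ F' x + (fderiv ℝ P x).smulRight y :=
      (((hF1.differentiable (by simp)) x).hasFDerivAt.add
        (((hP.differentiable (by simp)) x).hasFDerivAt.smul_const y)).fderiv
    rw [d1]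
    by_cases hx : x ∈ tsupport P
    · have f1 : fderiv ℝ F' x = fderiv ℝ F x := Filter.EventuallyEq.fderiv_eq (ev_of_nhdsSet hF3 hx)
      rw [f1]
    · rw [fderiv_eq_zero_of_notMem hx]
      simp
  simp only [e3]
  rw [integral_sub (int_det μ h1 h2) (int_det μ hF1 hF2), e1, e2, sub_zero]

section
variable {F : E → E} {Ω : Set E}

theorem transl0 (hF : ContDiff ℝ 1 F) (hΩ : IsOpen Ω) (hΩc : IsCompact (closure Ω)) {s : ℝ}
    (hb : ∀ x ∈ closure Ω \ Ω, s < ‖F x‖) {G : E → ℝ} (hG : ContDiff ℝ 1 G)
    (hGs : ∀ w, s < ‖w‖ → G w = 0) (y : E) :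
    ∫ x in Ω, fderiv ℝ G (F x) y * (fderiv ℝ F x).det ∂μ = 0 := by
  set B : Set E := {x | x ∈ closure Ω ∧ ‖F x‖ ≤ s} with hB
  have hBc : IsCompact B := hΩc.of_isClosed_subset
    (isClosed_closure.inter (isClosed_le hF.continuous.norm continuous_const)) fun x hx => hx.1
  have hBΩ : B ⊆ Ω := by
    intro x hx
    by_contra hxΩ
    exact absurd (hb x ⟨hx.1, hxΩ⟩) (not_lt.2 hx.2)
  obtain ⟨X, hX, hXs, hXt, hX1, -⟩ := exists_cut hBc hΩ hBΩ
  have hX' : ContDiff ℝ 1 X := hX.of_le (by simp)
  have hGF : ContDiff ℝ 1 (fun x => G (F x)) := hG.comp hF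
  have hP : ContDiff ℝ 1 (fun x => X x * G (F x)) := hX'.mul hGF
  have key := int_perturb μ hF hP hXs.mul_right y
  rw [← key, ← integral_indicator hΩ.measurableSet]
  refine integral_congr_ae (Eventually.of_forall fun x => ?_)
  simp only [indicator]
  have hGs' : ∀ w, s < ‖w‖ → fderiv ℝ G w = 0 := by
    intro w hw
    have h1 : G =ᶠ[𝓝 w] fun _ => 0 := by
      filter_upwards [(isOpen_lt continuous_const continuous_norm).mem_nhds hw] with v hv
      exact hGs v hv
    rw [h1.fderiv_eq, fderiv_fun_const]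
    rfl
  by_cases hx : x ∈ Ω
  · rw [if_pos hx]
    by_cases hxB : x ∈ B
    · have h1 : (fun x => X x * G (F x)) =ᶠ[𝓝 x] fun x => G (F x) := by
        filter_upwards [ev_of_nhdsSet hX1 hxB] with z hz
        rw [hz, one_mul]
      have h2 : fderiv ℝ (fun x => G (F x)) x = (fderiv ℝ G (F x)).comp (fderiv ℝ F x) :=
        fderiv_comp x ((hG.differentiable (by simp)) _) ((hF.differentiable (by simp)) _)
      rw [h1.fderiv_eq, h2, det_rank_one]
      ring
    · have h0 : s < ‖F x‖ := by
        by_contra hc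
        exact hxB ⟨subset_closure hx, not_lt.1 hc⟩
      have h1 : (fun x => X x * G (F x)) =ᶠ[𝓝 x] fun x => 0 := by
        filter_upwards [(isOpen_lt continuous_const hF.continuous.norm).mem_nhds h0] with z hz
        rw [hGs _ hz, mul_zero]
      rw [hGs' _ h0, h1.fderiv_eq, fderiv_fun_const]
      simp
  · rw [if_neg hx]
    have h1 : x ∉ tsupport (fun x => X x * G (F x)) := fun h =>
      hx (hXt (tsupport_mul_subset_left h))
    rw [fderiv_eq_zero_of_notMem h1]
    simp

/-- translation invariance -/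
theorem transl (hF : ContDiff ℝ 1 F) (hΩ : IsOpen Ω) (hΩc : IsCompact (closure Ω)) {s s' : ℝ}
    (hb : ∀ x ∈ closure Ω \ Ω, s' < ‖F x‖) {g : E → ℝ} (hg : ContDiff ℝ 1 g)
    (hgs : ∀ w, s < ‖w‖ → g w = 0) (y : E) (hy : s + ‖y‖ ≤ s') :
    ∫ x in Ω, g (F x - y) * (fderiv ℝ F x).det ∂μ = ∫ x in Ω, g (F x) * (fderiv ℝ F x).det ∂μ := by
  have hfin : IsFiniteMeasure (μ.restrict Ω) := by
    refine ⟨?_⟩
    rw [Measure.restrict_apply_univ]
    exact (measure_mono subset_closure).trans_lt hΩc.measure_lt_top
  have hgc : HasCompactSupport g := by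
    refine HasCompactSupport.intro (isCompact_closedBall (0 : E) s) fun w hw => hgs w ?_
    rw [mem_closedBall_zero_iff, not_le] at hw
    exact hw
  have hdc := det_cont hF
  obtain ⟨C1, hC1⟩ := (hg.continuous_fderiv (by simp)).bounded_above_of_compact_support
    (hgc.fderiv ℝ)
  obtain ⟨C2, hC2⟩ := hΩc.exists_bound_of_continuousOn hdc.continuousOn
  have hC10 : 0 ≤ C1 := (norm_nonneg _).trans (hC1 0)
  set φ : ℝ → ℝ := fun t => ∫ x in Ω, g (F x - t • y) * (fderiv ℝ F x).det ∂μ with hφ
  have hder : ∀ t ∈ Icc (0 : ℝ) 1, HasDerivAt φ 0 t := by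
    intro t ht
    have hd : ∀ x u, HasDerivAt (fun u : ℝ => g (F x - u • y) * (fderiv ℝ F x).det)
        (-(fderiv ℝ g (F x - u • y) y) * (fderiv ℝ F x).det) u := by
      intro x u
      have e1 : HasDerivAt (fun u : ℝ => F x - u • y) (-y) u := by
        have := ((hasDerivAt_id u).smul_const y).const_sub (F x)
        simpa using this
      have e2 := ((hg.differentiable (by simp)) (F x - u • y)).hasFDerivAt.comp_hasDerivAt u e1
      have e3 := e2.mul_const ((fderiv ℝ F x).det)
      simpa using e3
    have hcm : ∀ u : ℝ, Continuous (fun x => g (F x - u • y) * (fderiv ℝ F x).det) := by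
      intro u
      have := hg.continuous
      have := hF.continuous
      fun_prop
    have key := hasDerivAt_integral_of_dominated_loc_of_deriv_le (μ := μ.restrict Ω)
      (F := fun u x => g (F x - u • y) * (fderiv ℝ F x).det) (x₀ := t)
      (F' := fun u x => -(fderiv ℝ g (F x - u • y) y) * (fderiv ℝ F x).det)
      (bound := fun _ => C1 * ‖y‖ * C2) (s := univ) univ_mem
      (Eventually.of_forall fun u => (hcm u).aestronglyMeasurable)
      (((hcm t).continuousOn.integrableOn_compact hΩc).mono_set subset_closure) ?_ ?_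
      (integrable_const _) (Eventually.of_forall fun x u _ => hd x u)
    · have e1 := key.2
      have e2 : ∫ x in Ω, -(fderiv ℝ g (F x - t • y) y) * (fderiv ℝ F x).det ∂μ = 0 := by
        have e3 := transl0 μ hF hΩ hΩc hb (G := fun w => g (w - t • y))
          (hg.comp (contDiff_id.sub contDiff_const)) (fun w hw => hgs _ (by
            have h1 : ‖w‖ ≤ ‖w - t • y‖ + ‖t • y‖ := by
              have := norm_add_le (w - t • y) (t • y)
              rwa [sub_add_cancel] at this
            have h2 : ‖t • y‖ ≤ ‖y‖ := by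
              rw [norm_smul, Real.norm_of_nonneg ht.1]
              exact mul_le_of_le_one_left (norm_nonneg _) ht.2
            linarith)) y
        have e4 : ∀ x, fderiv ℝ (fun w => g (w - t • y)) (F x) = fderiv ℝ g (F x - t • y) := by
          intro x
          simp only [sub_eq_add_neg]
          rw [fderiv_comp_add_right]
        simp only [e4] at e3
        rw [← neg_eq_zero, ← integral_neg] at e3
        rw [← e3]
        refine integral_congr_ae (Eventually.of_forall fun x => ?_)
        simp only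
        ring
      rw [e2] at e1
      exact e1
    · have h1 := hg.continuous_fderiv (by simp)
      have h2 := hF.continuous
      exact Continuous.aestronglyMeasurable (by fun_prop)
    · refine (ae_restrict_iff' hΩ.measurableSet).2 (Eventually.of_forall fun x hx u _ => ?_)
      rw [norm_mul, norm_neg]
      have h1 := hC2 x (subset_closure hx)
      have h2 : ‖fderiv ℝ g (F x - u • y) y‖ ≤ C1 * ‖y‖ :=
        ((fderiv ℝ g (F x - u • y)).le_opNorm y).trans (by gcongr; exact hC1 _)
      gcongr
  have h1 := constant_of_has_deriv_right_zero (f := φ) (a := 0) (b := 1)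
    (fun t ht => (hder t ht).continuousAt.continuousWithinAt)
    (fun t ht => (hder t (Ico_subset_Icc_self ht)).hasDerivWithinAt) 1 (right_mem_Icc.2 zero_le_one)
  simpa [hφ] using h1

/-- averaging -/
theorem avg (hF : ContDiff ℝ 1 F) (hΩ : IsOpen Ω) (hΩc : IsCompact (closure Ω))
    (hb : ∀ x ∈ closure Ω \ Ω, F x ≠ 0) {g : ℝ → E → ℝ} {c N : ℝ} (hc : 0 < c)
    (hg : ∀ ε, 0 < ε → ContDiff ℝ 1 (g ε) ∧ (∀ w, 0 ≤ g ε w) ∧ (∀ w, ε < ‖w‖ → g ε w = 0) ∧
      ∫ w, g ε w ∂μ = c)
    (hN : ∀ᶠ ε in 𝓝[>] (0 : ℝ), ∫ x in Ω, g ε (F x) * (fderiv ℝ F x).det ∂μ = c * N) :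
    ∃ ε₀ > 0, ∀ f : E → ℝ, Continuous f → tsupport f ⊆ ball 0 ε₀ →
      ∫ x in Ω, f (F x) * (fderiv ℝ F x).det ∂μ = N * ∫ y, f y ∂μ := by
  have hfin : IsFiniteMeasure (μ.restrict Ω) := by
    refine ⟨?_⟩
    rw [Measure.restrict_apply_univ]
    exact (measure_mono subset_closure).trans_lt hΩc.measure_lt_top
  have hdc := det_cont hF
  -- lower bound at the boundary
  obtain ⟨r, hr, hrb⟩ : ∃ r > 0, ∀ x ∈ closure Ω \ Ω, r < ‖F x‖ := by
    rcases (closure Ω \ Ω).eq_empty_or_nonempty with h | h
    · exact ⟨1, one_pos, fun x hx => by rw [h] at hx; exact absurd hx (notMem_empty x)⟩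
    · obtain ⟨x, hx, hm⟩ := (hΩc.diff hΩ).exists_isMinOn h hF.continuous.norm.continuousOn
      refine ⟨‖F x‖ / 2, half_pos (norm_pos_iff.2 (hb x hx)), fun z hz => ?_⟩
      exact lt_of_lt_of_le (half_lt_self (norm_pos_iff.2 (hb x hx))) (hm hz)
  refine ⟨r / 2, half_pos hr, fun f hf hfs => ?_⟩
  have hfc : HasCompactSupport f := by
    refine HasCompactSupport.intro (isCompact_closedBall (0 : E) (r / 2)) fun w hw => ?_
    refine image_eq_zero_of_notMem_tsupport fun h => hw ?_
    exact ball_subset_closedBall (hfs h)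
  have hfi : Integrable f μ := hf.integrable_of_hasCompactSupport hfc
  have hf0 : ∀ y, f y ≠ 0 → ‖y‖ < r / 2 := by
    intro y hy
    have := hfs (subset_tsupport f hy)
    rwa [mem_ball_zero_iff] at this
  set I := ∫ x in Ω, f (F x) * (fderiv ℝ F x).det ∂μ with hI
  obtain ⟨C, hC⟩ := hΩc.exists_bound_of_continuousOn hdc.continuousOn
  have hC0 : 0 ≤ |C| := abs_nonneg C
  -- the convolution
  set cv : ℝ → E → ℝ := fun ε w => ∫ y, f y * g ε (w - y) ∂μ with hcv
  have A1 : ∀ᶠ ε in 𝓝[>] (0 : ℝ), ∫ x in Ω, cv ε (F x) * (fderiv ℝ F x).det ∂μ =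
      c * N * ∫ y, f y ∂μ := by
    filter_upwards [hN, self_mem_nhdsWithin, nhdsWithin_le_nhds (gt_mem_nhds (half_pos hr))]
      with ε h1 hε h2
    have hε : 0 < ε := hε
    obtain ⟨g1, g2, g3, g4⟩ := hg ε hε
    have e1 : ∀ x, cv ε (F x) * (fderiv ℝ F x).det =
        ∫ y, f y * g ε (F x - y) * (fderiv ℝ F x).det ∂μ := by
      intro x
      rw [← integral_mul_const]
    simp only [e1]
    have hcont : Continuous (fun p : E × E => f p.2 * g ε (F p.1 - p.2) * (fderiv ℝ F p.1).det) :=
      ((hf.comp continuous_snd).mul (g1.continuous.comp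
        ((hF.continuous.comp continuous_fst).sub continuous_snd))).mul (hdc.comp continuous_fst)
    have i1 : Integrable (Function.uncurry fun x y => f y * g ε (F x - y) * (fderiv ℝ F x).det)
        ((μ.restrict Ω).prod μ) := by
      have c2 : IntegrableOn (fun p : E × E => f p.2 * g ε (F p.1 - p.2) * (fderiv ℝ F p.1).det)
          (Ω ×ˢ tsupport f) (μ.prod μ) := by
        refine (hcont.continuousOn.integrableOn_compact
          (hΩc.prod hfc.isCompact)).mono_set ?_
        exact prod_mono subset_closure subset_rfl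
      have c3 : IntegrableOn (fun p : E × E => f p.2 * g ε (F p.1 - p.2) * (fderiv ℝ F p.1).det)
          (Ω ×ˢ univ) (μ.prod μ) := by
        refine c2.of_forall_sdiff_eq_zero (hΩ.measurableSet.prod MeasurableSet.univ) ?_
        rintro ⟨z, y⟩ ⟨⟨h1, -⟩, h2⟩
        have : f y = 0 := image_eq_zero_of_notMem_tsupport fun h => h2 ⟨h1, h⟩
        simp [this]
      rw [IntegrableOn, ← Measure.prod_restrict, Measure.restrict_univ] at c3
      exact c3
    rw [integral_integral_swap i1]
    have e2 : ∀ y, ∫ x in Ω, f y * g ε (F x - y) * (fderiv ℝ F x).det ∂μ = f y * (c * N) := by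
      intro y
      by_cases hy : f y = 0
      · simp [hy]
      · simp only [mul_assoc]
        rw [integral_const_mul, transl μ hF hΩ hΩc hrb g1 g3 y (by
          have := hf0 y hy
          linarith), h1]
    simp only [e2]
    rw [integral_mul_const]
    ring
  -- closeness
  have A2 : ∀ η > 0, |c * N * ∫ y, f y ∂μ - c * I| ≤ c * η * |C| * μ.real Ω := by
    intro η hη
    have hu := hfc.uniformContinuous_of_continuous hf
    rw [Metric.uniformContinuous_iff] at hu
    obtain ⟨δ, hδ, hδ'⟩ := hu η hη
    have hA : ∀ᶠ ε in 𝓝[>] (0 : ℝ), 0 < ε ∧ ε < δ := by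
      filter_upwards [self_mem_nhdsWithin, nhdsWithin_le_nhds (gt_mem_nhds hδ)] with ε h1 h2
        using ⟨h1, h2⟩
    obtain ⟨ε, h1, hε, h2⟩ := (A1.and hA).exists
    obtain ⟨g1, g2, g3, g4⟩ := hg ε hε
    have hgc : HasCompactSupport (g ε) := by
      refine HasCompactSupport.intro (isCompact_closedBall (0 : E) ε) fun w hw => g3 w ?_
      rw [mem_closedBall_zero_iff, not_le] at hw
      exact hw
    have hgi : Integrable (g ε) μ := g1.continuous.integrable_of_hasCompactSupport hgc
    have B1 : ∀ w, |cv ε w - c * f w| ≤ c * η := by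
      intro w
      have e1 : cv ε w = ∫ z, f (w - z) * g ε z ∂μ := by
        simp only [hcv]
        rw [← integral_sub_left_eq_self (fun y => f y * g ε (w - y)) μ w]
        simp
      have i1 : Integrable (fun z => f (w - z) * g ε z) μ := by
        refine (Continuous.mul (by fun_prop) g1.continuous).integrable_of_hasCompactSupport ?_
        exact hgc.mul_left
      have e2 : cv ε w - c * f w = ∫ z, (f (w - z) - f w) * g ε z ∂μ := by
        have e3 : ∀ z, (f (w - z) - f w) * g ε z = f (w - z) * g ε z - f w * g ε z := fun z => by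
          ring
        simp only [e3]
        rw [integral_sub i1 (hgi.const_mul _), integral_const_mul, g4, e1]
        ring
      rw [e2, ← Real.norm_eq_abs]
      have e4 : ∀ z, ‖(f (w - z) - f w) * g ε z‖ ≤ η * g ε z := by
        intro z
        rw [norm_mul, Real.norm_of_nonneg (g2 z)]
        by_cases hz : g ε z = 0
        · simp [hz]
        · have h3 : ‖z‖ ≤ ε := by
            by_contra hc
            exact hz (g3 z (not_le.1 hc))
          have h4 : dist (f (w - z)) (f w) < η := hδ' (by
            rw [dist_eq_norm, sub_sub_cancel_left, norm_neg]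
            linarith)
          rw [dist_eq_norm] at h4
          exact mul_le_mul_of_nonneg_right h4.le (g2 z)
      calc ‖∫ z, (f (w - z) - f w) * g ε z ∂μ‖ ≤ ∫ z, η * g ε z ∂μ :=
            norm_integral_le_of_norm_le (hgi.const_mul η) (Eventually.of_forall e4)
        _ = c * η := by rw [integral_const_mul, g4]; ring
    rw [← h1, hI, ← integral_const_mul, ← integral_sub]
    · rw [← Real.norm_eq_abs]
      have B2 : ∀ x ∈ Ω, ‖cv ε (F x) * (fderiv ℝ F x).det - c * (f (F x) * (fderiv ℝ F x).det)‖ ≤
          c * η * |C| := by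
        intro x hx
        have e1 : cv ε (F x) * (fderiv ℝ F x).det - c * (f (F x) * (fderiv ℝ F x).det) =
            (cv ε (F x) - c * f (F x)) * (fderiv ℝ F x).det := by ring
        rw [e1, norm_mul, Real.norm_eq_abs]
        gcongr
        · exact B1 _
        · exact (hC x (subset_closure hx)).trans (le_abs_self C)
      exact norm_setIntegral_le_of_norm_le_const
        ((measure_mono subset_closure).trans_lt hΩc.measure_lt_top) B2
    · -- integrability
      have hcvc : Continuous (cv ε) := by
        have : cv ε = MeasureTheory.convolution f (g ε) (ContinuousLinearMap.mul ℝ ℝ) μ := rfl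
        rw [this]
        exact hfc.continuous_convolution_left (ContinuousLinearMap.mul ℝ ℝ) hf
          g1.continuous.locallyIntegrable
      have hh : Continuous (fun x => cv ε (F x) * (fderiv ℝ F x).det) :=
        (hcvc.comp hF.continuous).mul hdc
      exact (hh.continuousOn.integrableOn_compact hΩc).mono_set subset_closure
    · have hh : Continuous (fun x => c * (f (F x) * (fderiv ℝ F x).det)) :=
        continuous_const.mul ((hf.comp hF.continuous).mul hdc)
      exact (hh.continuousOn.integrableOn_compact hΩc).mono_set subset_closure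
  have A3 : c * N * ∫ y, f y ∂μ - c * I = 0 := by
    by_contra hne
    have h1 : 0 < |c * N * ∫ y, f y ∂μ - c * I| := abs_pos.2 hne
    set D := c * |C| * μ.real Ω + 1 with hD
    have hD0 : 0 < D := by positivity
    have h2 := A2 (|c * N * ∫ y, f y ∂μ - c * I| / (2 * D)) (by positivity)
    have h3 : c * (|c * N * ∫ y, f y ∂μ - c * I| / (2 * D)) * |C| * μ.real Ω ≤
        |c * N * ∫ y, f y ∂μ - c * I| / 2 := by
      have e1 : c * (|c * N * ∫ y, f y ∂μ - c * I| / (2 * D)) * |C| * μ.real Ω =
          |c * N * ∫ y, f y ∂μ - c * I| / 2 * ((c * |C| * μ.real Ω) / D) := by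
        field_simp
      rw [e1]
      refine mul_le_of_le_one_right (by positivity) ?_
      rw [div_le_one hD0, hD]
      linarith
    linarith
  have A4 : c * (N * ∫ y, f y ∂μ - I) = 0 := by linarith
  rcases mul_eq_zero.1 A4 with h | h
  · exact absurd h hc.ne'
  · linarith

end

end Vale.Agent.P247.H58.LW
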