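import Vale.Agent.P247.H58.LW.DetZero

/-!
# The determinant of four covectors on `ℂ × ℂ`, of two covectors on `ℂ`
-/

open MeasureTheory Set Metric Filter Topology
open scoped ContDiff

noncomputable section

namespace Vale.Agent.P247.H58.LW

/-- `ℂ²` -/
abbrev C2 : Type := ℂ × ℂ

/-- real covectors of `ℂ²` -/
abbrev Co : Type := C2 →L[ℝ] ℝ

/-- the minor -/
def mn (p q : Co) (v w : C2) : ℝ := p v * q w - p w * q v

/-- the determinant of four covectors -/
def br (p q r s : Co) : ℝ :=
  mn p q (1, 0) (Complex.I, 0) * mn r s (0, 1) (0, Complex.I)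
  - mn p q (1, 0) (0, 1) * mn r s (Complex.I, 0) (0, Complex.I)
  + mn p q (1, 0) (0, Complex.I) * mn r s (Complex.I, 0) (0, 1)
  + mn p q (Complex.I, 0) (0, 1) * mn r s (1, 0) (0, Complex.I)
  - mn p q (Complex.I, 0) (0, Complex.I) * mn r s (1, 0) (0, 1)
  + mn p q (0, 1) (0, Complex.I) * mn r s (1, 0) (Complex.I, 0)

def br2 (p q : ℂ →L[ℝ] ℝ) : ℝ := p 1 * q Complex.I - p Complex.I * q 1

/-- the real and the imaginary part of a covector -/
def re' {E : Type*} [NormedAddCommGroup E] [NormedSpace ℝ E] (l : E →L[ℝ] ℂ) : E →L[ℝ] ℝ :=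
  Complex.reCLM.comp l
def im' {E : Type*} [NormedAddCommGroup E] [NormedSpace ℝ E] (l : E →L[ℝ] ℂ) : E →L[ℝ] ℝ :=
  Complex.imCLM.comp l

@[simp] theorem re'_apply {E : Type*} [NormedAddCommGroup E] [NormedSpace ℝ E] (l : E →L[ℝ] ℂ)
    (x : E) : re' l x = (l x).re := rfl
@[simp] theorem im'_apply {E : Type*} [NormedAddCommGroup E] [NormedSpace ℝ E] (l : E →L[ℝ] ℂ)
    (x : E) : im' l x = (l x).im := rfl

theorem det4 (A : Matrix (Fin 4) (Fin 4) ℝ) : A.det =
    (A 0 0 * A 1 1 - A 0 1 * A 1 0) * (A 2 2 * A 3 3 - A 2 3 * A 3 2)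
    - (A 0 0 * A 1 2 - A 0 2 * A 1 0) * (A 2 1 * A 3 3 - A 2 3 * A 3 1)
    + (A 0 0 * A 1 3 - A 0 3 * A 1 0) * (A 2 1 * A 3 2 - A 2 2 * A 3 1)
    + (A 0 1 * A 1 2 - A 0 2 * A 1 1) * (A 2 0 * A 3 3 - A 2 3 * A 3 0)
    - (A 0 1 * A 1 3 - A 0 3 * A 1 1) * (A 2 0 * A 3 2 - A 2 2 * A 3 0)
    + (A 0 2 * A 1 3 - A 0 3 * A 1 2) * (A 2 0 * A 3 1 - A 2 1 * A 3 0) := by
  rw [Matrix.det_succ_row_zero]
  simp only [Fin.sum_univ_succ, Matrix.det_fin_three, Matrix.submatrix_apply,
    Finset.univ_eq_empty, Finset.sum_empty]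
  simp [Fin.succAbove, Fin.lt_def, Fin.succ, Fin.castSucc]
  ring

theorem det2_eq (M : ℂ →L[ℝ] ℂ) : M.det = br2 (re' M) (im' M) := by
  change LinearMap.det (M : ℂ →ₗ[ℝ] ℂ) = _
  rw [← LinearMap.det_toMatrix Complex.basisOneI, Matrix.det_fin_two]
  simp [LinearMap.toMatrix_apply, br2, Complex.coe_basisOneI_repr]

/-- the real basis of `ℂ²` -/
def bs : Module.Basis (Fin 2 ⊕ Fin 2) ℝ C2 := Complex.basisOneI.prod Complex.basisOneI

def bs4 : Module.Basis (Fin 4) ℝ C2 := bs.reindex finSumFinEquiv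

theorem det4_eq (M : C2 →L[ℝ] C2) : M.det =
    br (re' ((ContinuousLinearMap.fst ℝ ℂ ℂ).comp M)) (im' ((ContinuousLinearMap.fst ℝ ℂ ℂ).comp M))
      (re' ((ContinuousLinearMap.snd ℝ ℂ ℂ).comp M))
      (im' ((ContinuousLinearMap.snd ℝ ℂ ℂ).comp M)) := by
  change LinearMap.det (M : C2 →ₗ[ℝ] C2) = _
  have e0 : bs4 0 = (1, 0) := by
    simp only [bs4, bs, Module.Basis.reindex_apply]
    rw [show finSumFinEquiv.symm (0 : Fin (2 + 2)) = Sum.inl 0 from rfl]
    simp
  have e1 : bs4 1 = (Complex.I, 0) := by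
    simp only [bs4, bs, Module.Basis.reindex_apply]
    rw [show finSumFinEquiv.symm (1 : Fin (2 + 2)) = Sum.inl 1 from rfl]
    simp
  have e2 : bs4 2 = (0, 1) := by
    simp only [bs4, bs, Module.Basis.reindex_apply]
    rw [show finSumFinEquiv.symm (2 : Fin (2 + 2)) = Sum.inr 0 from rfl]
    simp
  have e3 : bs4 3 = (0, Complex.I) := by
    simp only [bs4, bs, Module.Basis.reindex_apply]
    rw [show finSumFinEquiv.symm (3 : Fin (2 + 2)) = Sum.inr 1 from rfl]
    simp
  have r0 : ∀ x : C2, bs4.repr x 0 = x.1.re := by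
    intro x
    simp only [bs4, bs, Module.Basis.repr_reindex_apply]
    rw [show finSumFinEquiv.symm (0 : Fin (2 + 2)) = Sum.inl 0 from rfl]
    simp [Complex.coe_basisOneI_repr]
  have r1 : ∀ x : C2, bs4.repr x 1 = x.1.im := by
    intro x
    simp only [bs4, bs, Module.Basis.repr_reindex_apply]
    rw [show finSumFinEquiv.symm (1 : Fin (2 + 2)) = Sum.inl 1 from rfl]
    simp [Complex.coe_basisOneI_repr]
  have r2 : ∀ x : C2, bs4.repr x 2 = x.2.re := by
    intro x
    simp only [bs4, bs, Module.Basis.repr_reindex_apply]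
    rw [show finSumFinEquiv.symm (2 : Fin (2 + 2)) = Sum.inr 0 from rfl]
    simp [Complex.coe_basisOneI_repr]
  have r3 : ∀ x : C2, bs4.repr x 3 = x.2.im := by
    intro x
    simp only [bs4, bs, Module.Basis.repr_reindex_apply]
    rw [show finSumFinEquiv.symm (3 : Fin (2 + 2)) = Sum.inr 1 from rfl]
    simp [Complex.coe_basisOneI_repr]
  rw [← LinearMap.det_toMatrix bs4, det4]
  simp only [LinearMap.toMatrix_apply, e0, e1, e2, e3, r0, r1, r2, r3]
  rfl

/-! ## multilinearity -/

section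
variable (p p' q q' r r' s s' : Co) (c : ℝ)

theorem br_add1 : br (p + p') q r s = br p q r s + br p' q r s := by
  simp only [br, mn, _root_.add_apply]; ring
theorem br_smul1 : br (c • p) q r s = c * br p q r s := by
  simp only [br, mn, _root_.smul_apply, smul_eq_mul]; ring
theorem br_add2 : br p (q + q') r s = br p q r s + br p q' r s := by
  simp only [br, mn, _root_.add_apply]; ring
theorem br_smul2 : br p (c • q) r s = c * br p q r s := by
  simp only [br, mn, _root_.smul_apply, smul_eq_mul]; ring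
theorem br_sub2 : br p (q - q') r s = br p q r s - br p q' r s := by
  simp only [br, mn, _root_.sub_apply]; ring
theorem br_add3 : br p q (r + r') s = br p q r s + br p q r' s := by
  simp only [br, mn, _root_.add_apply]; ring
theorem br_smul3 : br p q (c • r) s = c * br p q r s := by
  simp only [br, mn, _root_.smul_apply, smul_eq_mul]; ring
theorem br_add4 : br p q r (s + s') = br p q r s + br p q r s' := by
  simp only [br, mn, _root_.add_apply]; ring
theorem br_smul4 : br p q r (c • s) = c * br p q r s := by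
  simp only [br, mn, _root_.smul_apply, smul_eq_mul]; ring
theorem br_swap12 : br q p r s = - br p q r s := by
  simp only [br, mn]; ring
theorem br_swap34 : br p q s r = - br p q r s := by
  simp only [br, mn]; ring
theorem br_pair : br r s p q = br p q r s := by
  simp only [br, mn]; ring
theorem br_self12 : br p p r s = 0 := by
  simp only [br, mn]; ring
theorem br_self34 : br p q r r = 0 := by
  simp only [br, mn]; ring
theorem br_zero1 : br 0 q r s = 0 := by
  simp only [br, mn, _root_.zero_apply]; ring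
theorem br_zero2 : br p 0 r s = 0 := by
  simp only [br, mn, _root_.zero_apply]; ring
end

section
variable (p p' q q' : ℂ →L[ℝ] ℝ) (c : ℝ)
theorem br2_add1 : br2 (p + p') q = br2 p q + br2 p' q := by
  simp only [br2, _root_.add_apply]; ring
theorem br2_smul1 : br2 (c • p) q = c * br2 p q := by
  simp only [br2, _root_.smul_apply, smul_eq_mul]; ring
theorem br2_add2 : br2 p (q + q') = br2 p q + br2 p q' := by
  simp only [br2, _root_.add_apply]; ring
theorem br2_sub2 : br2 p (q - q') = br2 p q - br2 p q' := by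
  simp only [br2, _root_.sub_apply]; ring
theorem br2_smul2 : br2 p (c • q) = c * br2 p q := by
  simp only [br2, _root_.smul_apply, smul_eq_mul]; ring
theorem br2_swap : br2 q p = - br2 p q := by
  simp only [br2]; ring
theorem br2_self : br2 p p = 0 := by
  simp only [br2]; ring
theorem br2_zero1 : br2 0 q = 0 := by
  simp only [br2, _root_.zero_apply]; ring
end

end Vale.Agent.P247.H58.LW
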