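import Vale.Agent.P247.H58.LW.Br

/-!
# Cut-off functions, integrals of exact forms
-/

open MeasureTheory Set Metric Filter Topology
open scoped ContDiff Manifold

noncomputable section

namespace Vale.Agent.P247.H58.LW

section
variable {E : Type*} [NormedAddCommGroup E] [NormedSpace ℝ E] [FiniteDimensional ℝ E]

/-- cut-off functions -/
theorem exists_cut {B U : Set E} (hB : IsCompact B) (hU : IsOpen U) (h : B ⊆ U) :
    ∃ χ : E → ℝ, ContDiff ℝ ∞ χ ∧ HasCompactSupport χ ∧ tsupport χ ⊆ U ∧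
      (∀ᶠ x in 𝓝ˢ B, χ x = 1) ∧ ∀ x, χ x ∈ Icc (0 : ℝ) 1 := by
  obtain ⟨K, hK, h1, h2⟩ := exists_compact_between hB hU h
  obtain ⟨f, hf1, hf0, hf⟩ := exists_contMDiffMap_one_nhds_of_subset_interior (n := (⊤ : ℕ∞))
    𝓘(ℝ, E) hB.isClosed h1
  have hs : tsupport (f : E → ℝ) ⊆ K := by
    refine closure_minimal (fun x hx => ?_) hK.isClosed
    by_contra hxK
    exact hx (hf0 x hxK)
  exact ⟨f, f.contMDiff.contDiff, hK.of_isClosed_subset (isClosed_tsupport _) hs,
    hs.trans h2, hf1, hf⟩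

/-- extension of a function defined near a compact set -/
theorem exists_ext {F : Type*} [NormedAddCommGroup F] [NormedSpace ℝ F] {n : WithTop ℕ∞}
    (hn : n ≤ ∞) {B U : Set E} (hB : IsCompact B)
    (hU : IsOpen U) (h : B ⊆ U) {f : E → F} (hf : ContDiffOn ℝ n f U) :
    ∃ g : E → F, ContDiff ℝ n g ∧ ∀ᶠ x in 𝓝ˢ B, g x = f x := by
  obtain ⟨χ, h1, h2, h3, h4, -⟩ := exists_cut hB hU h
  refine ⟨fun x => χ x • f x, ?_, ?_⟩
  · rw [contDiff_iff_contDiffAt]
    intro x
    by_cases hx : x ∈ U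
    · exact (h1.contDiffAt.of_le hn).smul (hf.contDiffAt (hU.mem_nhds hx))
    · have h5 : x ∉ tsupport χ := fun h => hx (h3 h)
      have h6 : (fun x => χ x • f x) =ᶠ[𝓝 x] fun _ => 0 := by
        filter_upwards [notMem_tsupport_iff_eventuallyEq.1 h5] with y hy
        rw [hy]
        simp
      exact contDiffAt_const.congr_of_eventuallyEq h6
  · filter_upwards [h4] with x hx
    rw [hx, one_smul]

/-- cut off a function away from a compact set -/
theorem exists_trunc {F : Type*} [NormedAddCommGroup F] [NormedSpace ℝ F] {n : WithTop ℕ∞}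
    (hn : n ≤ ∞) {B : Set E} (hB : IsCompact B) {f : E → F} (hf : ContDiff ℝ n f) :
    ∃ g : E → F, ContDiff ℝ n g ∧ HasCompactSupport g ∧ ∀ᶠ x in 𝓝ˢ B, g x = f x := by
  obtain ⟨χ, h1, h2, h3, h4, -⟩ := exists_cut hB isOpen_univ (subset_univ B)
  refine ⟨fun x => χ x • f x, (h1.of_le hn).smul hf, h2.smul_right, ?_⟩
  filter_upwards [h4] with x hx
  rw [hx, one_smul]

omit [NormedSpace ℝ E] [FiniteDimensional ℝ E] in
theorem ev_of_nhdsSet {B : Set E} {p : E → Prop} (h : ∀ᶠ x in 𝓝ˢ B, p x) {x : E} (hx : x ∈ B) :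
    ∀ᶠ y in 𝓝 x, p y := eventually_nhdsSet_iff_forall.1 h x hx

omit [FiniteDimensional ℝ E] in
theorem fderiv_eq_zero_of_notMem {F : Type*} [NormedAddCommGroup F] [NormedSpace ℝ F]
    {f : E → F} {x : E} (hx : x ∉ tsupport f) : fderiv ℝ f x = 0 :=
  image_eq_zero_of_notMem_tsupport fun h => hx (tsupport_fderiv_subset ℝ h)

end

theorem haarC2 : (volume : Measure C2).IsAddHaarMeasure := by
  rw [Measure.volume_eq_prod]
  infer_instance

/-- `∫ dP ∧ dQ ∧ dR ∧ dS = 0` -/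
theorem br_int {P Q R S : C2 → ℝ} (hP : ContDiff ℝ 1 P) (hPs : HasCompactSupport P)
    (hQ : ContDiff ℝ 1 Q) (hR : ContDiff ℝ 1 R) (hS : ContDiff ℝ 1 S) :
    ∫ x, br (fderiv ℝ P x) (fderiv ℝ Q x) (fderiv ℝ R x) (fderiv ℝ S x) = 0 := by
  obtain ⟨Q', hQ1, hQ2, hQ3⟩ := exists_trunc (by simp) hPs hQ
  obtain ⟨R', hR1, hR2, hR3⟩ := exists_trunc (by simp) hPs hR
  obtain ⟨S', hS1, hS2, hS3⟩ := exists_trunc (by simp) hPs hS
  set G : C2 → C2 := fun x => (P x + Q' x * Complex.I, R' x + S' x * Complex.I) with hG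
  have hc : ContDiff ℝ 1 (fun t : ℝ => (t : ℂ)) := Complex.ofRealCLM.contDiff
  have hG1 : ContDiff ℝ 1 G :=
    ((hc.comp hP).add ((hc.comp hQ1).mul contDiff_const)).prodMk
      ((hc.comp hR1).add ((hc.comp hS1).mul contDiff_const))
  have hG2 : HasCompactSupport G := by
    have hK : IsCompact (tsupport P ∪ tsupport Q' ∪ tsupport R' ∪ tsupport S') :=
      ((hPs.isCompact.union hQ2.isCompact).union hR2.isCompact).union hS2.isCompact
    refine HasCompactSupport.intro hK fun x hx => ?_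
    simp only [mem_union, not_or] at hx
    simp [hG, image_eq_zero_of_notMem_tsupport hx.1.1.1, image_eq_zero_of_notMem_tsupport hx.1.1.2,
      image_eq_zero_of_notMem_tsupport hx.1.2, image_eq_zero_of_notMem_tsupport hx.2]
  have := haarC2
  have key := integral_det_eq_zero (volume : Measure C2) hG1 hG2
  rw [← key]
  refine integral_congr_ae (Eventually.of_forall fun x => ?_)
  have d1 : HasFDerivAt (fun x => (P x : ℂ) + Q' x * Complex.I)
      (Complex.ofRealCLM.comp (fderiv ℝ P x) +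
        (ContinuousLinearMap.mul ℝ ℂ).flip Complex.I ∘L (Complex.ofRealCLM.comp (fderiv ℝ Q' x))) x := by
    have e1 := Complex.ofRealCLM.hasFDerivAt.comp x ((hP.differentiable (by simp)) x).hasFDerivAt
    have e2 := Complex.ofRealCLM.hasFDerivAt.comp x ((hQ1.differentiable (by simp)) x).hasFDerivAt
    exact e1.add (((ContinuousLinearMap.mul ℝ ℂ).flip Complex.I).hasFDerivAt.comp x e2)
  have d2 : HasFDerivAt (fun x => (R' x : ℂ) + S' x * Complex.I)
      (Complex.ofRealCLM.comp (fderiv ℝ R' x) +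
        (ContinuousLinearMap.mul ℝ ℂ).flip Complex.I ∘L (Complex.ofRealCLM.comp (fderiv ℝ S' x))) x := by
    have e1 := Complex.ofRealCLM.hasFDerivAt.comp x ((hR1.differentiable (by simp)) x).hasFDerivAt
    have e2 := Complex.ofRealCLM.hasFDerivAt.comp x ((hS1.differentiable (by simp)) x).hasFDerivAt
    exact e1.add (((ContinuousLinearMap.mul ℝ ℂ).flip Complex.I).hasFDerivAt.comp x e2)
  have d3 : HasFDerivAt G _ x := d1.prodMk d2
  have e : (fderiv ℝ G x).det = br (fderiv ℝ P x) (fderiv ℝ Q' x) (fderiv ℝ R' x)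
      (fderiv ℝ S' x) := by
    rw [det4_eq, d3.fderiv]
    congr 1 <;> ext v <;> simp
  simp only
  rw [e]
  by_cases hx : x ∈ tsupport P
  · have f1 : fderiv ℝ Q' x = fderiv ℝ Q x := Filter.EventuallyEq.fderiv_eq (ev_of_nhdsSet hQ3 hx)
    have f2 : fderiv ℝ R' x = fderiv ℝ R x := Filter.EventuallyEq.fderiv_eq (ev_of_nhdsSet hR3 hx)
    have f3 : fderiv ℝ S' x = fderiv ℝ S x := Filter.EventuallyEq.fderiv_eq (ev_of_nhdsSet hS3 hx)
    rw [f1, f2, f3]
  · rw [fderiv_eq_zero_of_notMem hx, br_zero1, br_zero1]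

/-- `∫ dP ∧ dQ = 0` -/
theorem br2_int {P Q : ℂ → ℝ} (hP : ContDiff ℝ 1 P) (hPs : HasCompactSupport P)
    (hQ : ContDiff ℝ 1 Q) :
    ∫ x, br2 (fderiv ℝ P x) (fderiv ℝ Q x) = 0 := by
  obtain ⟨Q', hQ1, hQ2, hQ3⟩ := exists_trunc (by simp) hPs hQ
  set G : ℂ → ℂ := fun x => P x + Q' x * Complex.I with hG
  have hc : ContDiff ℝ 1 (fun t : ℝ => (t : ℂ)) := Complex.ofRealCLM.contDiff
  have hG1 : ContDiff ℝ 1 G := (hc.comp hP).add ((hc.comp hQ1).mul contDiff_const)
  have hG2 : HasCompactSupport G := by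
    refine HasCompactSupport.intro (hPs.isCompact.union hQ2.isCompact) fun x hx => ?_
    simp only [mem_union, not_or] at hx
    simp [hG, image_eq_zero_of_notMem_tsupport hx.1, image_eq_zero_of_notMem_tsupport hx.2]
  have key := integral_det_eq_zero (volume : Measure ℂ) hG1 hG2
  rw [← key]
  refine integral_congr_ae (Eventually.of_forall fun x => ?_)
  have d1 : HasFDerivAt (fun x => (P x : ℂ) + Q' x * Complex.I)
      (Complex.ofRealCLM.comp (fderiv ℝ P x) +
        (ContinuousLinearMap.mul ℝ ℂ).flip Complex.I ∘L (Complex.ofRealCLM.comp (fderiv ℝ Q' x))) x := by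
    have e1 := Complex.ofRealCLM.hasFDerivAt.comp x ((hP.differentiable (by simp)) x).hasFDerivAt
    have e2 := Complex.ofRealCLM.hasFDerivAt.comp x ((hQ1.differentiable (by simp)) x).hasFDerivAt
    exact e1.add (((ContinuousLinearMap.mul ℝ ℂ).flip Complex.I).hasFDerivAt.comp x e2)
  have e : (fderiv ℝ G x).det = br2 (fderiv ℝ P x) (fderiv ℝ Q' x) := by
    rw [det2_eq, d1.fderiv]
    congr 1 <;> ext v <;> simp
  simp only
  rw [e]
  by_cases hx : x ∈ tsupport P
  · have f1 : fderiv ℝ Q' x = fderiv ℝ Q x := Filter.EventuallyEq.fderiv_eq (ev_of_nhdsSet hQ3 hx)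
    rw [f1]
  · rw [fderiv_eq_zero_of_notMem hx, br2_zero1, br2_zero1]

end Vale.Agent.P247.H58.LW
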