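import Vale.Agent.P247.H58.LW.DegS
import Vale.Agent.P247.H58.LW.Avg

/-!
# The degree lemma
-/

open MeasureTheory Set Metric Filter Topology Polynomial
open scoped ContDiff

noncomputable section

namespace Vale.Agent.P247.H58.LW

open Vale.Agent.P247.H74 Vale.Agent.P247.H74.CE

/-- the kernel on `ℂ²` -/
def kg (ε : ℝ) (w : C2) : ℝ := kf ε w.1 * kf ε w.2

theorem kg_props {ε : ℝ} (hε : 0 < ε) : ContDiff ℝ 1 (kg ε) ∧ (∀ w, 0 ≤ kg ε w) ∧
    (∀ w, ε < ‖w‖ → kg ε w = 0) ∧ ∫ w, kg ε w = Real.pi * Real.pi := by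
  refine ⟨?_, fun w => mul_nonneg (kf_nonneg hε _) (kf_nonneg hε _), fun w hw => ?_, ?_⟩
  · exact (((kf_smooth ε).of_le (by simp)).comp contDiff_fst).mul
      (((kf_smooth ε).of_le (by simp)).comp contDiff_snd)
  · rw [Prod.norm_def, lt_max_iff] at hw
    rcases hw with hw | hw
    · rw [kg, kf_zero hε hw.le, zero_mul]
    · rw [kg, kf_zero hε hw.le, mul_zero]
  · rw [Measure.volume_eq_prod]
    have := integral_prod_mul (μ := (volume : Measure ℂ)) (ν := (volume : Measure ℂ))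
      (kf ε) (kf ε)
    rw [kf_integral hε] at this
    exact this

section
variable {K : ℕ} {Φ : ℂ → ℂ} {H : C2 → ℂ} {R R' : ℝ} {m : ℂ → ℤ}

/-- the map of which we compute the degree -/
def dF (K : ℕ) (Φ : ℂ → ℂ) (H : C2 → ℂ) (x : C2) : C2 := (x.2 ^ K - Φ x.1 ^ K, H x)

theorem deg_global (hK : 0 < K) (hΦ : ContDiff ℝ 1 Φ) (hH : ContDiff ℝ 1 H) (hR : 0 < R)
    (hR' : ∀ z ∈ closedBall (0 : ℂ) R, ‖Φ z‖ < R')
    (hw : ∀ w ∈ nthRootsFinset K (1 : ℂ), HasWinding (fun z => H (z, w * Φ z)) 0 R (m w)) :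
    ∃ ε₀ > 0, ∀ f : C2 → ℝ, Continuous f → tsupport f ⊆ ball 0 ε₀ →
      ∫ x in pd R R', f (dF K Φ H x) * (fderiv ℝ (dF K Φ H) x).det =
        ((∑ w ∈ nthRootsFinset K (1 : ℂ), m w : ℤ) : ℝ) * ∫ y, f y := by
  have := haarC2
  have hR'0 : 0 < R' := lt_of_le_of_lt (norm_nonneg _) (hR' 0 (mem_closedBall_self hR.le))
  have hA : ContDiff ℝ 1 (fun x : C2 => x.2 ^ K - Φ x.1 ^ K) :=
    (contDiff_snd.pow K).sub ((hΦ.comp contDiff_fst).pow K)
  have hF : ContDiff ℝ 1 (dF K Φ H) := hA.prodMk hH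
  have hΩc : IsCompact (closure (pd R R')) := by
    rw [closure_pd hR hR'0]
    exact (isCompact_closedBall _ _).prod (isCompact_closedBall _ _)
  refine avg (volume : Measure C2) hF (pd_open R R') hΩc ?_ (g := kg)
    (c := Real.pi * Real.pi) (by positivity) (fun ε hε => kg_props hε) ?_
  · intro x hx h0
    have h1 : x.2 ^ K - Φ x.1 ^ K = 0 := congrArg Prod.fst h0
    have h2 : H x = 0 := congrArg Prod.snd h0
    rw [(Complex.isPrimitiveRoot_exp K hK.ne').pow_sub_pow_eq_prod_sub_mul _ _ hK,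
      Finset.prod_eq_zero_iff] at h1
    obtain ⟨w, hwS, h3⟩ := h1
    exact bd_ne hR hR'0 hR' (norm_root hK.ne' ((mem_nthRootsFinset hK 1).1 hwS)) (hw w hwS) hx h2
      (sub_eq_zero.1 h3)
  · filter_upwards [deg4_small hK hΦ hH hR hR' hw] with ε hε
    rw [mul_assoc, ← hε]
    refine integral_congr_ae (Eventually.of_forall fun x => ?_)
    simp only
    rw [dI_eq ((hA.differentiable (by simp)) x) ((hH.differentiable (by simp)) x)]
    rfl

/-- The degree lemma. -/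
theorem deg_local (hK : 0 < K) {U : Set C2} {V : Set ℂ} (hU : IsOpen U) (hV : IsOpen V)
    (hVR : closedBall (0 : ℂ) R ⊆ V) (hUR : closedBall (0 : ℂ) R ×ˢ closedBall (0 : ℂ) R' ⊆ U)
    (hΦ : ContDiffOn ℝ 1 Φ V) (hH : ContDiffOn ℝ 1 H U) (hR : 0 < R)
    (hR' : ∀ z ∈ closedBall (0 : ℂ) R, ‖Φ z‖ < R')
    (hw : ∀ w ∈ nthRootsFinset K (1 : ℂ), HasWinding (fun z => H (z, w * Φ z)) 0 R (m w)) :
    ∃ ε₀ > 0, ∀ f : C2 → ℝ, Continuous f → tsupport f ⊆ ball 0 ε₀ →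
      ∫ x in pd R R', f (dF K Φ H x) * (fderiv ℝ (dF K Φ H) x).det =
        ((∑ w ∈ nthRootsFinset K (1 : ℂ), m w : ℤ) : ℝ) * ∫ y, f y := by
  obtain ⟨Φ', hΦ1, hΦ2⟩ := exists_ext (by simp) (isCompact_closedBall (0 : ℂ) R) hV hVR hΦ
  obtain ⟨H', hH1, hH2⟩ := exists_ext (by simp)
    ((isCompact_closedBall (0 : ℂ) R).prod (isCompact_closedBall (0 : ℂ) R')) hU hUR hH
  have e1 : ∀ z ∈ closedBall (0 : ℂ) R, Φ' z = Φ z := fun z hz => (ev_of_nhdsSet hΦ2 hz).self_of_nhds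
  have hS1 : ∀ w ∈ nthRootsFinset K (1 : ℂ), ‖w‖ = 1 := fun w hw =>
    norm_root hK.ne' ((mem_nthRootsFinset hK 1).1 hw)
  obtain ⟨ε₀, hε₀, key⟩ := deg_global (K := K) (Φ := Φ') (H := H') (R := R) (R' := R') (m := m) hK
    hΦ1 hH1 hR (fun z hz => by rw [e1 z hz]; exact hR' z hz) (fun w hwS => by
      refine wind_congr (hw w hwS) fun z hz => ?_
      have hz' := sphere_subset_closedBall hz
      rw [e1 z hz']
      refine (ev_of_nhdsSet hH2 (x := (z, w * Φ z)) ⟨hz', ?_⟩).self_of_nhds.symm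
      rw [mem_closedBall_zero_iff]
      change ‖w * Φ z‖ ≤ R'
      rw [norm_mul, hS1 w hwS, one_mul]
      exact (hR' z hz').le)
  refine ⟨ε₀, hε₀, fun f hf hfs => ?_⟩
  rw [← key f hf hfs]
  refine setIntegral_congr_fun (pd_open R R').measurableSet fun x hx => ?_
  have h1 : x.1 ∈ closedBall (0 : ℂ) R := ball_subset_closedBall hx.1
  have h2 : x.2 ∈ closedBall (0 : ℂ) R' := ball_subset_closedBall hx.2
  have h3 : dF K Φ H =ᶠ[𝓝 x] dF K Φ' H' := by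
    have t1 : ∀ᶠ y : C2 in 𝓝 x, Φ' y.1 = Φ y.1 :=
      continuous_fst.continuousAt.eventually (ev_of_nhdsSet hΦ2 h1)
    filter_upwards [t1, ev_of_nhdsSet hH2 (x := x) ⟨h1, h2⟩] with y t2 t3
    simp [dF, t2, t3]
  rw [h3.self_of_nhds, h3.fderiv_eq]

end

end Vale.Agent.P247.H58.LW
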