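import Vale.Agent.P247.H58.LW.Form
import Vale.Agent.P247.H74.CE.Uc

/-!
# The degree in dimension two
-/

open MeasureTheory Set Metric Filter Topology
open scoped ContDiff

noncomputable section

namespace Vale.Agent.P247.H58.LW

open Vale.Agent.P247.H74 Vale.Agent.P247.H74.CE

/-- projection to the circle -/
def prj (R : ℝ) (z : ℂ) : ℂ := ((R / ‖z‖ : ℝ) : ℂ) * z

theorem prj_mem {R : ℝ} (hR : 0 < R) {z : ℂ} (hz : z ≠ 0) : prj R z ∈ sphere (0 : ℂ) R := by
  rw [mem_sphere_zero_iff_norm, prj, norm_mul, Complex.norm_real, Real.norm_eq_abs,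
    abs_of_pos (div_pos hR (norm_pos_iff.2 hz)), div_mul_cancel₀ _ (norm_ne_zero_iff.2 hz)]

theorem prj_self {R : ℝ} (hR : 0 < R) {z : ℂ} (hz : z ∈ sphere (0 : ℂ) R) : prj R z = z := by
  rw [mem_sphere_zero_iff_norm] at hz
  rw [prj, hz, div_self hR.ne', Complex.ofReal_one, one_mul]

theorem prj_cont {R : ℝ} {z : ℂ} (hz : z ≠ 0) : ContinuousAt (prj R) z := by
  unfold prj
  have h1 : ContinuousAt (fun z : ℂ => R / ‖z‖) z :=
    continuousAt_const.div continuous_norm.continuousAt (norm_ne_zero_iff.2 hz)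
  exact (Complex.continuous_ofReal.continuousAt.comp h1).mul continuousAt_id

/-- a `C¹` logarithm near the circle -/
theorem exists_log {h : ℂ → ℂ} (hh : ContDiff ℝ 1 h) {R : ℝ} (hR : 0 < R) {m : ℤ}
    (hw : HasWinding h 0 R m) : ∃ (V : Set ℂ) (G : ℂ → ℂ), IsOpen V ∧ sphere (0 : ℂ) R ⊆ V ∧
      ContDiffOn ℝ 1 G V ∧ ∀ z ∈ V, z ≠ 0 ∧ h z = z ^ m * Complex.exp (G z) := by
  obtain ⟨g, hg, hgh⟩ := hw
  simp only [sub_zero] at hgh
  set F : ℂ → ℂ := fun z => h z * (z ^ m)⁻¹ with hF
  have hFc1 : ∀ z, z ≠ 0 → ContDiffAt ℝ 1 F z := by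
    intro z hz
    have e1 : ContDiffAt ℝ 1 (fun z : ℂ => z ^ m) z := by
      have h1 : DifferentiableOn ℂ (fun z : ℂ => z ^ m) {0}ᶜ := fun y hy =>
        (differentiableAt_zpow.2 (Or.inl hy)).differentiableWithinAt
      have h2 : ContDiffOn ℂ 1 (fun z : ℂ => z ^ m) {0}ᶜ := h1.contDiffOn isOpen_compl_singleton
      exact (h2.restrict_scalars ℝ).contDiffAt (isOpen_compl_singleton.mem_nhds hz)
    exact hh.contDiffAt.mul (e1.inv (zpow_ne_zero m hz))
  have hFs : ∀ z ∈ sphere (0 : ℂ) R, F z = Complex.exp (g z) := by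
    intro z hz
    have hz0 : z ≠ 0 := by
      rintro rfl
      rw [mem_sphere_zero_iff_norm, norm_zero] at hz
      exact hR.ne hz
    simp only [hF]
    rw [hgh z hz]
    field_simp [zpow_ne_zero m hz0]
  have hFp : ∀ z, z ≠ 0 → F (prj R z) = Complex.exp (g (prj R z)) := fun z hz =>
    hFs _ (prj_mem hR hz)
  set Q : ℂ → ℂ := fun z => F z / F (prj R z) with hQ
  have hprj0 : ∀ z, z ≠ 0 → prj R z ≠ 0 := by
    intro z hz h0
    have := prj_mem hR hz
    rw [h0, mem_sphere_zero_iff_norm, norm_zero] at this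
    exact hR.ne this
  have hQc : ∀ z, z ≠ 0 → ContinuousAt Q z := by
    intro z hz
    refine (hFc1 z hz).continuousAt.div ?_ (by rw [hFp z hz]; exact Complex.exp_ne_zero _)
    exact ContinuousAt.comp (hFc1 _ (hprj0 z hz)).continuousAt (prj_cont hz)
  set G : ℂ → ℂ := fun z => g (prj R z) + Complex.log (Q z) with hG
  set V : Set ℂ := {z | z ≠ 0 ∧ Q z ∈ Complex.slitPlane} with hV
  have hVo : IsOpen V := by
    rw [isOpen_iff_mem_nhds]
    rintro z ⟨hz, hz'⟩
    filter_upwards [isOpen_ne.mem_nhds hz,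
      (hQc z hz).eventually (Complex.isOpen_slitPlane.mem_nhds hz')] with y h1 h2 using ⟨h1, h2⟩
  have hexp : ∀ z ∈ V, Complex.exp (G z) = F z := by
    rintro z ⟨hz, hz'⟩
    simp only [hG]
    rw [Complex.exp_add, ← hFp z hz, Complex.exp_log (Complex.slitPlane_ne_zero hz')]
    simp only [hQ]
    rw [mul_div_cancel₀]
    rw [hFp z hz]
    exact Complex.exp_ne_zero _
  have hGc : ∀ z ∈ V, ContinuousAt G z := by
    rintro z ⟨hz, hz'⟩
    have e1 : ContinuousAt (fun z => g (prj R z)) z := by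
      have e2 : ContinuousWithinAt g (sphere 0 R) (prj R z) := hg _ (prj_mem hR hz)
      have e3 : Tendsto (prj R) (𝓝 z) (𝓝[sphere 0 R] (prj R z)) := by
        refine tendsto_nhdsWithin_iff.2 ⟨prj_cont hz, ?_⟩
        filter_upwards [isOpen_ne.mem_nhds hz] with y hy using prj_mem hR hy
      exact Tendsto.comp e2 e3
    exact e1.add ((hQc z hz).clog hz')
  refine ⟨V, G, hVo, ?_, ?_, ?_⟩
  · intro z hz
    have hz0 : z ≠ 0 := by
      rintro rfl
      rw [mem_sphere_zero_iff_norm, norm_zero] at hz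
      exact hR.ne hz
    refine ⟨hz0, ?_⟩
    have : Q z = 1 := by
      simp only [hQ]
      rw [prj_self hR hz, div_self]
      rw [hFs z hz]
      exact Complex.exp_ne_zero _
    rw [this]
    exact Complex.one_mem_slitPlane
  · intro z hz
    refine ContDiffAt.contDiffWithinAt ?_
    have hz0 := hz.1
    have hFz : F z ≠ 0 := by
      rw [← hexp z hz]
      exact Complex.exp_ne_zero _
    set L : ℂ → ℂ := fun y => G z + Complex.log (F y / F z) with hL
    have hq : ContDiffAt ℝ 1 (fun y => F y / F z) z := (hFc1 z hz0).div_const _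
    have hq1 : F z / F z ∈ Complex.slitPlane := by
      rw [div_self hFz]
      exact Complex.one_mem_slitPlane
    have hlog : ContDiffAt ℝ 1 Complex.log (F z / F z) :=
      (Complex.contDiffAt_log hq1).restrict_scalars ℝ
    have hLc : ContDiffAt ℝ 1 L z := contDiffAt_const.add
      (ContDiffAt.comp (f := fun y => F y / F z) z hlog hq)
    refine hLc.congr_of_eventuallyEq ?_
    have e1 : ContinuousAt (fun y => G y - L y) z := (hGc z hz).sub hLc.continuousAt
    have e2 : G z - L z = 0 := by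
      simp only [hL]
      rw [div_self hFz, Complex.log_one]
      ring
    have e3 : ∀ᶠ y in 𝓝 z, ‖G y - L y‖ < 1 := by
      have := e1.norm
      have h0 : ‖G z - L z‖ < 1 := by rw [e2, norm_zero]; exact one_pos
      exact this.eventually (gt_mem_nhds h0)
    filter_upwards [e3, hVo.mem_nhds hz,
      hq.continuousAt.eventually (Complex.isOpen_slitPlane.mem_nhds hq1)] with y h1 h2 h3
    have e4 : Complex.exp (L y) = F y := by
      simp only [hL]
      rw [Complex.exp_add, hexp z hz, Complex.exp_log (Complex.slitPlane_ne_zero h3)]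
      field_simp
    have e5 : Complex.exp (G y) = Complex.exp (L y) := by rw [hexp y h2, e4]
    obtain ⟨n, hn⟩ := Complex.exp_eq_exp_iff_exists_int.1 e5
    have e6 : G y - L y = n * (2 * Real.pi * Complex.I) := by rw [hn]; ring
    rw [e6, norm_mul, norm_mul, norm_mul, Complex.norm_I, Complex.norm_real, mul_one,
      Real.norm_of_nonneg Real.pi_pos.le] at h1
    have e7 : n = 0 := by
      by_contra hne
      have e8 : (1 : ℝ) ≤ ‖(n : ℂ)‖ := by
        rw [Complex.norm_intCast]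
        exact_mod_cast Int.one_le_abs hne
      have e9 := Real.pi_gt_three
      have e10 : ‖(2 : ℂ)‖ = 2 := by norm_num
      rw [e10] at h1
      nlinarith
    rw [hn, e7]
    simp
  · rintro z hz
    refine ⟨hz.1, ?_⟩
    rw [hexp z hz]
    simp only [hF]
    field_simp [zpow_ne_zero m hz.1]

/-- thin annuli -/
theorem exists_annulus {W : Set ℂ} (hW : IsOpen W) {R : ℝ} (hR : 0 < R)
    (h : sphere (0 : ℂ) R ⊆ W) : ∃ R₁, 0 < R₁ ∧ R₁ < R ∧ ∀ z : ℂ, R₁ ≤ ‖z‖ → ‖z‖ ≤ R → z ∈ W := by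
  obtain ⟨δ, hδ, h1⟩ := (isCompact_sphere (0 : ℂ) R).exists_thickening_subset_open hW h
  refine ⟨max (R - δ / 2) (R / 2), by positivity, by
    rw [max_lt_iff]; constructor <;> linarith, fun z h2 h3 => h1 ?_⟩
  have h4 : 0 < ‖z‖ := lt_of_lt_of_le (by positivity) h2
  have hz : z ≠ 0 := norm_pos_iff.1 h4
  rw [mem_thickening_iff]
  refine ⟨prj R z, prj_mem hR hz, ?_⟩
  rw [dist_eq_norm]
  have e1 : z - prj R z = ((1 - R / ‖z‖ : ℝ) : ℂ) * z := by
    rw [prj]
    push_cast
    ring
  rw [e1, norm_mul, Complex.norm_real, Real.norm_eq_abs, abs_of_nonpos, neg_sub, sub_mul, one_mul,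
    div_mul_cancel₀ _ h4.ne']
  · have := le_of_max_le_left h2
    linarith
  · rw [sub_nonpos, le_div_iff₀ h4]
    linarith

theorem deg2 {h : ℂ → ℂ} (hh : ContDiff ℝ 1 h) {R : ℝ} (hR : 0 < R) {m : ℤ}
    (hw : HasWinding h 0 R m) {ε : ℝ} (hε : 0 < ε) (hb : ∀ z ∈ sphere (0 : ℂ) R, ε < ‖h z‖) :
    ∫ z in ball (0 : ℂ) R, kf ε (h z) * (fderiv ℝ h z).det = Real.pi * m := by
  obtain ⟨V, G, hV, hVs, hG, hGe⟩ := exists_log hh hR hw
  have hU : IsOpen {z | ε < ‖h z‖} := isOpen_lt continuous_const hh.continuous.norm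
  obtain ⟨R₁, hR₁, hR₁R, hann⟩ := exists_annulus (hV.inter hU) hR
    (fun z hz => ⟨hVs hz, hb z hz⟩)
  obtain ⟨X, hX, hXs, hXt, hX1, -⟩ := exists_cut (isCompact_closedBall (0 : ℂ) R₁)
    (isOpen_ball (x := (0 : ℂ)) (ε := R)) (closedBall_subset_ball hR₁R)
  have hX' : ContDiff ℝ 1 X := hX.of_le (by simp)
  -- where `dX ≠ 0`
  have hdX : ∀ x, fderiv ℝ X x ≠ 0 → R₁ ≤ ‖x‖ ∧ ‖x‖ ≤ R := by
    intro x hx
    constructor
    · by_contra hc
      rw [not_le] at hc
      have : X =ᶠ[𝓝 x] fun _ => 1 := ev_of_nhdsSet hX1 (by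
        rw [mem_closedBall_zero_iff]; exact hc.le)
      apply hx
      rw [this.fderiv_eq, fderiv_fun_const]
      rfl
    · by_contra hc
      apply hx
      refine fderiv_eq_zero_of_notMem fun h => ?_
      have := hXt h
      rw [mem_ball_zero_iff] at this
      exact hc this.le
  -- the integral with the cut-off
  have e1 : ∫ z in ball (0 : ℂ) R, kf ε (h z) * (fderiv ℝ h z).det =
      ∫ z, X z * (kf ε (h z) * (fderiv ℝ h z).det) := by
    rw [← integral_indicator measurableSet_ball]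
    refine integral_congr_ae (Eventually.of_forall fun z => ?_)
    simp only [indicator]
    split_ifs with hz
    · rcases le_or_gt ‖z‖ R₁ with h1 | h1
      · have h2 := ev_of_nhdsSet hX1 (x := z) (by rwa [mem_closedBall_zero_iff])
        rw [h2.self_of_nhds, one_mul]
      · have h2 := (hann z h1.le (mem_ball_zero_iff.1 hz).le).2
        rw [kf_zero hε (le_of_lt h2)]
        ring
    · rw [image_eq_zero_of_notMem_tsupport (fun h => hz (hXt h)), zero_mul]
  obtain ⟨-, e2⟩ := deg2_form hε hX' hXs hh (fun x hx =>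
    le_of_lt (hann x (hdX x hx).1 (hdX x hx).2).2)
  obtain ⟨i3, e3⟩ := deg2_form hR₁ hX' hXs (h := fun z => z) contDiff_id (fun x hx => (hdX x hx).1)
  have e4 : ∫ z, X z * (kf R₁ z * (fderiv ℝ (fun z : ℂ => z) z).det) = Real.pi := by
    rw [← kf_integral hR₁]
    refine integral_congr_ae (Eventually.of_forall fun z => ?_)
    have d1 : (fderiv ℝ (fun z : ℂ => z) z).det = 1 := by
      rw [fderiv_fun_id]
      exact LinearMap.det_id
    simp only
    rw [d1, mul_one]
    rcases lt_or_ge ‖z‖ R₁ with h1 | h1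
    · have h2 := ev_of_nhdsSet hX1 (x := z) (by rw [mem_closedBall_zero_iff]; exact h1.le)
      rw [h2.self_of_nhds, one_mul]
    · rw [kf_zero hR₁ h1, mul_zero]
  -- the imaginary part of the logarithm
  have hK : IsCompact {z : ℂ | R₁ ≤ ‖z‖ ∧ ‖z‖ ≤ R} := by
    refine (isCompact_closedBall (0 : ℂ) R).of_isClosed_subset ?_ ?_
    · exact (isClosed_le continuous_const continuous_norm).inter
        (isClosed_le continuous_norm continuous_const)
    · intro z hz
      rw [mem_closedBall_zero_iff]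
      exact hz.2
  have hGi : ContDiffOn ℝ 1 (fun z => (G z).im) V := Complex.imCLM.contDiff.comp_contDiffOn hG
  obtain ⟨Q, hQ, hQe⟩ := exists_ext (by simp) hK hV (fun z hz => (hann z hz.1 hz.2).1) hGi
  have e5 := br2_int hX' hXs hQ
  have e6 : ∀ x, br2 (fderiv ℝ X x) (lam h x) =
      m * br2 (fderiv ℝ X x) (lam (fun z => z) x) + br2 (fderiv ℝ X x) (fderiv ℝ Q x) := by
    intro x
    by_cases hx : fderiv ℝ X x = 0
    · rw [hx, br2_zero1, br2_zero1, br2_zero1]
      ring
    · obtain ⟨h1, h2⟩ := hdX x hx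
      have hxV := (hann x h1 h2).1
      obtain ⟨hx0, hxe⟩ := hGe x hxV
      have hGd : DifferentiableAt ℝ G x :=
        (hG.contDiffAt (hV.mem_nhds hxV)).differentiableAt (by simp)
      have q1 : fderiv ℝ Q x = im' (fderiv ℝ G x) := by
        rw [Filter.EventuallyEq.fderiv_eq (ev_of_nhdsSet hQe (x := x) ⟨h1, h2⟩)]
        exact im_fderiv hGd
      have q2 : h =ᶠ[𝓝 x] fun z => z ^ m * Complex.exp (G z) := by
        filter_upwards [hV.mem_nhds hxV] with z hz using (hGe z hz).2
      have q3 : HasFDerivAt (fun z : ℂ => z ^ m)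
          ((ContinuousLinearMap.toSpanSingleton ℂ ((m : ℂ) * x ^ (m - 1))).restrictScalars ℝ) x :=
        (hasDerivAt_zpow m x (Or.inl hx0)).hasFDerivAt.restrictScalars ℝ
      have q4 : HasFDerivAt (fun z => Complex.exp (G z)) (Complex.exp (G x) • fderiv ℝ G x) x :=
        hGd.hasFDerivAt.cexp
      have q5 := (q3.mul q4).congr_of_eventuallyEq q2
      have q6 : (h x)⁻¹ • fderiv ℝ h x = (m : ℂ) • ((x⁻¹ : ℂ) • fderiv ℝ (fun z : ℂ => z) x) +
          fderiv ℝ G x := by
        rw [q5.fderiv, hxe, fderiv_fun_id]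
        ext v
        have t1 : x ^ m ≠ 0 := zpow_ne_zero m hx0
        have t2 := Complex.exp_ne_zero (G x)
        have t3 : x ^ (m - 1) = x ^ m * x⁻¹ := zpow_sub_one₀ hx0 m
        simp [t3]
        field_simp
        ring
      have q7 : lam h x = (m : ℝ) • lam (fun z => z) x + fderiv ℝ Q x := by
        rw [q1, lam, q6, lam]
        ext v
        simp
      rw [q7, br2_add2, br2_smul2]
  have i5 : Integrable fun x => br2 (fderiv ℝ X x) (fderiv ℝ Q x) := by
    refine (br2_cont hX' hQ).integrable_of_hasCompactSupport ?_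
    refine HasCompactSupport.intro hXs fun x hx => ?_
    rw [fderiv_eq_zero_of_notMem hx, br2_zero1]
  rw [e1, e2]
  simp only [e6]
  rw [integral_add (i3.const_mul _) i5, integral_const_mul, e5, add_zero]
  rw [e4] at e3
  linear_combination (-(m : ℝ)) * e3

end Vale.Agent.P247.H58.LW
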