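import Vale.Agent.P247.H58.LW.Deg2
import Vale.Agent.P247.H74.CE.Roots

/-!
# The degree in dimension four
-/

open MeasureTheory Set Metric Filter Topology
open scoped ContDiff

noncomputable section

namespace Vale.Agent.P247.H58.LW

open Vale.Agent.P247.H74 Vale.Agent.P247.H74.CE

/-! ## additivity -/

theorem lam_mul {E : Type*} [NormedAddCommGroup E] [NormedSpace ℝ E] {f g : E → ℂ} {x : E}
    (hf : DifferentiableAt ℝ f x) (hg : DifferentiableAt ℝ g x) (hf0 : f x ≠ 0) (hg0 : g x ≠ 0) :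
    lam (fun x => f x * g x) x = lam f x + lam g x := by
  have e : (f x * g x)⁻¹ • fderiv ℝ (fun x => f x * g x) x =
      (f x)⁻¹ • fderiv ℝ f x + (g x)⁻¹ • fderiv ℝ g x := by
    rw [fderiv_fun_mul hf hg]
    ext v
    simp
    field_simp
    ring
  rw [lam, e]
  ext v
  simp [lam]

theorem lam_const {E : Type*} [NormedAddCommGroup E] [NormedSpace ℝ E] (c : ℂ) (x : E) :
    lam (fun _ : E => c) x = 0 := by
  ext v
  simp [lam]

theorem lam_prod {E : Type*} [NormedAddCommGroup E] [NormedSpace ℝ E] {ι : Type*}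
    {a : ι → E → ℂ} {x : E} (S : Finset ι) (hd : ∀ i ∈ S, ContDiffAt ℝ 1 (a i) x)
    (h0 : ∀ i ∈ S, a i x ≠ 0) :
    lam (fun x => ∏ i ∈ S, a i x) x = ∑ i ∈ S, lam (a i) x := by
  classical
  induction S using Finset.induction_on with
  | empty => simp [lam_const]
  | insert j S hj ih =>
    have h1 : ∀ i ∈ S, ContDiffAt ℝ 1 (a i) x := fun i hi => hd i (Finset.mem_insert_of_mem hi)
    have h2 : ∀ i ∈ S, a i x ≠ 0 := fun i hi => h0 i (Finset.mem_insert_of_mem hi)
    have h3 : (fun x => ∏ i ∈ insert j S, a i x) = fun x => a j x * ∏ i ∈ S, a i x := by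
      funext x
      rw [Finset.prod_insert hj]
    have h4 : DifferentiableAt ℝ (fun x => ∏ i ∈ S, a i x) x :=
      (contDiffAt_prod h1).differentiableAt (by simp)
    rw [h3, lam_mul ((hd j (Finset.mem_insert_self _ _)).differentiableAt (by simp)) h4
      (h0 j (Finset.mem_insert_self _ _))
      (Finset.prod_ne_zero_iff.2 h2), ih h1 h2, Finset.sum_insert hj]

theorem exists_pos_lb {E : Type*} [TopologicalSpace E] {K : Set E} (hK : IsCompact K) {f : E → ℝ}
    (hf : ContinuousOn f K) (h0 : ∀ x ∈ K, 0 < f x) : ∃ c > 0, ∀ x ∈ K, c ≤ f x := by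
  rcases K.eq_empty_or_nonempty with rfl | hne
  · exact ⟨1, one_pos, fun x hx => absurd hx (notMem_empty x)⟩
  · obtain ⟨x, hx, hm⟩ := hK.exists_isMinOn hne hf
    exact ⟨f x, h0 x hx, fun y hy => hm hy⟩

theorem dI_zero {ε : ℝ} (hε : 0 < ε) {A H : C2 → ℂ} {x : C2} (h : ¬ (‖A x‖ < ε ∧ ‖H x‖ < ε)) :
    dI ε A H x = 0 := by
  rw [not_and_or, not_lt, not_lt] at h
  rcases h with h | h
  · rw [dI, kf_zero hε h, zero_mul]
  · rw [dI, wb, kf_zero hε h, zero_mul, mul_zero]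

theorem prod4 {ι : Type*} (S : Finset ι) {a : ι → C2 → ℂ} {H : C2 → ℂ} {Ω : Set C2}
    (hΩ : IsOpen Ω) (hΩc : IsCompact (closure Ω)) (ha : ∀ i ∈ S, ContDiff ℝ 1 (a i))
    (hH : ContDiff ℝ 1 H) {ε : ℝ} (hε : 0 < ε)
    (hb : ∀ x ∈ closure Ω \ Ω, ‖H x‖ ≤ ε → (∀ i ∈ S, ε < ‖a i x‖) ∧ ε < ‖∏ i ∈ S, a i x‖) :
    ∫ x in Ω, dI ε (fun x => ∏ i ∈ S, a i x) H x = ∑ i ∈ S, ∫ x in Ω, dI ε (a i) H x := by
  classical
  set P : C2 → ℂ := fun x => ∏ i ∈ S, a i x with hP
  have hPc : ContDiff ℝ 1 P := by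
    have := contDiff_prod (t := S) (f := a) (n := 1) (𝕜 := ℝ) ha
    exact this
  -- the bad set
  set B : Set C2 := {x | x ∈ closure Ω ∧ ‖H x‖ ≤ ε ∧ (‖P x‖ ≤ ε ∨ ∃ i ∈ S, ‖a i x‖ ≤ ε)} with hB
  have hBcl : IsClosed B := by
    have e1 : IsClosed {x : C2 | ‖P x‖ ≤ ε ∨ ∃ i ∈ S, ‖a i x‖ ≤ ε} := by
      have e2 : {x : C2 | ‖P x‖ ≤ ε ∨ ∃ i ∈ S, ‖a i x‖ ≤ ε} =
          {x : C2 | ‖P x‖ ≤ ε} ∪ ⋃ i ∈ S, {x : C2 | ‖a i x‖ ≤ ε} := by
        ext x
        simp
      rw [e2]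
      refine (isClosed_le hPc.continuous.norm continuous_const).union ?_
      exact isClosed_biUnion_finset fun i hi =>
        isClosed_le (ha i hi).continuous.norm continuous_const
    exact isClosed_closure.inter ((isClosed_le hH.continuous.norm continuous_const).inter e1)
  have hBc : IsCompact B := hΩc.of_isClosed_subset hBcl fun x hx => hx.1
  have hBΩ : B ⊆ Ω := by
    intro x hx
    by_contra hxΩ
    obtain ⟨h1, h2⟩ := hb x ⟨hx.1, hxΩ⟩ hx.2.1
    rcases hx.2.2 with h3 | ⟨i, hi, h3⟩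
    · exact absurd h2 (not_lt.2 h3)
    · exact absurd (h1 i hi) (not_lt.2 h3)
  obtain ⟨X, hX, hXs, hXt, hX1, -⟩ := exists_cut hBc hΩ hBΩ
  have hX' : ContDiff ℝ 1 X := hX.of_le (by simp)
  have hdX : ∀ x, fderiv ℝ X x ≠ 0 → x ∈ Ω ∧ x ∉ B := by
    intro x hx
    constructor
    · by_contra hc
      exact hx (fderiv_eq_zero_of_notMem fun h => hc (hXt h))
    · intro hc
      have : X =ᶠ[𝓝 x] fun _ => 1 := ev_of_nhdsSet hX1 hc
      apply hx
      rw [this.fderiv_eq, fderiv_fun_const]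
      rfl
  have hcut : ∀ A : C2 → ℂ, (∀ x ∈ Ω, ‖A x‖ < ε → ‖H x‖ < ε → x ∈ B) →
      ∫ x in Ω, dI ε A H x = ∫ x, X x * dI ε A H x := by
    intro A hA
    rw [← integral_indicator hΩ.measurableSet]
    refine integral_congr_ae (Eventually.of_forall fun x => ?_)
    simp only [indicator]
    split_ifs with hx
    · by_cases h1 : ‖A x‖ < ε ∧ ‖H x‖ < ε
      · rw [(ev_of_nhdsSet hX1 (hA x hx h1.1 h1.2)).self_of_nhds, one_mul]
      · rw [dI_zero hε h1, mul_zero]
    · rw [image_eq_zero_of_notMem_tsupport (fun h => hx (hXt h)), zero_mul]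
  have hform : ∀ A : C2 → ℂ, ContDiff ℝ 1 A → (∀ x ∈ Ω, ‖A x‖ < ε → ‖H x‖ < ε → x ∈ B) →
      Integrable (fun x => wb ε H x (fderiv ℝ X x) (lam A x)) ∧
      ∫ x in Ω, dI ε A H x = -(1 / 2) * ∫ x, wb ε H x (fderiv ℝ X x) (lam A x) := by
    intro A hA hAB
    rw [hcut A hAB]
    refine deg4_form hε hX' hXs hA hH fun x hx hHx => ?_
    by_contra hc
    rw [not_le] at hc
    exact (hdX x hx).2 (hAB x (hdX x hx).1 hc hHx)
  have hPB : ∀ x ∈ Ω, ‖P x‖ < ε → ‖H x‖ < ε → x ∈ B := fun x hx h1 h2 =>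
    ⟨subset_closure hx, h2.le, Or.inl h1.le⟩
  have haB : ∀ i ∈ S, ∀ x ∈ Ω, ‖a i x‖ < ε → ‖H x‖ < ε → x ∈ B := fun i hi x hx h1 h2 =>
    ⟨subset_closure hx, h2.le, Or.inr ⟨i, hi, h1.le⟩⟩
  rw [(hform P hPc hPB).2]
  have e1 : ∀ x, wb ε H x (fderiv ℝ X x) (lam P x) =
      ∑ i ∈ S, wb ε H x (fderiv ℝ X x) (lam (a i) x) := by
    intro x
    by_cases hx : fderiv ℝ X x = 0
    · simp only [hx, wb_zero1, Finset.sum_const_zero]
    by_cases hk : kf ε (H x) = 0
    · simp only [wb, hk, zero_mul, Finset.sum_const_zero]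
    have h1 := kf_lt hε hk
    obtain ⟨h2, h3⟩ := hdX x hx
    have h4 : ∀ i ∈ S, a i x ≠ 0 := by
      intro i hi h5
      exact h3 (haB i hi x h2 (by rw [h5, norm_zero]; exact hε) h1)
    have h5 : lam P x = ∑ i ∈ S, lam (a i) x :=
      lam_prod S (fun i hi => (ha i hi).contDiffAt) h4
    rw [h5]
    have h6 : ∀ T : Finset ι, wb ε H x (fderiv ℝ X x) (∑ i ∈ T, lam (a i) x) =
        ∑ i ∈ T, wb ε H x (fderiv ℝ X x) (lam (a i) x) := by
      intro T
      induction T using Finset.induction_on with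
      | empty => simp [wb_zero2]
      | insert j T hj ih => rw [Finset.sum_insert hj, Finset.sum_insert hj, wb_add2, ih]
    exact h6 S
  simp only [e1]
  rw [integral_finsetSum _ (fun i hi => (hform (a i) (ha i hi) (haB i hi)).1), Finset.mul_sum]
  exact Finset.sum_congr rfl fun i hi => ((hform (a i) (ha i hi) (haB i hi)).2).symm

/-! ## linear factors -/

theorem lin_alg (dH : C2 →L[ℝ] ℂ) (dΦ : ℂ →L[ℝ] ℂ) :
    br (re' (ContinuousLinearMap.snd ℝ ℂ ℂ - dΦ.comp (ContinuousLinearMap.fst ℝ ℂ ℂ)))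
      (im' (ContinuousLinearMap.snd ℝ ℂ ℂ - dΦ.comp (ContinuousLinearMap.fst ℝ ℂ ℂ)))
      (re' dH) (im' dH) =
    (dH.comp ((ContinuousLinearMap.id ℝ ℂ).prod dΦ)).det := by
  rw [det2_eq]
  have e1 : ∀ v c : ℂ, dH (v, c) = dH (v, 0) + c.re • dH (0, 1) + c.im • dH (0, Complex.I) := by
    intro v c
    rw [← map_smul, ← map_smul, ← map_add, ← map_add]
    congr 1
    ext <;> simp
  simp only [br, mn, br2, re'_apply, im'_apply, _root_.sub_apply, ContinuousLinearMap.comp_apply,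
    ContinuousLinearMap.coe_fst', ContinuousLinearMap.coe_snd', ContinuousLinearMap.prod_apply,
    ContinuousLinearMap.id_apply, map_zero]
  rw [e1 1 (dΦ 1), e1 Complex.I (dΦ Complex.I)]
  simp only [Complex.sub_re, Complex.sub_im, Complex.add_re, Complex.add_im, Complex.real_smul,
    Complex.mul_re, Complex.mul_im, Complex.ofReal_re, Complex.ofReal_im, Complex.zero_re,
    Complex.zero_im, Complex.one_re, Complex.one_im, Complex.I_re, Complex.I_im]
  ring

theorem lin4 {Φ : ℂ → ℂ} {H : C2 → ℂ} (hΦ : ContDiff ℝ 1 Φ) (hH : ContDiff ℝ 1 H) {R R' : ℝ}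
    (hR : 0 < R) {m : ℤ} {ε : ℝ} (hε : 0 < ε) (hR' : ∀ z ∈ closedBall (0 : ℂ) R, ‖Φ z‖ + ε < R')
    (hw : ∀ y : ℂ, ‖y‖ < ε → HasWinding (fun z => H (z, Φ z + y)) 0 R m ∧
      ∀ z ∈ sphere (0 : ℂ) R, ε < ‖H (z, Φ z + y)‖) :
    ∫ x in ball (0 : ℂ) R ×ˢ ball (0 : ℂ) R', dI ε (fun x => x.2 - Φ x.1) H x =
      Real.pi * (Real.pi * m) := by
  set A : C2 → ℂ := fun x => x.2 - Φ x.1 with hA
  have hAc : ContDiff ℝ 1 A := contDiff_snd.sub (hΦ.comp contDiff_fst)
  have hAd : ∀ x, fderiv ℝ A x =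
      ContinuousLinearMap.snd ℝ ℂ ℂ - (fderiv ℝ Φ x.1).comp (ContinuousLinearMap.fst ℝ ℂ ℂ) := by
    intro x
    have e1 : HasFDerivAt (fun x : C2 => Φ x.1)
        ((fderiv ℝ Φ x.1).comp (ContinuousLinearMap.fst ℝ ℂ ℂ)) x :=
      HasFDerivAt.comp (f := fun x : C2 => x.1) x
        ((hΦ.differentiable (by simp)) x.1).hasFDerivAt hasFDerivAt_fst
    exact (hasFDerivAt_snd.sub e1).fderiv
  have hd : ∀ (z y : ℂ), dI ε A H (z, Φ z + y) =
      kf ε y * (kf ε (H (z, Φ z + y)) * (fderiv ℝ (fun z => H (z, Φ z + y)) z).det) := by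
    intro z y
    have e2 : HasFDerivAt (fun z : ℂ => ((z, Φ z + y) : C2))
        ((ContinuousLinearMap.id ℝ ℂ).prod (fderiv ℝ Φ z)) z :=
      (hasFDerivAt_id z).prodMk (((hΦ.differentiable (by simp)) z).hasFDerivAt.add_const y)
    have e3 : fderiv ℝ (fun z => H (z, Φ z + y)) z =
        (fderiv ℝ H (z, Φ z + y)).comp ((ContinuousLinearMap.id ℝ ℂ).prod (fderiv ℝ Φ z)) :=
      (HasFDerivAt.comp (f := fun z : ℂ => ((z, Φ z + y) : C2)) z
        ((hH.differentiable (by simp)) (z, Φ z + y)).hasFDerivAt e2).fderiv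
    have e4 : A (z, Φ z + y) = y := by simp [hA]
    rw [e3, ← lin_alg, dI, wb, hAd, e4]
  have hcont : Continuous (dI ε A H) := by
    have c1 := hAc.continuous_fderiv (by simp)
    have c2 := hH.continuous_fderiv (by simp)
    have c3 := (kf_smooth ε).continuous.comp hAc.continuous
    have c4 := (kf_smooth ε).continuous.comp hH.continuous
    have c5 : Continuous fun x => br (re' (fderiv ℝ A x)) (im' (fderiv ℝ A x))
        (re' (fderiv ℝ H x)) (im' (fderiv ℝ H x)) := by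
      simp only [br, mn, re'_apply, im'_apply]
      have d1 := Complex.continuous_re
      have d2 := Complex.continuous_im
      fun_prop
    exact c3.mul (c4.mul c5)
  have hsh : Continuous (fun p : C2 => ((p.1, Φ p.1 + p.2) : C2)) := by
    have := hΦ.continuous
    fun_prop
  -- reduce to the whole fibre
  have i0 : IntegrableOn (dI ε A H) (ball (0 : ℂ) R ×ˢ ball (0 : ℂ) R') := by
    refine (hcont.continuousOn.integrableOn_compact (μ := volume)
      ((isCompact_closedBall (0 : ℂ) R).prod (isCompact_closedBall (0 : ℂ) R'))).mono_set ?_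
    exact prod_mono ball_subset_closedBall ball_subset_closedBall
  rw [Measure.volume_eq_prod] at i0 ⊢
  rw [setIntegral_prod _ i0]
  have s1 : ∀ z ∈ ball (0 : ℂ) R, ∫ r in ball (0 : ℂ) R', dI ε A H (z, r) =
      ∫ y, dI ε A H (z, Φ z + y) := by
    intro z hz
    have t1 : ∫ r in ball (0 : ℂ) R', dI ε A H (z, r) = ∫ r, dI ε A H (z, r) := by
      refine setIntegral_eq_integral_of_forall_compl_eq_zero fun r hr => dI_zero hε ?_
      rintro ⟨h1, -⟩
      apply hr
      rw [mem_ball_zero_iff]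
      have h2 := hR' z (ball_subset_closedBall hz)
      have h3 : ‖r‖ ≤ ‖r - Φ z‖ + ‖Φ z‖ := by
        have := norm_add_le (r - Φ z) (Φ z)
        rwa [sub_add_cancel] at this
      simp only [hA] at h1
      linarith
    rw [t1, ← integral_add_left_eq_self (fun r => dI ε A H (z, r)) (Φ z)]
  rw [setIntegral_congr_fun measurableSet_ball s1]
  -- Fubini
  have i1 : Integrable (Function.uncurry fun z y => dI ε A H (z, Φ z + y))
      ((volume.restrict (ball (0 : ℂ) R)).prod volume) := by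
    have c1 : Continuous (fun p : C2 => dI ε A H (p.1, Φ p.1 + p.2)) := hcont.comp hsh
    have c2 : IntegrableOn (fun p : C2 => dI ε A H (p.1, Φ p.1 + p.2))
        (ball (0 : ℂ) R ×ˢ ball (0 : ℂ) ε) (volume.prod volume) := by
      refine (c1.continuousOn.integrableOn_compact
        ((isCompact_closedBall (0 : ℂ) R).prod (isCompact_closedBall (0 : ℂ) ε))).mono_set ?_
      exact prod_mono ball_subset_closedBall ball_subset_closedBall
    have c3 : IntegrableOn (fun p : C2 => dI ε A H (p.1, Φ p.1 + p.2))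
        (ball (0 : ℂ) R ×ˢ univ) (volume.prod volume) := by
      refine c2.of_forall_sdiff_eq_zero (measurableSet_ball.prod MeasurableSet.univ) ?_
      rintro ⟨z, y⟩ ⟨⟨h1, -⟩, h2⟩
      refine dI_zero hε ?_
      rintro ⟨h3, -⟩
      apply h2
      refine ⟨h1, ?_⟩
      rw [mem_ball_zero_iff]
      simpa [hA] using h3
    rw [IntegrableOn, ← Measure.prod_restrict, Measure.restrict_univ] at c3
    exact c3
  rw [integral_integral_swap i1]
  have s2 : ∀ y : ℂ, ∫ z in ball (0 : ℂ) R, dI ε A H (z, Φ z + y) = kf ε y * (Real.pi * m) := by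
    intro y
    simp only [hd]
    rw [integral_const_mul]
    by_cases hy : kf ε y = 0
    · rw [hy, zero_mul, zero_mul]
    · obtain ⟨h1, h2⟩ := hw y (kf_lt hε hy)
      rw [deg2 ?_ hR h1 hε h2]
      exact hH.comp (contDiff_id.prodMk (hΦ.add contDiff_const))
  simp only [s2]
  rw [integral_mul_const, kf_integral hε]

end Vale.Agent.P247.H58.LW
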