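import Vale.Agent.P247.H58.LW.Deg4
import Vale.Agent.P247.H74.WWIND.Wind

/-!
# The degree of `(r ^ K - Φ τ ^ K, H)` with the radial kernel
-/

open MeasureTheory Set Metric Filter Topology Polynomial
open scoped ContDiff

noncomputable section

namespace Vale.Agent.P247.H58.LW

open Vale.Agent.P247.H74 Vale.Agent.P247.H74.CE

theorem ev_lt {c : ℝ} (hc : 0 < c) : ∀ᶠ ε in 𝓝[>] (0 : ℝ), 0 < ε ∧ ε < c := by
  filter_upwards [self_mem_nhdsWithin, nhdsWithin_le_nhds (gt_mem_nhds hc)] with ε h1 h2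
    using ⟨h1, h2⟩

/-- the polydisc -/
def pd (R R' : ℝ) : Set C2 := ball 0 R ×ˢ ball 0 R'

theorem pd_open (R R' : ℝ) : IsOpen (pd R R') := isOpen_ball.prod isOpen_ball

theorem closure_pd {R R' : ℝ} (hR : 0 < R) (hR' : 0 < R') :
    closure (pd R R') = closedBall (0 : ℂ) R ×ˢ closedBall (0 : ℂ) R' := by
  rw [pd, closure_prod_eq, closure_ball _ hR.ne', closure_ball _ hR'.ne']

theorem mem_bd {R R' : ℝ} (hR : 0 < R) (hR' : 0 < R') {x : C2} (hx : x ∈ closure (pd R R') \ pd R R') :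
    ‖x.1‖ ≤ R ∧ ‖x.2‖ ≤ R' ∧ (‖x.1‖ = R ∨ ‖x.2‖ = R') := by
  rw [closure_pd hR hR'] at hx
  obtain ⟨⟨h1, h2⟩, h3⟩ := hx
  rw [mem_closedBall_zero_iff] at h1 h2
  refine ⟨h1, h2, ?_⟩
  by_contra hc
  rw [not_or] at hc
  refine h3 ⟨?_, ?_⟩
  · rw [mem_ball_zero_iff]
    exact lt_of_le_of_ne h1 hc.1
  · rw [mem_ball_zero_iff]
    exact lt_of_le_of_ne h2 hc.2

section
variable {K : ℕ} {Φ : ℂ → ℂ} {H : C2 → ℂ} {R R' : ℝ} {m : ℂ → ℤ}

theorem bd_ne (hR : 0 < R) (hR'0 : 0 < R')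
    (hR' : ∀ z ∈ closedBall (0 : ℂ) R, ‖Φ z‖ < R')
    {w : ℂ} (hw1 : ‖w‖ = 1) {n : ℤ} (hw : HasWinding (fun z => H (z, w * Φ z)) 0 R n) {x : C2}
    (hx : x ∈ closure (pd R R') \ pd R R') (h1 : H x = 0) (h2 : x.2 = w * Φ x.1) : False := by
  obtain ⟨h3, h4, h5⟩ := mem_bd hR hR'0 hx
  rcases h5 with h5 | h5
  · have h6 := wind_ne hR hw (z := x.1) (by rwa [mem_sphere_zero_iff_norm])
    apply h6
    rw [← h2]
    exact h1
  · have h6 := hR' x.1 (by rwa [mem_closedBall_zero_iff])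
    rw [h2, norm_mul, hw1, one_mul] at h5
    linarith

theorem deg4_small (hK : 0 < K) (hΦ : ContDiff ℝ 1 Φ) (hH : ContDiff ℝ 1 H) (hR : 0 < R)
    (hR' : ∀ z ∈ closedBall (0 : ℂ) R, ‖Φ z‖ < R')
    (hw : ∀ w ∈ nthRootsFinset K (1 : ℂ), HasWinding (fun z => H (z, w * Φ z)) 0 R (m w)) :
    ∀ᶠ ε in 𝓝[>] (0 : ℝ), ∫ x in pd R R', dI ε (fun x => x.2 ^ K - Φ x.1 ^ K) H x =
      Real.pi * (Real.pi * ((∑ w ∈ nthRootsFinset K (1 : ℂ), m w : ℤ) : ℝ)) := by
  have hR'0 : 0 < R' := lt_of_le_of_lt (norm_nonneg _) (hR' 0 (mem_closedBall_self hR.le))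
  set S := nthRootsFinset K (1 : ℂ) with hS
  have hS1 : ∀ w ∈ S, ‖w‖ = 1 := fun w hw => norm_root hK.ne' ((mem_nthRootsFinset hK 1).1 hw)
  have hprod : ∀ x y : ℂ, x ^ K - y ^ K = ∏ w ∈ S, (x - w * y) := fun x y =>
    (Complex.isPrimitiveRoot_exp K hK.ne').pow_sub_pow_eq_prod_sub_mul x y hK
  have hΩc : IsCompact (closure (pd R R')) := by
    rw [closure_pd hR hR'0]
    exact (isCompact_closedBall _ _).prod (isCompact_closedBall _ _)
  have hbd : IsCompact (closure (pd R R') \ pd R R') := hΩc.diff (pd_open R R')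
  have ha : ∀ w : ℂ, ContDiff ℝ 1 (fun x : C2 => x.2 - w * Φ x.1) := fun w =>
    contDiff_snd.sub (contDiff_const.mul (hΦ.comp contDiff_fst))
  have hA : ContDiff ℝ 1 (fun x : C2 => x.2 ^ K - Φ x.1 ^ K) :=
    (contDiff_snd.pow K).sub ((hΦ.comp contDiff_fst).pow K)
  -- the conditions on `ε`
  have c1 : ∀ᶠ ε in 𝓝[>] (0 : ℝ), ∀ w ∈ S, ∀ x ∈ closure (pd R R') \ pd R R',
      ‖H x‖ ≤ ε → ε < ‖x.2 - w * Φ x.1‖ := by
    rw [Filter.eventually_all_finset]
    intro w hwS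
    obtain ⟨c, hc, hcx⟩ := exists_pos_lb hbd
      (f := fun x => ‖H x‖ + ‖x.2 - w * Φ x.1‖)
      (hH.continuous.norm.add (ha w).continuous.norm).continuousOn (fun x hx => by
        by_contra hcon
        have h1 := norm_nonneg (H x)
        have h2 := norm_nonneg (x.2 - w * Φ x.1)
        have h3 : ‖H x‖ = 0 := by linarith
        have h4 : ‖x.2 - w * Φ x.1‖ = 0 := by linarith
        exact bd_ne hR hR'0 hR' (hS1 w hwS) (hw w hwS) hx (norm_eq_zero.1 h3)
          (sub_eq_zero.1 (norm_eq_zero.1 h4)))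
    filter_upwards [ev_lt (half_pos hc)] with ε hε x hx h1
    have := hcx x hx
    linarith [hε.2]
  have c1' : ∀ᶠ ε in 𝓝[>] (0 : ℝ), ∀ x ∈ closure (pd R R') \ pd R R',
      ‖H x‖ ≤ ε → ε < ‖x.2 ^ K - Φ x.1 ^ K‖ := by
    obtain ⟨c, hc, hcx⟩ := exists_pos_lb hbd
      (f := fun x => ‖H x‖ + ‖x.2 ^ K - Φ x.1 ^ K‖)
      (hH.continuous.norm.add hA.continuous.norm).continuousOn (fun x hx => by
        by_contra hcon
        have h1 := norm_nonneg (H x)
        have h2 := norm_nonneg (x.2 ^ K - Φ x.1 ^ K)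
        have h3 : ‖H x‖ = 0 := by linarith
        have h4 : ‖x.2 ^ K - Φ x.1 ^ K‖ = 0 := by linarith
        rw [norm_eq_zero, hprod, Finset.prod_eq_zero_iff] at h4
        obtain ⟨w, hwS, h5⟩ := h4
        exact bd_ne hR hR'0 hR' (hS1 w hwS) (hw w hwS) hx (norm_eq_zero.1 h3)
          (sub_eq_zero.1 h5))
    filter_upwards [ev_lt (half_pos hc)] with ε hε x hx h1
    have := hcx x hx
    linarith [hε.2]
  have c2 : ∀ᶠ ε in 𝓝[>] (0 : ℝ), ∀ z ∈ closedBall (0 : ℂ) R, ‖Φ z‖ + ε < R' := by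
    obtain ⟨c, hc, hcx⟩ := exists_pos_lb (isCompact_closedBall (0 : ℂ) R)
      (f := fun z => R' - ‖Φ z‖) (continuous_const.sub hΦ.continuous.norm).continuousOn
      (fun z hz => sub_pos.2 (hR' z hz))
    filter_upwards [ev_lt hc] with ε hε z hz
    have := hcx z hz
    linarith [hε.2]
  have c3 : ∀ᶠ ε in 𝓝[>] (0 : ℝ), ∀ w ∈ S, ∀ y : ℂ, ‖y‖ < ε →
      HasWinding (fun z => H (z, w * Φ z + y)) 0 R (m w) ∧
      ∀ z ∈ sphere (0 : ℂ) R, ε < ‖H (z, w * Φ z + y)‖ := by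
    rw [Filter.eventually_all_finset]
    intro w hwS
    have hcw : ∀ y : ℂ, Continuous (fun z => H (z, w * Φ z + y)) := fun y => by
      have := hΦ.continuous
      have := hH.continuous
      fun_prop
    have hc0 : Continuous (fun z => H (z, w * Φ z)) := by
      have := hΦ.continuous
      have := hH.continuous
      fun_prop
    obtain ⟨c, hc, hcx⟩ := exists_pos_lb (isCompact_sphere (0 : ℂ) R)
      (f := fun z => ‖H (z, w * Φ z)‖) hc0.norm.continuousOn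
      (fun z hz => norm_pos_iff.2 (wind_ne hR (hw w hwS) hz))
    have hcont : Continuous (fun q : ℂ × ℂ => ‖H (q.2, w * Φ q.2 + q.1) - H (q.2, w * Φ q.2)‖) := by
      have := hΦ.continuous
      have := hH.continuous
      fun_prop
    have e1 : ∀ᶠ y in 𝓝 (0 : ℂ), ∀ z ∈ sphere (0 : ℂ) R,
        ‖H (z, w * Φ z + y) - H (z, w * Φ z)‖ < c / 2 := by
      refine (isCompact_sphere (0 : ℂ) R).eventually_forall_of_forall_eventually fun z _ => ?_
      refine hcont.continuousAt.eventually (gt_mem_nhds ?_)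
      simp only [add_zero, sub_self, norm_zero]
      exact half_pos hc
    obtain ⟨δ, hδ, hball⟩ := Metric.eventually_nhds_iff_ball.1 e1
    filter_upwards [ev_lt hδ, ev_lt (half_pos hc)] with ε h1 h2 y hy
    have h3 := hball y (by rw [mem_ball_zero_iff]; exact hy.trans h1.2)
    refine ⟨WWIND.W5 _ _ 0 R _ hR hc0.continuousOn (hcw y).continuousOn (fun z hz => ?_)
      (hw w hwS), fun z hz => ?_⟩
    · have := h3 z hz
      have := hcx z hz
      linarith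
    · have h4 := h3 z hz
      have h5 := hcx z hz
      have h6 : ‖H (z, w * Φ z)‖ ≤ ‖H (z, w * Φ z + y)‖ +
          ‖H (z, w * Φ z + y) - H (z, w * Φ z)‖ := by
        have := norm_sub_le (H (z, w * Φ z + y)) (H (z, w * Φ z + y) - H (z, w * Φ z))
        rwa [sub_sub_cancel] at this
      linarith [h2.2]
  filter_upwards [c1, c1', c2, c3, self_mem_nhdsWithin] with ε c1 c1' c2 c3 hε
  have hε : 0 < ε := hε
  have e1 : (fun x : C2 => x.2 ^ K - Φ x.1 ^ K) = fun x => ∏ w ∈ S, (x.2 - w * Φ x.1) := by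
    funext x
    exact hprod _ _
  rw [e1, prod4 S (pd_open R R') hΩc (fun w _ => ha w) hH hε]
  · have e2 : ∀ w ∈ S, ∫ x in pd R R', dI ε (fun x => x.2 - w * Φ x.1) H x =
        Real.pi * (Real.pi * m w) := by
      intro w hwS
      refine lin4 (Φ := fun z => w * Φ z) (contDiff_const.mul hΦ) hH hR hε ?_ ?_
      · intro z hz
        rw [norm_mul, hS1 w hwS, one_mul]
        exact c2 z hz
      · intro y hy
        exact c3 w hwS y hy
    rw [Finset.sum_congr rfl e2]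
    push_cast
    rw [Finset.mul_sum, Finset.mul_sum]
  · intro x hx h1
    refine ⟨fun w hwS => c1 w hwS x hx h1, ?_⟩
    rw [← hprod]
    exact c1' x hx h1

end

end Vale.Agent.P247.H58.LW
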