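import Mathlib

/-!
# The integral of the Jacobian determinant of a compactly supported `C¹` map vanishes
-/

open MeasureTheory Set Metric Filter Topology Polynomial
open scoped NNReal

namespace Vale.Agent.P247.H58.LW

variable {E : Type*} [NormedAddCommGroup E] [NormedSpace ℝ E] [FiniteDimensional ℝ E]

/-- finite differences of a polynomial -/
theorem fd_poly (P : ℝ[X]) (n : ℕ) (hP : P.natDegree ≤ n) :
    ∑ k ∈ Finset.range (n + 1), (((-1 : ℤ) ^ (n - k) * n.choose k : ℤ) : ℝ) * P.eval (k : ℝ) =
      P.coeff n * n.factorial := by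
  have h1 := fwdDiff_iter_eq_sum_shift (1 : ℝ) P.eval n 0
  have h2 : ∑ k ∈ Finset.range (n + 1), (((-1 : ℤ) ^ (n - k) * n.choose k : ℤ) : ℝ) *
      P.eval (k : ℝ) = ∑ k ∈ Finset.range (n + 1), ((-1 : ℤ) ^ (n - k) * n.choose k) •
        P.eval (0 + k • (1 : ℝ)) := by
    refine Finset.sum_congr rfl fun k _ => ?_
    rw [zsmul_eq_mul, zero_add, nsmul_eq_mul, mul_one]
  rw [h2, ← h1]
  rcases hP.lt_or_eq with h | h
  · rw [Polynomial.fwdDiff_iter_eq_zero_of_degree_lt h, Polynomial.coeff_eq_zero_of_natDegree_lt h]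
    simp
  · rw [← h, Polynomial.fwdDiff_iter_degree_eq_factorial]
    rfl

/-- the determinant as a finite difference -/
theorem fd_det (M : E →L[ℝ] E) :
    ∑ k ∈ Finset.range (Module.finrank ℝ E + 1),
      (((-1 : ℤ) ^ (Module.finrank ℝ E - k) * (Module.finrank ℝ E).choose k : ℤ) : ℝ) *
        (ContinuousLinearMap.id ℝ E + (k : ℝ) • M).det =
      M.det * (Module.finrank ℝ E).factorial := by
  classical
  set b := Module.finBasis ℝ E
  set A := LinearMap.toMatrix b b (M : E →ₗ[ℝ] E) with hA
  set P : ℝ[X] := Matrix.det ((X : ℝ[X]) • A.map C + (1 : Matrix _ _ ℝ).map C) with hP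
  have h1 : P.natDegree ≤ Module.finrank ℝ E := by
    have := Polynomial.natDegree_det_X_add_C_le A 1
    rwa [Fintype.card_fin] at this
  have h2 : P.coeff (Module.finrank ℝ E) = M.det := by
    have := Polynomial.coeff_det_X_add_C_card A 1
    rw [Fintype.card_fin] at this
    rw [hP, this, hA, LinearMap.det_toMatrix]
  have h3 : ∀ t : ℝ, P.eval t = (ContinuousLinearMap.id ℝ E + t • M).det := by
    intro t
    have e1 : P.eval t = Matrix.det (t • A + 1) := by
      rw [hP, ← Polynomial.coe_evalRingHom, RingHom.map_det]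
      congr 1
      ext i j
      simp [Matrix.one_apply]
      split_ifs <;> simp [mul_comm]
    have e2 : t • A + 1 = LinearMap.toMatrix b b
        ((ContinuousLinearMap.id ℝ E + t • M : E →L[ℝ] E) : E →ₗ[ℝ] E) := by
      rw [ContinuousLinearMap.toLinearMap_add, ContinuousLinearMap.toLinearMap_smul, map_add, map_smul,
        ContinuousLinearMap.coe_id, LinearMap.toMatrix_id, add_comm]
    rw [e1, e2, LinearMap.det_toMatrix]
  have h4 := fd_poly P _ h1
  rw [h2] at h4
  rw [← h4]
  exact Finset.sum_congr rfl fun k _ => by rw [h3]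

theorem det_smul_clm (M : E →L[ℝ] E) (c : ℝ) :
    (c • M).det = c ^ Module.finrank ℝ E * M.det := by
  have : ((c • M : E →L[ℝ] E) : E →ₗ[ℝ] E) = c • (M : E →ₗ[ℝ] E) := rfl
  change LinearMap.det _ = _ * LinearMap.det _
  rw [this, LinearMap.det_smul]

variable [MeasurableSpace E] [BorelSpace E] (μ : Measure E) [μ.IsAddHaarMeasure]

/-- the volume of a ball is preserved by a small compactly supported perturbation of the
identity -/
theorem integral_det_perturb {G : E → E} (hG : ContDiff ℝ 1 G) {R : ℝ}
    (hs : ∀ x, x ∉ closedBall (0 : E) R → G x = 0) {C : ℝ≥0} (hC : LipschitzWith C G) {t : ℝ}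
    (ht : |t| * C < 1) :
    ∫ x in closedBall (0 : E) R, (ContinuousLinearMap.id ℝ E + t • fderiv ℝ G x).det ∂μ =
      μ.real (closedBall (0 : E) R) := by
  set Ψ : E → E := fun x => x + t • G x with hΨ
  have hd : ∀ x, HasFDerivAt Ψ (ContinuousLinearMap.id ℝ E + t • fderiv ℝ G x) x := fun x =>
    (hasFDerivAt_id x).add (((hG.differentiable (by simp)) x).hasFDerivAt.const_smul t)
  have hlip : ∀ x y, ‖t • G x - t • G y‖ ≤ |t| * C * ‖x - y‖ := by
    intro x y
    rw [← smul_sub, norm_smul, Real.norm_eq_abs, mul_assoc]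
    gcongr
    simpa [dist_eq_norm] using hC.dist_le_mul x y
  have hinj : Function.Injective Ψ := by
    intro x y hxy
    have h1 : x - y = -(t • G x - t • G y) := by
      have : x + t • G x = y + t • G y := hxy
      have h2 : x - y = t • G y - t • G x := by
        rw [sub_eq_sub_iff_add_eq_add]
        rw [this]
        abel
      rw [h2]
      abel
    have h2 := hlip x y
    rw [← norm_neg, ← h1] at h2
    by_contra hne
    have h3 : 0 < ‖x - y‖ := norm_pos_iff.2 (sub_ne_zero.2 hne)
    nlinarith
  have hsurj : Function.Surjective Ψ := by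
    intro y
    have hcontr : ContractingWith (Real.toNNReal |t| * C) (fun x => y - t • G x) := by
      refine ⟨?_, LipschitzWith.of_dist_le_mul fun x x' => ?_⟩
      · rw [← NNReal.coe_lt_coe, NNReal.coe_mul, Real.coe_toNNReal _ (abs_nonneg t)]
        exact ht
      · rw [dist_eq_norm, dist_eq_norm]
        have := hlip x' x
        have e : y - t • G x - (y - t • G x') = t • G x' - t • G x := by abel
        rw [e, norm_sub_rev x x', NNReal.coe_mul, Real.coe_toNNReal _ (abs_nonneg t)]
        exact this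
    have : Nonempty E := ⟨0⟩
    refine ⟨ContractingWith.fixedPoint _ hcontr, ?_⟩
    have h1 : y - t • G (ContractingWith.fixedPoint _ hcontr) = ContractingWith.fixedPoint _ hcontr :=
      hcontr.fixedPoint_isFixedPt
    simp only [hΨ]
    nth_rewrite 1 [← h1]
    abel
  have himg : Ψ '' closedBall (0 : E) R = closedBall (0 : E) R := by
    have hout : ∀ x, x ∉ closedBall (0 : E) R → Ψ x = x := by
      intro x hx
      simp [hΨ, hs x hx]
    ext y
    constructor
    · rintro ⟨x, hx, rfl⟩
      by_contra hy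
      exact hy (by rw [hinj (hout _ hy)]; exact hx)
    · intro hy
      obtain ⟨x, rfl⟩ := hsurj y
      by_cases hx : x ∈ closedBall (0 : E) R
      · exact ⟨x, hx, rfl⟩
      · rw [hout x hx] at hy
        exact absurd hy hx
  have hpos : ∀ x, 0 < (ContinuousLinearMap.id ℝ E + t • fderiv ℝ G x).det := by
    intro x
    have hn : ‖t • fderiv ℝ G x‖ < 1 := by
      rw [norm_smul, Real.norm_eq_abs]
      refine lt_of_le_of_lt ?_ ht
      gcongr
      exact norm_fderiv_le_of_lipschitz ℝ hC
    set M := t • fderiv ℝ G x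
    have hne : ∀ s ∈ Icc (0 : ℝ) 1, (ContinuousLinearMap.id ℝ E + s • M).det ≠ 0 := by
      intro s hs0
      have h1 : ‖-(s • M)‖ < 1 := by
        rw [norm_neg, norm_smul, Real.norm_of_nonneg hs0.1]
        exact lt_of_le_of_lt (mul_le_of_le_one_left (norm_nonneg _) hs0.2) hn
      have h2 : IsUnit (1 - (-(s • M))) := isUnit_one_sub_of_norm_lt_one h1
      rw [sub_neg_eq_add] at h2
      have h3 : IsUnit ((ContinuousLinearMap.id ℝ E + s • M : E →L[ℝ] E) : E →ₗ[ℝ] E) := by
        exact h2.map (ContinuousLinearMap.toLinearMapRingHom (R₁ := ℝ) (M₁ := E))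
      have h4 := (LinearMap.isUnit_iff_isUnit_det _).1 h3
      exact h4.ne_zero
    have hcont : Continuous (fun s : ℝ => (ContinuousLinearMap.id ℝ E + s • M).det) := by
      exact ContinuousLinearMap.continuous_det.comp (by fun_prop)
    by_contra hneg
    push Not at hneg
    have h0 : (ContinuousLinearMap.id ℝ E + (0 : ℝ) • M).det = 1 := by
      rw [zero_smul, add_zero]
      exact LinearMap.det_id
    have h1 : (ContinuousLinearMap.id ℝ E + (1 : ℝ) • M).det ≤ 0 := by rwa [one_smul]
    have h2 : (0 : ℝ) ∈ Icc ((ContinuousLinearMap.id ℝ E + (1 : ℝ) • M).det)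
        ((ContinuousLinearMap.id ℝ E + (0 : ℝ) • M).det) := ⟨h1, by rw [h0]; norm_num⟩
    obtain ⟨s, hs1, hs2⟩ := intermediate_value_Icc' zero_le_one hcont.continuousOn h2
    exact hne s hs1 hs2
  have h1 := integral_image_eq_integral_abs_det_fderiv_smul μ (measurableSet_closedBall (x := (0 : E))
    (ε := R)) (fun x _ => (hd x).hasFDerivWithinAt) hinj.injOn (fun _ => (1 : ℝ))
  rw [himg] at h1
  simp only [smul_eq_mul, mul_one, integral_const] at h1
  have h2 : ∫ x in closedBall (0 : E) R, (ContinuousLinearMap.id ℝ E + t • fderiv ℝ G x).det ∂μ =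
      ∫ x in closedBall (0 : E) R, |(ContinuousLinearMap.id ℝ E + t • fderiv ℝ G x).det| ∂μ := by
    refine integral_congr_ae (Eventually.of_forall fun x => ?_)
    exact (abs_of_pos (hpos x)).symm
  rw [h2, ← h1]
  simp [Measure.real]

/-- the integral of the Jacobian determinant of a compactly supported `C¹` map vanishes -/
theorem integral_det_eq_zero [Nontrivial E] {G : E → E} (hG : ContDiff ℝ 1 G)
    (hs : HasCompactSupport G) : ∫ x, (fderiv ℝ G x).det ∂μ = 0 := by
  obtain ⟨C, hC⟩ := hG.lipschitzWith_of_hasCompactSupport hs (by simp)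
  obtain ⟨R, hR⟩ := hs.isBounded.subset_closedBall (0 : E)
  have hout : ∀ x, x ∉ closedBall (0 : E) R → G x = 0 := fun x hx =>
    image_eq_zero_of_notMem_tsupport fun h => hx (hR h)
  have houtd : ∀ x, x ∉ closedBall (0 : E) R → fderiv ℝ G x = 0 := fun x hx => by
    have h1 : x ∉ tsupport G := fun h => hx (hR h)
    exact image_eq_zero_of_notMem_tsupport fun h => h1 (tsupport_fderiv_subset ℝ h)
  set n := Module.finrank ℝ E with hn
  have hn0 : 0 < n := Module.finrank_pos
  set h : ℝ := 1 / ((n + 1) * (C + 1)) with hh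
  have hh0 : 0 < h := by positivity
  have hsmall : ∀ k ∈ Finset.range (n + 1), |(k : ℝ) * h| * C < 1 := by
    intro k hk
    rw [Finset.mem_range] at hk
    have h1 : (k : ℝ) < n + 1 := by exact_mod_cast hk
    rw [abs_of_nonneg (by positivity), hh]
    have h2 : (k : ℝ) * (1 / ((n + 1) * (C + 1))) * C = (k / (n + 1)) * (C / (C + 1)) := by
      field_simp
    rw [h2]
    have h3 : (k : ℝ) / (n + 1) < 1 := by rw [div_lt_one (by positivity)]; exact h1
    have h4 : (C : ℝ) / (C + 1) ≤ 1 := by rw [div_le_one (by positivity)]; linarith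
    have h5 : 0 ≤ (C : ℝ) / (C + 1) := by positivity
    have h6 : 0 ≤ (k : ℝ) / (n + 1) := by positivity
    calc (k : ℝ) / (n + 1) * (C / (C + 1)) ≤ (k : ℝ) / (n + 1) * 1 := by gcongr
      _ < 1 := by rw [mul_one]; exact h3
  have hcont : Continuous (fderiv ℝ G) := hG.continuous_fderiv (by simp)
  -- the identity of finite differences, integrated
  have h1 : ∫ x in closedBall (0 : E) R, (fderiv ℝ G x).det ∂μ = 0 := by
    have e1 : ∀ x, (fderiv ℝ G x).det * (h ^ n * n.factorial) =
        ∑ k ∈ Finset.range (n + 1), (((-1 : ℤ) ^ (n - k) * n.choose k : ℤ) : ℝ) *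
        (ContinuousLinearMap.id ℝ E + ((k : ℝ) * h) • fderiv ℝ G x).det := by
      intro x
      have := fd_det (h • fderiv ℝ G x)
      rw [det_smul_clm, ← hn] at this
      rw [← mul_assoc, mul_comm _ (h ^ n), ← this]
      refine Finset.sum_congr rfl fun k _ => ?_
      rw [smul_smul]
    have e2 : ∫ x in closedBall (0 : E) R, (fderiv ℝ G x).det * (h ^ n * n.factorial) ∂μ = 0 := by
      simp only [e1]
      rw [integral_finsetSum]
      · have e3 : ∀ k ∈ Finset.range (n + 1), ∫ x in closedBall (0 : E) R,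
            (((-1 : ℤ) ^ (n - k) * n.choose k : ℤ) : ℝ) *
            (ContinuousLinearMap.id ℝ E + ((k : ℝ) * h) • fderiv ℝ G x).det ∂μ =
            (((-1 : ℤ) ^ (n - k) * n.choose k : ℤ) : ℝ) * μ.real (closedBall (0 : E) R) := by
          intro k hk
          rw [integral_const_mul, integral_det_perturb μ hG hout hC (hsmall k hk)]
        rw [Finset.sum_congr rfl e3, ← Finset.sum_mul]
        have e4 := fd_poly 1 n (by simp)
        simp only [Polynomial.eval_one, mul_one] at e4
        rw [e4, Polynomial.coeff_one, if_neg hn0.ne']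
        simp
      · intro k _
        have hc : Continuous (fun x => (((-1 : ℤ) ^ (n - k) * n.choose k : ℤ) : ℝ) *
            (ContinuousLinearMap.id ℝ E + ((k : ℝ) * h) • fderiv ℝ G x).det) :=
          continuous_const.mul (ContinuousLinearMap.continuous_det.comp (by fun_prop))
        exact hc.continuousOn.integrableOn_compact (isCompact_closedBall 0 R)
    rw [integral_mul_const] at e2
    exact (mul_eq_zero.1 e2).resolve_right (by positivity)
  rw [← h1]
  refine (setIntegral_eq_integral_of_forall_compl_eq_zero fun x hx => ?_).symm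
  rw [houtd x hx]
  have := det_smul_clm (0 : E →L[ℝ] E) 0
  rw [zero_smul, zero_pow (by rw [← hn]; exact hn0.ne'), zero_mul] at this
  exact this

end Vale.Agent.P247.H58.LW
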