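import Vale.Agent.P247.H58.LW.Wnd

/-!
# The contribution of two different branches, and of a branch with itself
-/

open scoped ContDiff Topology
open Set MeasureTheory Filter Metric Asymptotics Polynomial

noncomputable section

namespace Vale.Agent.P247.H58.LW

open Vale.Agent.P247.H74 Vale.Agent.P247.H74.CE Vale.Agent.P247.H574
open Vale.Agent.P247.H74.CE.Lead (uh zt zt_zero)

/-- from the radius upstairs to the radius downstairs -/
theorem ev_root {K : ℕ} (hK : 1 ≤ K) {P : ℝ → Prop} (h : ∀ᶠ R in 𝓝[>] (0 : ℝ), P (R ^ K)) :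
    ∀ᶠ ρ in 𝓝[>] (0 : ℝ), P ρ := by
  have hK0 : K ≠ 0 := by omega
  have h1 : Tendsto (fun ρ : ℝ => ρ ^ ((K : ℝ)⁻¹)) (𝓝[>] 0) (𝓝[>] 0) := by
    refine tendsto_nhdsWithin_iff.2 ⟨?_, ?_⟩
    · have h2 : Tendsto (fun ρ : ℝ => ρ ^ ((K : ℝ)⁻¹)) (𝓝 0) (𝓝 (0 ^ ((K : ℝ)⁻¹))) :=
        (Real.continuousAt_rpow_const 0 _ (Or.inr (by positivity))).tendsto
      rw [Real.zero_rpow (by positivity)] at h2
      exact h2.mono_left nhdsWithin_le_nhds
    · filter_upwards [self_mem_nhdsWithin] with ρ hρ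
      exact Real.rpow_pos_of_pos (mem_Ioi.1 hρ) _
  filter_upwards [h1.eventually h, self_mem_nhdsWithin] with ρ h2 h3
  rwa [Real.rpow_inv_natCast_pow (le_of_lt (mem_Ioi.1 h3)) hK0] at h2

/-- the conclusion for one pair -/
def Ctr (ul uj : ℂ → R4) (V : R4 → R4) (δ ρ N : ℝ) : Prop :=
  ∃ ε₀ > 0, ∀ f : R4 → ℝ, Continuous f → tsupport f ⊆ ball 0 ε₀ →
    Iuv ul uj V δ ρ f = N * ∫ y, f y

namespace PairD

variable {D : Data} {ul uj : ℂ → R4} {kl kj : ℕ} {al aj b : R4} {ξ : ℂ → ℂ} {δ₀ : ℝ} {κ : ℂ}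

theorem cross (h : PairD D ul uj kl kj al aj b ξ δ₀ κ) (hD : Good D)
    (hfar : ∀ s ∈ closedBall (0 : ℂ) 1, uj s = uj 0 → s = 0)
    (hdis : ∃ ε > 0, ∀ z ∈ ball (0 : ℂ) ε, ∀ z' ∈ ball (0 : ℂ) ε, ul z = uj z' → z = 0) :
    ∃ N : ℝ, 0 < N ∧ ∀ᶠ ρ in 𝓝[>] (0 : ℝ), ∀ v : R4 → ℂ, ContDiff ℝ ∞ v →
      ∀ᶠ δ in 𝓝[>] (0 : ℝ), Ctr ul uj (fun y => cm D (uj 0) (v y) b) δ ρ N := by
  have hkj : 1 ≤ kj := h.hj.hk
  have hkl : 1 ≤ kl := h.hl.hk
  obtain ⟨ε, hε, hdis⟩ := hdis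
  have hS : ∀ w ∈ nthRootsFinset kj (1 : ℂ), w ^ kj = 1 := fun w hw =>
    (mem_nthRootsFinset (by omega) 1).1 hw
  have hne : ∀ w ∈ nthRootsFinset kj (1 : ℂ), ∀ᶠ τ in 𝓝[≠] (0 : ℂ),
      nn D ul uj kl kj al aj b ξ κ w τ ≠ 0 := by
    intro w hw
    have hw0 := h.root_ne (hS w hw)
    have e1 : ∀ᶠ τ in 𝓝[≠] (0 : ℂ), τ ^ kj ∈ ball (0 : ℂ) ε :=
      nhdsWithin_le_nhds ((pow_tendsto' hkj).eventually (ball_mem_nhds 0 hε))
    have e2 : ∀ᶠ τ in 𝓝[≠] (0 : ℂ), sw D ul kl kj al b ξ κ w τ ∈ ball (0 : ℂ) ε :=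
      (h.sw_tendsto hw0).eventually (nhdsWithin_le_nhds (ball_mem_nhds 0 hε))
    filter_upwards [e1, e2, nhdsWithin_le_nhds (h.nn_diff (hS w hw)), ne_ev] with τ e1 e2 e3 e4 e5
    rw [e5, cm_zero, sub_eq_zero] at e3
    exact pow_ne_zero kj e4 (hdis _ e1 _ e2 e3)
  have hm : ∀ w : ℂ, ∃ m : ℕ, w ∈ nthRootsFinset kj (1 : ℂ) → (kl * kj ≤ m ∧
      ∀ᶠ R in 𝓝[>] (0 : ℝ), ∀ v : R4 → ℂ, Continuous v → ∀ᶠ δ : ℝ in 𝓝[>] (0 : ℝ), HasWinding
        (fun τ => nn D ul uj kl kj al aj b ξ κ w τ + (δ : ℂ) * v (ul (τ ^ kj))) 0 R m) := by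
    intro w
    by_cases hw : w ∈ nthRootsFinset kj (1 : ℂ)
    · obtain ⟨m, h1, h2⟩ := h.nn_wind (hS w hw) (h.nn_O (h.root_ne (hS w hw))) (hne w hw)
      exact ⟨m, fun _ => ⟨h1, h2⟩⟩
    · exact ⟨0, fun h' => absurd h' hw⟩
  choose m hm using hm
  obtain ⟨c, hc, hcon⟩ := h.contrib hD hfar
  have hsum : (1 : ℤ) ≤ ∑ w ∈ nthRootsFinset kj (1 : ℂ), (m w : ℤ) := by
    have h1 : (1 : ℂ) ∈ nthRootsFinset kj (1 : ℂ) :=
      (mem_nthRootsFinset (by omega) 1).2 (one_pow kj)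
    have h2 : (1 : ℤ) ≤ m 1 := by
      have := (hm 1 h1).1
      have h3 : 0 < kl * kj := Nat.mul_pos hkl hkj
      exact_mod_cast lt_of_lt_of_le h3 this
    exact h2.trans (Finset.single_le_sum (f := fun w => (m w : ℤ)) (fun w _ => by positivity) h1)
  refine ⟨((∑ w ∈ nthRootsFinset kj (1 : ℂ), (m w : ℤ) : ℤ) : ℝ) * c / kj, ?_, ?_⟩
  · have h1 : (0 : ℝ) < ((∑ w ∈ nthRootsFinset kj (1 : ℂ), (m w : ℤ) : ℤ) : ℝ) := by
      exact_mod_cast lt_of_lt_of_le one_pos hsum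
    have h2 : (0 : ℝ) < kj := by exact_mod_cast hkj
    positivity
  · refine ev_root hkj ?_
    have hwind : ∀ᶠ R in 𝓝[>] (0 : ℝ), ∀ w ∈ nthRootsFinset kj (1 : ℂ), ∀ v : R4 → ℂ,
        Continuous v → ∀ᶠ δ : ℝ in 𝓝[>] (0 : ℝ), HasWinding
          (fun τ => nn D ul uj kl kj al aj b ξ κ w τ + (δ : ℂ) * v (ul (τ ^ kj))) 0 R (m w) := by
      rw [Filter.eventually_all_finset]
      exact fun w hw => (hm w hw).2
    filter_upwards [hwind, hcon] with R hwind hcon v hv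
    have h1 : ∀ᶠ δ in 𝓝[>] (0 : ℝ), WD D ul uj kl kj al aj b ξ κ v R δ (fun w => (m w : ℤ)) := by
      unfold WD
      rw [Filter.eventually_all_finset]
      exact fun w hw => hwind w hw v hv.continuous
    filter_upwards [hcon v hv _ h1] with δ hδ
    obtain ⟨ε₀, hε₀, key⟩ := hδ
    refine ⟨ε₀, hε₀, fun f hf hfs => ?_⟩
    have h2 : (kj : ℝ) ≠ 0 := by
      have : (0 : ℝ) < kj := by exact_mod_cast hkj
      exact this.ne'
    have h3 := key f hf hfs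
    field_simp
    linear_combination h3

end PairD

section
variable {D : Data} {u : ℂ → R4} {k : ℕ} {a b : R4} {ξ : ℂ → ℂ} {δ₀ : ℝ}

theorem selfPair (h : LeadL D u k a b) (hi : Inv D u k a b ξ δ₀) :
    PairD D u u k k a a b ξ δ₀ 1 where
  hl := h
  hj := h
  h0 := rfl
  hi := hi
  hκ := by rw [one_pow, div_self h.hab]

theorem Phi_self (h : LeadL D u k a b) (τ : ℂ) :
    Phi D u k k a b 1 τ = zt D u k a b (τ ^ k) := by
  have hk0 := h.k0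
  have hk0' : (k : ℂ) ≠ 0 := h.k0c
  have e0 : u (0 ^ k) = u 0 := by rw [zero_pow hk0]
  rw [Phi, one_mul, zt, zt, mul_pow, ← Complex.cpow_mul_nat]
  simp only [e0]
  have e1 : ((k * k : ℕ) : ℂ)⁻¹ * k = (k : ℂ)⁻¹ := by
    push_cast
    field_simp
  have e2 : τ ^ (k * k) = (τ ^ k) ^ k := by rw [pow_mul]
  have e3 : τ ^ (-((k * k : ℕ) : ℤ)) = (τ ^ k) ^ (-(k : ℤ)) := by
    rw [zpow_neg, zpow_neg, zpow_natCast, zpow_natCast, e2]
  rw [e1, e2, e3]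

theorem diag (hD : Good D) (h : LeadL D u k a b) (hi : Inv D u k a b ξ δ₀)
    (hfar : ∀ s ∈ closedBall (0 : ℂ) 1, u s = u 0 → s = 0)
    (hinj : ∃ ε > 0, ∀ z ∈ ball (0 : ℂ) ε, ∀ w ∈ ball (0 : ℂ) ε, u z = u w → z = w) :
    ∃ c S : ℝ, 0 < c ∧ ((k : ℝ) - 1) * (k + 1) ≤ S ∧
      ∀ᶠ ρ in 𝓝[>] (0 : ℝ), ∀ v : R4 → ℂ, ContDiff ℝ ∞ v → ∀ q : ℤ,
        HasWinding (fun t => v (u t)) 0 ρ q → ∀ᶠ δ in 𝓝[>] (0 : ℝ),
          Ctr u u (fun y => cm D (u 0) (v y) b) δ ρ (c * (q + S)) := by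
  classical
  have hk : 1 ≤ k := h.hk
  have hk0 : k ≠ 0 := h.k0
  have hp := selfPair h hi
  obtain ⟨ε, hε, hinj⟩ := hinj
  set R₀ := (nthRootsFinset k (1 : ℂ)).erase 1 with hR₀
  have hS : ∀ w ∈ R₀, w ^ k = 1 ∧ w ≠ 1 := by
    intro w hw
    rw [hR₀, Finset.mem_erase, mem_nthRootsFinset (by omega)] at hw
    exact ⟨hw.2, hw.1⟩
  -- the trivial root
  have h1 : ∀ᶠ τ in 𝓝 (0 : ℂ), nn D u u k k a a b ξ 1 1 τ = 0 := by
    filter_upwards [(pow_tendsto' hk).eventually hi.left] with τ hτ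
    rw [nn, one_mul, Phi_self h, hτ, sub_self, map_zero]
  -- the other roots
  have hne : ∀ w ∈ R₀, ∀ᶠ τ in 𝓝[≠] (0 : ℂ), nn D u u k k a a b ξ 1 w τ ≠ 0 := by
    intro w hw
    have hw0 := hp.root_ne (hS w hw).1
    have e1 : ∀ᶠ τ in 𝓝[≠] (0 : ℂ), τ ^ k ∈ ball (0 : ℂ) ε :=
      nhdsWithin_le_nhds ((pow_tendsto' hk).eventually (ball_mem_nhds 0 hε))
    have e2 : ∀ᶠ τ in 𝓝[≠] (0 : ℂ), PairD.sw D u k k a b ξ 1 w τ ∈ ball (0 : ℂ) ε :=
      (hp.sw_tendsto hw0).eventually (nhdsWithin_le_nhds (ball_mem_nhds 0 hε))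
    filter_upwards [e1, e2, nhdsWithin_le_nhds (hp.nn_diff (hS w hw).1), hp.Phi_ne,
      nhdsWithin_le_nhds (hp.wPhi_small w)] with τ e1 e2 e3 e4 e5 e6
    rw [e6, cm_zero, sub_eq_zero] at e3
    have e7 := hinj _ e1 _ e2 e3
    have e8 : zt D u k a b (PairD.sw D u k k a b ξ 1 w τ) = w * Phi D u k k a b 1 τ :=
      hi.right _ e5
    rw [← e7, ← Phi_self h] at e8
    have e9 : (1 - w) * Phi D u k k a b 1 τ = 0 := by linear_combination e8
    rcases mul_eq_zero.1 e9 with e10 | e10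
    · exact (hS w hw).2 (sub_eq_zero.1 e10).symm
    · exact e4 e10
  have hO : ∀ w ∈ R₀, (nn D u u k k a a b ξ 1 w) =O[𝓝[≠] 0] fun τ : ℂ => τ ^ (k * (k + 1)) := by
    intro w hw
    have hw0 := hp.root_ne (hS w hw).1
    have e1 : (fun τ => p2 D (u 0) a b (u (τ ^ k) - u 0)) =O[𝓝[≠] 0]
        fun τ : ℂ => τ ^ (k * (k + 1)) := by
      refine (cl_compPow h.u2_cl hk).bd.trans
        (IsBigO.of_bound 1 (Eventually.of_forall fun τ => ?_))
      have : (k : ℤ) * ((k : ℤ) + 1) = ((k * (k + 1) : ℕ) : ℤ) := by push_cast; ring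
      rw [this, zpow_natCast, norm_pow, norm_norm, norm_pow, one_mul]
    have e2 := hp.comp_sw_O hw0 (q := k + 1) (g := fun z => p2 D (u 0) a b (u z - u 0)) (by
      have := h.u2_cl.bd
      exact_mod_cast this)
    refine (e1.sub e2).congr_left fun τ => ?_
    exact (PairD.nn_eq w τ).symm
  have hm : ∀ w : ℂ, ∃ m : ℕ, w ∈ R₀ → (k * (k + 1) ≤ m ∧
      ∀ᶠ R in 𝓝[>] (0 : ℝ), ∀ v : R4 → ℂ, Continuous v → ∀ᶠ δ : ℝ in 𝓝[>] (0 : ℝ), HasWinding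
        (fun τ => nn D u u k k a a b ξ 1 w τ + (δ : ℂ) * v (u (τ ^ k))) 0 R m) := by
    intro w
    by_cases hw : w ∈ R₀
    · obtain ⟨m, h1, h2⟩ := hp.nn_wind (hS w hw).1 (hO w hw) (hne w hw)
      exact ⟨m, fun _ => ⟨h1, h2⟩⟩
    · exact ⟨0, fun h' => absurd h' hw⟩
  choose m hm using hm
  obtain ⟨c, hc, hcon⟩ := hp.contrib hD hfar
  have hkr : (0 : ℝ) < k := by exact_mod_cast hk
  refine ⟨c, (∑ w ∈ R₀, (m w : ℝ)) / k, hc, ?_, ?_⟩
  · rw [le_div_iff₀ hkr]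
    have h2 : ∑ w ∈ R₀, ((k * (k + 1) : ℕ) : ℝ) ≤ ∑ w ∈ R₀, (m w : ℝ) :=
      Finset.sum_le_sum fun w hw => by exact_mod_cast (hm w hw).1
    rw [Finset.sum_const, hR₀, card_roots hk0, nsmul_eq_mul] at h2
    rw [hR₀]
    refine le_trans (le_of_eq ?_) h2
    push_cast [hk]
    ring
  · refine ev_root hk ?_
    have hwind : ∀ᶠ R in 𝓝[>] (0 : ℝ), ∀ w ∈ R₀, ∀ v : R4 → ℂ,
        Continuous v → ∀ᶠ δ : ℝ in 𝓝[>] (0 : ℝ), HasWinding
          (fun τ => nn D u u k k a a b ξ 1 w τ + (δ : ℂ) * v (u (τ ^ k))) 0 R (m w) := by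
      rw [Filter.eventually_all_finset]
      exact fun w hw => (hm w hw).2
    have h1' : ∀ᶠ R in 𝓝[>] (0 : ℝ), ∀ τ ∈ sphere (0 : ℂ) R, nn D u u k k a a b ξ 1 1 τ = 0 :=
      ev_sphere (nhdsWithin_le_nhds h1)
    filter_upwards [hwind, hcon, h1', self_mem_nhdsWithin] with R hwind hcon h1' hR0 v hv q hq
    have hR : 0 < R := hR0
    set M : ℂ → ℤ := fun w => if w = 1 then k * q else m w with hM
    have h2 : ∀ᶠ δ in 𝓝[>] (0 : ℝ), WD D u u k k a a b ξ 1 v R δ M := by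
      unfold WD
      rw [Filter.eventually_all_finset]
      intro w hw
      by_cases hw1 : w = 1
      · subst hw1
        filter_upwards [self_mem_nhdsWithin] with δ hδ
        have hδ0 : (δ : ℂ) ≠ 0 := by exact_mod_cast (ne_of_gt (mem_Ioi.1 hδ))
        have e1 := wind_smul hδ0 hR (wind_pow hq)
        simp only [hM, if_true]
        refine wind_congr e1 fun τ hτ => ?_
        rw [h1' τ hτ, zero_add]
      · have hw' : w ∈ R₀ := by rw [hR₀, Finset.mem_erase]; exact ⟨hw1, hw⟩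
        have := hwind w hw' v hv.continuous
        simp only [hM, if_neg hw1]
        exact this
    filter_upwards [hcon v hv M h2] with δ hδ
    obtain ⟨ε₀, hε₀, key⟩ := hδ
    refine ⟨ε₀, hε₀, fun f hf hfs => ?_⟩
    have h3 := key f hf hfs
    have h4 : ((∑ w ∈ nthRootsFinset k (1 : ℂ), M w : ℤ) : ℝ) =
        k * q + ∑ w ∈ R₀, (m w : ℝ) := by
      have e1 : (1 : ℂ) ∈ nthRootsFinset k (1 : ℂ) :=
        (mem_nthRootsFinset (by omega) 1).2 (one_pow k)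
      rw [← Finset.add_sum_erase _ _ e1]
      push_cast
      congr 1
      · simp [hM]
      · refine Finset.sum_congr rfl fun w hw => ?_
        simp [hM, (hS w hw).2]
    rw [h4] at h3
    field_simp
    linear_combination h3

/-- the winding number of `v` along the branch -/
theorem wind_o (h : LeadL D u k a b) : ∀ᶠ ρ in 𝓝[>] (0 : ℝ), ∀ v : R4 → ℂ, Continuous v →
    ∀ o : ℤ, HasWinding (fun t => Om D (u t) (fderiv ℝ u t 1) (cm D (u 0) (v (u t)) b)) 0 ρ o →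
      HasWinding (fun t => v (u t)) 0 ρ (o - (k - 1)) := by
  have hk := h.hk
  filter_upwards [ev_sphere (trans_nearL h), self_mem_nhdsWithin] with ρ h1 hρ0 v hv o ho
  have hρ : 0 < ρ := hρ0
  have hne : ∀ z ∈ sphere (0 : ℂ) ρ, z ≠ 0 := by
    rintro z hz rfl
    rw [mem_sphere_zero_iff_norm, norm_zero] at hz
    exact hρ.ne hz
  set f₀ : ℂ → ℂ := fun t => Om D (u t) (fderiv ℝ u t 1) (cm D (u 0) (v (u t)) b) with hf₀
  set kt : ℂ → ℂ := fun t => (k : ℂ) * t ^ (k - 1) with hkt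
  have hkt0 : ∀ z ∈ sphere (0 : ℂ) ρ, kt z ≠ 0 := fun z hz =>
    mul_ne_zero h.k0c (pow_ne_zero _ (hne z hz))
  set G : ℂ → ℂ := fun t => f₀ t / kt t with hG
  have hGe : ∀ z ∈ sphere (0 : ℂ) ρ, G z = OmL D (u z) (uh D u k z) (cm D (u 0) (v (u z)) b) := by
    intro z hz
    simp only [hG, hf₀]
    rw [h.T_eq (hne z hz), cm_Om, OmL_apply]
    rw [div_eq_iff (hkt0 z hz)]
    simp only [hkt]
    ring
  have hf₀ne : ∀ z ∈ sphere (0 : ℂ) ρ, f₀ z ≠ 0 := fun z hz => wind_ne hρ ho hz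
  have hvne : ∀ z ∈ sphere (0 : ℂ) ρ, v (u z) ≠ 0 := by
    intro z hz h0
    apply hf₀ne z hz
    simp only [hf₀]
    rw [h0, cm_zero, ← OmL_apply, map_zero]
  have huc := h.cont
  have hvc : ContinuousOn (fun t => v (u t)) (sphere 0 ρ) := (hv.comp huc).continuousOn
  obtain ⟨q, hq⟩ := WWIND.W4 _ 0 ρ hρ hvc hvne
  have hf₀c : Continuous f₀ := by
    have e1 : Continuous (fun t => OmL D (u t)) := (OmL_smooth D).continuous.comp huc
    have e2 : Continuous (fun t => fderiv ℝ u t 1) :=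
      (h.hu.1.continuous_fderiv (by simp)).clm_apply continuous_const
    have e3 : Continuous (fun t => cm D (u 0) (v (u t)) b) := by
      have : (fun t => cm D (u 0) (v (u t)) b) = fun t => cmB D (u 0) (v (u t)) b := by
        funext t
        rw [cmB_apply]
      rw [this]
      have := hv.comp huc
      fun_prop
    have e4 : f₀ = fun t => OmL D (u t) (fderiv ℝ u t 1) (cm D (u 0) (v (u t)) b) := by
      funext t
      simp only [hf₀]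
      rw [OmL_apply]
    rw [e4]
    exact (e1.clm_apply e2).clm_apply e3
  have hGc : ContinuousOn G (sphere 0 ρ) :=
    hf₀c.continuousOn.div (Continuous.continuousOn (by fun_prop)) hkt0
  have h2 : HasWinding (fun t => Om D (u 0) a b * v (u t)) 0 ρ q := wind_smul h.hab hρ hq
  have h3 : HasWinding G 0 ρ q := by
    refine WWIND.W5 (fun t => Om D (u 0) a b * v (u t)) G 0 ρ q hρ
      (continuousOn_const.mul hvc) hGc (fun z hz => ?_) h2
    rw [hGe z hz]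
    refine lt_of_le_of_lt (h1 z hz (v (u z))) ?_
    rw [norm_mul]
    have e1 : 0 < ‖Om D (u 0) a b‖ := norm_pos_iff.2 h.hab
    have e2 : 0 < ‖v (u z)‖ := norm_pos_iff.2 (hvne z hz)
    nlinarith [mul_pos e1 e2]
  have h4 : HasWinding kt 0 ρ ((k : ℤ) - 1) := by
    have e1 := WWIND.hasWinding_zpow (c := 0) (r := ρ) h.k0c ((k : ℤ) - 1)
    refine wind_congr e1 fun z _ => ?_
    simp only [hkt, sub_zero]
    rw [show (k : ℤ) - 1 = ((k - 1 : ℕ) : ℤ) by push_cast [hk]; ring, zpow_natCast]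
  have h5 := WWIND.W2 kt G 0 ρ _ _ hρ h4 h3
  have h6 : HasWinding f₀ 0 ρ ((k : ℤ) - 1 + q) := by
    refine wind_congr h5 fun z hz => ?_
    simp only [hG]
    rw [mul_div_cancel₀ _ (hkt0 z hz)]
  have h7 := WWIND.W1 f₀ 0 ρ _ _ hρ ho h6
  rw [h7]
  have : ((k : ℤ) - 1 + q - ((k : ℤ) - 1)) = q := by ring
  rw [this]
  exact hq

end

end Vale.Agent.P247.H58.LW
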