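import Vale.Agent.P247.H58.LW.Ker

/-!
# The degree integrals as integrals of the differential of the argument
-/

open MeasureTheory Set Metric Filter Topology
open scoped ContDiff

noncomputable section

namespace Vale.Agent.P247.H58.LW

section
variable {E : Type*} [NormedAddCommGroup E] [NormedSpace ℝ E]

theorem re_c1 {h : E → ℂ} (hh : ContDiff ℝ 1 h) : ContDiff ℝ 1 (fun x => (h x).re) :=
  Complex.reCLM.contDiff.comp hh
theorem im_c1 {h : E → ℂ} (hh : ContDiff ℝ 1 h) : ContDiff ℝ 1 (fun x => (h x).im) :=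
  Complex.imCLM.contDiff.comp hh

theorem re_fderiv {h : E → ℂ} {x : E} (hd : DifferentiableAt ℝ h x) :
    fderiv ℝ (fun x => (h x).re) x = re' (fderiv ℝ h x) :=
  (Complex.reCLM.hasFDerivAt.comp x hd.hasFDerivAt).fderiv
theorem im_fderiv {h : E → ℂ} {x : E} (hd : DifferentiableAt ℝ h x) :
    fderiv ℝ (fun x => (h x).im) x = im' (fderiv ℝ h x) :=
  (Complex.imCLM.hasFDerivAt.comp x hd.hasFDerivAt).fderiv

theorem fderiv_mul_r {X P : E → ℝ} {x : E} (hX : DifferentiableAt ℝ X x)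
    (hP : DifferentiableAt ℝ P x) :
    fderiv ℝ (fun x => X x * P x) x = X x • fderiv ℝ P x + P x • fderiv ℝ X x :=
  fderiv_fun_mul hX hP

end

theorem br2_cont {P Q : ℂ → ℝ} (hP : ContDiff ℝ 1 P) (hQ : ContDiff ℝ 1 Q) :
    Continuous fun x => br2 (fderiv ℝ P x) (fderiv ℝ Q x) := by
  have h1 := hP.continuous_fderiv (by simp)
  have h2 := hQ.continuous_fderiv (by simp)
  unfold br2
  fun_prop

theorem br2_parts {X P Q : ℂ → ℝ} (hX : ContDiff ℝ 1 X) (hXs : HasCompactSupport X)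
    (hP : ContDiff ℝ 1 P) (hQ : ContDiff ℝ 1 Q) :
    ∫ x, X x * br2 (fderiv ℝ P x) (fderiv ℝ Q x) = -∫ x, P x * br2 (fderiv ℝ X x) (fderiv ℝ Q x) := by
  have h1 := br2_int (hX.mul hP) hXs.mul_right hQ
  have e1 : ∀ x, br2 (fderiv ℝ (fun x => X x * P x) x) (fderiv ℝ Q x) =
      X x * br2 (fderiv ℝ P x) (fderiv ℝ Q x) + P x * br2 (fderiv ℝ X x) (fderiv ℝ Q x) := by
    intro x
    rw [fderiv_mul_r ((hX.differentiable (by simp)) x) ((hP.differentiable (by simp)) x),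
      br2_add1, br2_smul1, br2_smul1]
  have i1 : Integrable fun x => X x * br2 (fderiv ℝ P x) (fderiv ℝ Q x) :=
    (hX.continuous.mul (br2_cont hP hQ)).integrable_of_hasCompactSupport hXs.mul_right
  have i2 : Integrable fun x => P x * br2 (fderiv ℝ X x) (fderiv ℝ Q x) := by
    refine (hP.continuous.mul (br2_cont hX hQ)).integrable_of_hasCompactSupport ?_
    refine HasCompactSupport.intro hXs fun x hx => ?_
    simp only [Pi.mul_apply]
    rw [fderiv_eq_zero_of_notMem hx, br2_zero1, mul_zero]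
  simp only [e1] at h1
  rw [integral_add i1 i2] at h1
  linarith

/-- degree integral in dimension two -/
theorem deg2_form {ε : ℝ} (hε : 0 < ε) {X : ℂ → ℝ} {h : ℂ → ℂ} (hX : ContDiff ℝ 1 X)
    (hXs : HasCompactSupport X) (hh : ContDiff ℝ 1 h)
    (hb : ∀ x, fderiv ℝ X x ≠ 0 → ε ≤ ‖h x‖) :
    Integrable (fun x => br2 (fderiv ℝ X x) (lam h x)) ∧
    ∫ x, X x * (kf ε (h x) * (fderiv ℝ h x).det) = -(1 / 2) * ∫ x, br2 (fderiv ℝ X x) (lam h x) := by
  have hd := hh.differentiable (by simp)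
  have c1 := P1_c1 hε hh
  have c2 := P2_c1 hε hh
  have e1 : ∀ x, X x * (kf ε (h x) * (fderiv ℝ h x).det) =
      (1 / 2) * (X x * br2 (fderiv ℝ (P1 ε h) x) (fderiv ℝ (fun x => (h x).im) x) -
        X x * br2 (fderiv ℝ (P2 ε h) x) (fderiv ℝ (fun x => (h x).re) x)) := by
    intro x
    rw [det2_eq, kf_br2 hε (hd x), re_fderiv (hd x), im_fderiv (hd x)]
    ring
  have i1 : Integrable fun x =>
      X x * br2 (fderiv ℝ (P1 ε h) x) (fderiv ℝ (fun x => (h x).im) x) :=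
    (hX.continuous.mul (br2_cont c1 (im_c1 hh))).integrable_of_hasCompactSupport hXs.mul_right
  have i2 : Integrable fun x =>
      X x * br2 (fderiv ℝ (P2 ε h) x) (fderiv ℝ (fun x => (h x).re) x) :=
    (hX.continuous.mul (br2_cont c2 (re_c1 hh))).integrable_of_hasCompactSupport hXs.mul_right
  have j1 : Integrable fun x => P1 ε h x * br2 (fderiv ℝ X x) (fderiv ℝ (fun x => (h x).im) x) := by
    refine (c1.continuous.mul (br2_cont hX (im_c1 hh))).integrable_of_hasCompactSupport ?_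
    refine HasCompactSupport.intro hXs fun x hx => ?_
    simp only [Pi.mul_apply]
    rw [fderiv_eq_zero_of_notMem hx, br2_zero1, mul_zero]
  have j2 : Integrable fun x => P2 ε h x * br2 (fderiv ℝ X x) (fderiv ℝ (fun x => (h x).re) x) := by
    refine (c2.continuous.mul (br2_cont hX (re_c1 hh))).integrable_of_hasCompactSupport ?_
    refine HasCompactSupport.intro hXs fun x hx => ?_
    simp only [Pi.mul_apply]
    rw [fderiv_eq_zero_of_notMem hx, br2_zero1, mul_zero]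
  simp only [e1]
  rw [integral_const_mul, integral_sub i1 i2, br2_parts hX hXs c1 (im_c1 hh),
    br2_parts hX hXs c2 (re_c1 hh)]
  have e2 : ∀ x, br2 (fderiv ℝ X x) (lam h x) =
      P1 ε h x * br2 (fderiv ℝ X x) (fderiv ℝ (fun x => (h x).im) x) -
        P2 ε h x * br2 (fderiv ℝ X x) (fderiv ℝ (fun x => (h x).re) x) := by
    intro x
    by_cases hx : fderiv ℝ X x = 0
    · simp only [hx, br2_zero1]
      ring
    · have h1 : ε ^ 2 ≤ ‖h x‖ ^ 2 := by
        have := hb x hx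
        gcongr
      rw [lam_eq, P1, P2, qf_eq hε h1, re_fderiv (hd x), im_fderiv (hd x), br2_smul2, br2_sub2,
        br2_smul2, br2_smul2]
      ring
  simp only [e2]
  refine ⟨j1.sub j2, ?_⟩
  rw [integral_sub j1 j2]
  ring

/-! ## dimension four -/

theorem br_cont {P Q R S : C2 → ℝ} (hP : ContDiff ℝ 1 P) (hQ : ContDiff ℝ 1 Q)
    (hR : ContDiff ℝ 1 R) (hS : ContDiff ℝ 1 S) :
    Continuous fun x => br (fderiv ℝ P x) (fderiv ℝ Q x) (fderiv ℝ R x) (fderiv ℝ S x) := by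
  have h1 := hP.continuous_fderiv (by simp)
  have h2 := hQ.continuous_fderiv (by simp)
  have h3 := hR.continuous_fderiv (by simp)
  have h4 := hS.continuous_fderiv (by simp)
  unfold br mn
  fun_prop

/-- the weighted bracket -/
def wb (ε : ℝ) (H : C2 → ℂ) (x : C2) (p q : Co) : ℝ :=
  kf ε (H x) * br p q (re' (fderiv ℝ H x)) (im' (fderiv ℝ H x))

theorem wb_add1 (ε : ℝ) (H : C2 → ℂ) (x : C2) (p p' q : Co) :
    wb ε H x (p + p') q = wb ε H x p q + wb ε H x p' q := by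
  rw [wb, wb, wb, br_add1]; ring
theorem wb_smul1 (ε : ℝ) (H : C2 → ℂ) (x : C2) (c : ℝ) (p q : Co) :
    wb ε H x (c • p) q = c * wb ε H x p q := by
  rw [wb, wb, br_smul1]; ring
theorem wb_smul2 (ε : ℝ) (H : C2 → ℂ) (x : C2) (c : ℝ) (p q : Co) :
    wb ε H x p (c • q) = c * wb ε H x p q := by
  rw [wb, wb, br_smul2]; ring
theorem wb_sub2 (ε : ℝ) (H : C2 → ℂ) (x : C2) (p q q' : Co) :
    wb ε H x p (q - q') = wb ε H x p q - wb ε H x p q' := by
  rw [wb, wb, wb, br_sub2]; ring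
theorem wb_add2 (ε : ℝ) (H : C2 → ℂ) (x : C2) (p q q' : Co) :
    wb ε H x p (q + q') = wb ε H x p q + wb ε H x p q' := by
  rw [wb, wb, wb, br_add2]; ring
theorem wb_zero1 (ε : ℝ) (H : C2 → ℂ) (x : C2) (q : Co) : wb ε H x 0 q = 0 := by
  rw [wb, br_zero1, mul_zero]
theorem wb_zero2 (ε : ℝ) (H : C2 → ℂ) (x : C2) (p : Co) : wb ε H x p 0 = 0 := by
  rw [wb, br_zero2, mul_zero]

theorem wb_cont {ε : ℝ} {P Q : C2 → ℝ} {H : C2 → ℂ} (hP : ContDiff ℝ 1 P)
    (hQ : ContDiff ℝ 1 Q) (hH : ContDiff ℝ 1 H) :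
    Continuous fun x => wb ε H x (fderiv ℝ P x) (fderiv ℝ Q x) := by
  have hd := hH.differentiable (by simp)
  have h1 := br_cont hP hQ (re_c1 hH) (im_c1 hH)
  have h2 := (kf_smooth ε).continuous.comp hH.continuous
  refine (h2.mul h1).congr fun x => ?_
  simp only [Pi.mul_apply]
  rw [wb, re_fderiv (hd x), im_fderiv (hd x)]
  rfl

theorem wb_int {ε : ℝ} (hε : 0 < ε) {P Q : C2 → ℝ} {H : C2 → ℂ} (hP : ContDiff ℝ 1 P)
    (hPs : HasCompactSupport P) (hQ : ContDiff ℝ 1 Q) (hH : ContDiff ℝ 1 H) :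
    ∫ x, wb ε H x (fderiv ℝ P x) (fderiv ℝ Q x) = 0 := by
  have hd := hH.differentiable (by simp)
  have c1 := P1_c1 hε hH
  have c2 := P2_c1 hε hH
  have e1 : ∀ x, wb ε H x (fderiv ℝ P x) (fderiv ℝ Q x) =
      (1 / 2) * (br (fderiv ℝ P x) (fderiv ℝ Q x) (fderiv ℝ (P1 ε H) x)
          (fderiv ℝ (fun x => (H x).im) x) -
        br (fderiv ℝ P x) (fderiv ℝ Q x) (fderiv ℝ (P2 ε H) x)
          (fderiv ℝ (fun x => (H x).re) x)) := by
    intro x
    rw [wb, br_pair (re' (fderiv ℝ H x)) (im' (fderiv ℝ H x)) (fderiv ℝ P x) (fderiv ℝ Q x),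
      kf_br hε (hd x), re_fderiv (hd x), im_fderiv (hd x),
      br_pair (fderiv ℝ P x) (fderiv ℝ Q x), br_pair (fderiv ℝ P x) (fderiv ℝ Q x)]
  have hz : ∀ (R S : C2 → ℝ), HasCompactSupport
      fun x => br (fderiv ℝ P x) (fderiv ℝ Q x) (fderiv ℝ R x) (fderiv ℝ S x) := by
    intro R S
    refine HasCompactSupport.intro hPs fun x hx => ?_
    rw [fderiv_eq_zero_of_notMem hx, br_zero1]
  simp only [e1]
  rw [integral_const_mul, integral_sub
    ((br_cont hP hQ c1 (im_c1 hH)).integrable_of_hasCompactSupport (hz _ _))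
    ((br_cont hP hQ c2 (re_c1 hH)).integrable_of_hasCompactSupport (hz _ _)),
    br_int hP hPs hQ c1 (im_c1 hH), br_int hP hPs hQ c2 (re_c1 hH)]
  simp

theorem wb_parts {ε : ℝ} (hε : 0 < ε) {X P Q : C2 → ℝ} {H : C2 → ℂ} (hX : ContDiff ℝ 1 X)
    (hXs : HasCompactSupport X) (hP : ContDiff ℝ 1 P) (hQ : ContDiff ℝ 1 Q)
    (hH : ContDiff ℝ 1 H) :
    ∫ x, X x * wb ε H x (fderiv ℝ P x) (fderiv ℝ Q x) =
      -∫ x, P x * wb ε H x (fderiv ℝ X x) (fderiv ℝ Q x) := by
  have h1 := wb_int hε (hX.mul hP) hXs.mul_right hQ hH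
  have e1 : ∀ x, wb ε H x (fderiv ℝ (fun x => X x * P x) x) (fderiv ℝ Q x) =
      X x * wb ε H x (fderiv ℝ P x) (fderiv ℝ Q x) +
        P x * wb ε H x (fderiv ℝ X x) (fderiv ℝ Q x) := by
    intro x
    rw [fderiv_mul_r ((hX.differentiable (by simp)) x) ((hP.differentiable (by simp)) x),
      wb_add1, wb_smul1, wb_smul1]
  have i1 : Integrable fun x => X x * wb ε H x (fderiv ℝ P x) (fderiv ℝ Q x) :=
    (hX.continuous.mul (wb_cont hP hQ hH)).integrable_of_hasCompactSupport hXs.mul_right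
  have i2 : Integrable fun x => P x * wb ε H x (fderiv ℝ X x) (fderiv ℝ Q x) := by
    refine (hP.continuous.mul (wb_cont hX hQ hH)).integrable_of_hasCompactSupport ?_
    refine HasCompactSupport.intro hXs fun x hx => ?_
    simp only [Pi.mul_apply]
    rw [fderiv_eq_zero_of_notMem hx, wb_zero1, mul_zero]
  simp only [e1] at h1
  rw [integral_add i1 i2] at h1
  linarith

/-- the determinant of a pair -/
theorem det_pair {A H : C2 → ℂ} {x : C2} (hA : DifferentiableAt ℝ A x)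
    (hH : DifferentiableAt ℝ H x) : (fderiv ℝ (fun x => (A x, H x)) x).det =
      br (re' (fderiv ℝ A x)) (im' (fderiv ℝ A x)) (re' (fderiv ℝ H x)) (im' (fderiv ℝ H x)) := by
  rw [det4_eq, (hA.hasFDerivAt.prodMk hH.hasFDerivAt).fderiv]
  congr 1

/-- the degree integral -/
def dI (ε : ℝ) (A H : C2 → ℂ) (x : C2) : ℝ :=
  kf ε (A x) * wb ε H x (re' (fderiv ℝ A x)) (im' (fderiv ℝ A x))

theorem dI_eq {ε : ℝ} {A H : C2 → ℂ} {x : C2} (hA : DifferentiableAt ℝ A x)
    (hH : DifferentiableAt ℝ H x) : dI ε A H x =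
      kf ε (A x) * kf ε (H x) * (fderiv ℝ (fun x => (A x, H x)) x).det := by
  rw [det_pair hA hH, dI, wb]
  ring

theorem deg4_form {ε : ℝ} (hε : 0 < ε) {X : C2 → ℝ} {A H : C2 → ℂ} (hX : ContDiff ℝ 1 X)
    (hXs : HasCompactSupport X) (hA : ContDiff ℝ 1 A) (hH : ContDiff ℝ 1 H)
    (hb : ∀ x, fderiv ℝ X x ≠ 0 → ‖H x‖ < ε → ε ≤ ‖A x‖) :
    Integrable (fun x => wb ε H x (fderiv ℝ X x) (lam A x)) ∧
    ∫ x, X x * dI ε A H x = -(1 / 2) * ∫ x, wb ε H x (fderiv ℝ X x) (lam A x) := by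
  have hd := hA.differentiable (by simp)
  have c1 := P1_c1 hε hA
  have c2 := P2_c1 hε hA
  have e1 : ∀ x, X x * dI ε A H x =
      (1 / 2) * (X x * wb ε H x (fderiv ℝ (P1 ε A) x) (fderiv ℝ (fun x => (A x).im) x) -
        X x * wb ε H x (fderiv ℝ (P2 ε A) x) (fderiv ℝ (fun x => (A x).re) x)) := by
    intro x
    have := kf_br hε (hd x) (re' (fderiv ℝ H x)) (im' (fderiv ℝ H x))
    rw [re_fderiv (hd x), im_fderiv (hd x), dI, wb, wb, wb]
    linear_combination (X x * kf ε (H x)) * this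
  have i1 : Integrable fun x =>
      X x * wb ε H x (fderiv ℝ (P1 ε A) x) (fderiv ℝ (fun x => (A x).im) x) :=
    (hX.continuous.mul (wb_cont c1 (im_c1 hA) hH)).integrable_of_hasCompactSupport hXs.mul_right
  have i2 : Integrable fun x =>
      X x * wb ε H x (fderiv ℝ (P2 ε A) x) (fderiv ℝ (fun x => (A x).re) x) :=
    (hX.continuous.mul (wb_cont c2 (re_c1 hA) hH)).integrable_of_hasCompactSupport hXs.mul_right
  have j1 : Integrable fun x =>
      P1 ε A x * wb ε H x (fderiv ℝ X x) (fderiv ℝ (fun x => (A x).im) x) := by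
    refine (c1.continuous.mul (wb_cont hX (im_c1 hA) hH)).integrable_of_hasCompactSupport ?_
    refine HasCompactSupport.intro hXs fun x hx => ?_
    simp only [Pi.mul_apply]
    rw [fderiv_eq_zero_of_notMem hx, wb_zero1, mul_zero]
  have j2 : Integrable fun x =>
      P2 ε A x * wb ε H x (fderiv ℝ X x) (fderiv ℝ (fun x => (A x).re) x) := by
    refine (c2.continuous.mul (wb_cont hX (re_c1 hA) hH)).integrable_of_hasCompactSupport ?_
    refine HasCompactSupport.intro hXs fun x hx => ?_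
    simp only [Pi.mul_apply]
    rw [fderiv_eq_zero_of_notMem hx, wb_zero1, mul_zero]
  simp only [e1]
  rw [integral_const_mul, integral_sub i1 i2, wb_parts hε hX hXs c1 (im_c1 hA) hH,
    wb_parts hε hX hXs c2 (re_c1 hA) hH]
  have e2 : ∀ x, wb ε H x (fderiv ℝ X x) (lam A x) =
      P1 ε A x * wb ε H x (fderiv ℝ X x) (fderiv ℝ (fun x => (A x).im) x) -
        P2 ε A x * wb ε H x (fderiv ℝ X x) (fderiv ℝ (fun x => (A x).re) x) := by
    intro x
    by_cases hx : fderiv ℝ X x = 0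
    · simp only [hx, wb_zero1]
      ring
    · by_cases hk : kf ε (H x) = 0
      · simp only [wb, hk]
        ring
      have h1 : ε ^ 2 ≤ ‖A x‖ ^ 2 := by
        have := hb x hx (kf_lt hε hk)
        gcongr
      rw [lam_eq, P1, P2, qf_eq hε h1, re_fderiv (hd x), im_fderiv (hd x), wb_smul2, wb_sub2,
        wb_smul2, wb_smul2]
      ring
  simp only [e2]
  refine ⟨j1.sub j2, ?_⟩
  rw [integral_sub j1 j2]
  ring

end Vale.Agent.P247.H58.LW
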