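import Vale.Agent.P247.H58.LW.Vol

/-!
# Frames, orientation
-/

open scoped ContDiff Topology
open Set MeasureTheory Filter Metric Asymptotics

noncomputable section

namespace Vale.Agent.P247.H58.LW

open Vale.Agent.P247.H74 Vale.Agent.P247.H74.CE Vale.Agent.P247.H574

/-- the frame -/
def Qf (D : Data) (x a b : R4) : C2 →L[ℝ] R4 :=
  ((cmB D x).flip a).comp (ContinuousLinearMap.fst ℝ ℂ ℂ) +
    ((cmB D x).flip b).comp (ContinuousLinearMap.snd ℝ ℂ ℂ)

theorem Qf_apply (D : Data) (x a b : R4) (y : C2) :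
    Qf D x a b y = cm D x y.1 a + cm D x y.2 b := by
  simp [Qf, cmB_apply]

/-- the coordinates -/
def Pf (D : Data) (x a b : R4) : R4 →L[ℝ] C2 := (p1 D x a b).prod (p2 D x a b)

theorem Pf_apply (D : Data) (x a b v : R4) : Pf D x a b v = (p1 D x a b v, p2 D x a b v) := rfl

theorem Qf_Pf {D : Data} {x a b : R4} (h : Om D x a b ≠ 0) (v : R4) :
    Qf D x a b (Pf D x a b v) = v := by
  rw [Qf_apply, Pf_apply]
  exact (frame_decomp D x a b h v).symm

theorem Pf_Qf {D : Data} {x a b : R4} (h : Om D x a b ≠ 0) (y : C2) :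
    Pf D x a b (Qf D x a b y) = y := by
  rw [Qf_apply, Pf_apply, map_add, map_add, p1_a D x a b h, p1_b, p2_a, p2_b D x a b h]
  simp

/-- scaling of the measure -/
theorem haar_scale {D : Data} {x a b : R4} (h : Om D x a b ≠ 0) :
    ∃ c > 0, ∀ f : R4 → ℝ, ∫ y, f (-(Qf D x a b y)) = c * ∫ z, f z := by
  set L : C2 ≃L[ℝ] R4 := ContinuousLinearEquiv.equivOfInverse (-(Qf D x a b)) (-(Pf D x a b))
    (fun y => by
      change -(Pf D x a b (-(Qf D x a b y))) = y
      rw [map_neg, neg_neg, Pf_Qf h])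
    (fun v => by
      change -(Qf D x a b (-(Pf D x a b v))) = v
      rw [map_neg, neg_neg, Qf_Pf h]) with hL
  have hh := haarC2
  have h1 : (Measure.map L (volume : Measure C2)).IsAddHaarMeasure := L.isAddHaarMeasure_map _
  have h2 := Measure.isAddLeftInvariant_eq_smul (Measure.map L (volume : Measure C2))
    (volume : Measure R4)
  set c := Measure.addHaarScalarFactor (Measure.map L (volume : Measure C2)) (volume : Measure R4)
  have hc : 0 < c := Measure.addHaarScalarFactor_pos_of_isAddHaarMeasure _ _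
  refine ⟨c, by exact_mod_cast hc, fun f => ?_⟩
  have h3 : ∫ z, f z ∂(Measure.map L (volume : Measure C2)) = ∫ y, f (L y) :=
    MeasurableEmbedding.integral_map L.toHomeomorph.measurableEmbedding f
  have h4 : ∀ y, L y = -(Qf D x a b y) := fun y => rfl
  simp only [h4] at h3
  rw [← h3, h2, integral_smul_nnreal_measure]
  rfl

/-! ## orientation -/

theorem val_self (a : CForm) (x u : R4) : a.val x u u = 0 := by
  have := val_anti a x u u
  linarith

theorem val_expand (a : CForm) (x u v : R4) : a.val x u v =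
    (u 0 * v 1 - u 1 * v 0) * a.val x (e 0) (e 1) + (u 0 * v 2 - u 2 * v 0) * a.val x (e 0) (e 2)
    + (u 0 * v 3 - u 3 * v 0) * a.val x (e 0) (e 3) + (u 1 * v 2 - u 2 * v 1) * a.val x (e 1) (e 2)
    + (u 1 * v 3 - u 3 * v 1) * a.val x (e 1) (e 3)
    + (u 2 * v 3 - u 3 * v 2) * a.val x (e 2) (e 3) := by
  have hu : ∀ w : R4, w = w 0 • e 0 + w 1 • e 1 + w 2 • e 2 + w 3 • e 3 := by
    intro w
    funext i
    fin_cases i <;> simp [e]
  have e1 : ∀ w : R4, a.val x w v = w 0 * a.val x (e 0) v + w 1 * a.val x (e 1) v +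
      w 2 * a.val x (e 2) v + w 3 * a.val x (e 3) v := by
    intro w
    have : a.val x w v = a.val x (w 0 • e 0 + w 1 • e 1 + w 2 • e 2 + w 3 • e 3) v := by
      rw [← hu w]
    rw [this, val_anti, val_add, val_add, val_add, val_smul, val_smul, val_smul, val_smul,
      val_anti a x v (e 0), val_anti a x v (e 1), val_anti a x v (e 2), val_anti a x v (e 3)]
    ring
  have e2 : ∀ w' : R4, a.val x w' v = v 0 * a.val x w' (e 0) + v 1 * a.val x w' (e 1) +
      v 2 * a.val x w' (e 2) + v 3 * a.val x w' (e 3) := by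
    intro w'
    have : a.val x w' v = a.val x w' (v 0 • e 0 + v 1 • e 1 + v 2 • e 2 + v 3 • e 3) := by
      rw [← hu v]
    rw [this, val_add, val_add, val_add, val_smul, val_smul, val_smul, val_smul]
  rw [e1 u, e2 (e 0), e2 (e 1), e2 (e 2), e2 (e 3), val_self, val_self, val_self, val_self,
    val_anti a x (e 1) (e 0), val_anti a x (e 2) (e 0), val_anti a x (e 3) (e 0),
    val_anti a x (e 2) (e 1), val_anti a x (e 3) (e 1), val_anti a x (e 3) (e 2)]
  ring

/-- the Pfaffian identity -/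
theorem pfaff (a : CForm) (x v₁ v₂ v₃ v₄ : R4) :
    2 * (a.val x v₁ v₂ * a.val x v₃ v₄ - a.val x v₁ v₃ * a.val x v₂ v₄ +
      a.val x v₁ v₄ * a.val x v₂ v₃) =
    w4 (fun u v => a.val x u v) (fun u v => a.val x u v) * vol4 v₁ v₂ v₃ v₄ := by
  rw [val_expand a x v₁ v₂, val_expand a x v₃ v₄, val_expand a x v₁ v₃, val_expand a x v₂ v₄,
    val_expand a x v₁ v₄, val_expand a x v₂ v₃, vol4_eq, w4]
  ring

theorem vol_pos {D : Data} (hD : Good D) {x a b : R4} (h : Om D x a b ≠ 0) :
    0 < vol4 a (D.J x a) b (D.J x b) := by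
  have h1 := pfaff (D.η 0) x a (D.J x a) b (D.J x b)
  have hc01 : D.c x 0 1 ≠ 0 := by
    intro h0
    have := c_det D x
    rw [h0] at this
    nlinarith [mul_self_nonneg (D.c x 0 0)]
  have k1 : ∀ u v, (D.η 0).val x u (D.J x v) =
      D.c x 0 0 * (D.η 0).val x u v + D.c x 0 1 * (D.η 1).val x u v := by
    intro u v
    rw [D.η_J 0 x u v, Fin.sum_univ_two]
  have k2 : ∀ u, (D.η 0).val x u (D.J x u) = 0 := by
    intro u
    rw [k1, val_self, val_self]
    ring
  have k3 : (D.η 0).val x (D.J x a) b = (D.η 0).val x a (D.J x b) := by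
    rw [val_anti, k1, k1, val_anti _ x b a, val_anti _ x b a]
    ring
  have k4 : (D.η 0).val x (D.J x a) (D.J x b) = -(D.η 0).val x a b := by
    have e1 : (D.η 0).val x (D.J x a) (D.J x b) = (D.η 0).val x a (D.J x (D.J x b)) := by
      rw [k1 (D.J x a) b, k1 a (D.J x b), k3]
      have k5 : (D.η 1).val x (D.J x a) b = (D.η 1).val x a (D.J x b) := by
        rw [val_anti, D.η_J 1 x b a, D.η_J 1 x a b, Fin.sum_univ_two, Fin.sum_univ_two,
          val_anti _ x b a, val_anti _ x b a]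
        ring
      rw [k5]
    rw [e1, D.J_sq]
    have : (D.η 0).val x a (-b) = -(D.η 0).val x a b := by
      have := val_smul (D.η 0) x a b (-1)
      simpa using this
    exact this
  rw [k2 a, k2 b, k3, k4] at h1
  have h2 := hD.orient x
  set W := w4 (fun u v => (D.η 0).val x u v) (fun u v => (D.η 0).val x u v)
  have h3 : 0 < (D.η 0).val x a b ^ 2 + (D.η 0).val x a (D.J x b) ^ 2 := by
    by_contra hc
    have t1 : (D.η 0).val x a b = 0 := by
      nlinarith [sq_nonneg ((D.η 0).val x a b), sq_nonneg ((D.η 0).val x a (D.J x b))]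
    have t2 : (D.η 0).val x a (D.J x b) = 0 := by
      nlinarith [sq_nonneg ((D.η 0).val x a b), sq_nonneg ((D.η 0).val x a (D.J x b))]
    rw [k1, t1, mul_zero, zero_add] at t2
    have t3 := (mul_eq_zero.1 t2).resolve_left hc01
    apply h
    rw [Om, t1, t3]
    simp
  have h4 : 0 < W * vol4 a (D.J x a) b (D.J x b) := by nlinarith
  by_contra hc
  have : W * vol4 a (D.J x a) b (D.J x b) ≤ 0 :=
    mul_nonpos_of_nonneg_of_nonpos h2.le (not_lt.1 hc)
  linarith

theorem vQ_pos {D : Data} (hD : Good D) {x a b : R4} (h : Om D x a b ≠ 0) :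
    0 < vQ (Qf D x a b) := by
  have h1 := vol_pos hD h
  rw [vQ]
  simp only [Qf_apply, cm_zero, add_zero, zero_add, cm_one]
  simpa [cm] using h1

/-- the linear change of the target -/
theorem lin_part {Y Z : ℂ → R4} {Q : C2 →L[ℝ] R4} {F : C2 → C2} {R R' : ℝ}
    (hY : ContDiff ℝ 1 Y) (hZ : ContDiff ℝ 1 Z) (hF : ∀ p ∈ pd R R', DifferentiableAt ℝ F p)
    (h : ∀ p ∈ pd R R', Y p.1 - Z p.2 = -(Q (F p))) (f : R4 → ℝ) :
    ∫ p in pd R R', f (Y p.1 - Z p.2) * vol4 (fderiv ℝ Y p.1 1) (fderiv ℝ Y p.1 Complex.I)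
        (fderiv ℝ Z p.2 1) (fderiv ℝ Z p.2 Complex.I) =
      vQ Q * ∫ p in pd R R', f (-(Q (F p))) * (fderiv ℝ F p).det := by
  rw [← integral_const_mul]
  refine setIntegral_congr_fun (pd_open R R').measurableSet fun p hp => ?_
  rw [h p hp]
  have h1 : HasFDerivAt (fun p : C2 => Y p.1 - Z p.2)
      ((fderiv ℝ Y p.1).comp (ContinuousLinearMap.fst ℝ ℂ ℂ) -
        (fderiv ℝ Z p.2).comp (ContinuousLinearMap.snd ℝ ℂ ℂ)) p := by
    have e1 := HasFDerivAt.comp (f := fun p : C2 => p.1) p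
      ((hY.differentiable (by simp)) p.1).hasFDerivAt hasFDerivAt_fst
    have e2 := HasFDerivAt.comp (f := fun p : C2 => p.2) p
      ((hZ.differentiable (by simp)) p.2).hasFDerivAt hasFDerivAt_snd
    exact e1.sub e2
  have h2 : HasFDerivAt (fun p : C2 => -(Q (F p))) (-(Q.comp (fderiv ℝ F p))) p :=
    (Q.hasFDerivAt.comp p (hF p hp).hasFDerivAt).neg
  have h3 : (fun p : C2 => Y p.1 - Z p.2) =ᶠ[𝓝 p] fun p => -(Q (F p)) := by
    filter_upwards [(pd_open R R').mem_nhds hp] with p' hp' using h p' hp'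
  have h4 := (h1.congr_of_eventuallyEq h3.symm).unique h2
  have h5 := vQ_comp Q (fderiv ℝ F p)
  rw [← vQ_neg, ← h4, vQ] at h5
  simp only [_root_.sub_apply, ContinuousLinearMap.comp_apply, ContinuousLinearMap.coe_fst',
    ContinuousLinearMap.coe_snd', map_zero, sub_zero, zero_sub] at h5
  rw [vol4_neg2] at h5
  rw [h5]
  ring

end Vale.Agent.P247.H58.LW
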