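import Vale.Agent.P247.H58.LW.Cut

/-!
# The radial kernel
-/

open MeasureTheory Set Metric Filter Topology
open scoped ContDiff

noncomputable section

namespace Vale.Agent.P247.H58.LW

/-- the cut-off in the variable `|y|²` -/
def psi (ε t : ℝ) : ℝ := Real.smoothTransition (2 * t / ε ^ 2 - 1)

def qf (ε t : ℝ) : ℝ := psi ε t / t

/-- the kernel -/
def kf (ε : ℝ) (y : ℂ) : ℝ := deriv (psi ε) (‖y‖ ^ 2)

theorem psi_smooth (ε : ℝ) : ContDiff ℝ ∞ (psi ε) := by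
  unfold psi
  exact Real.smoothTransition.contDiff.comp (by fun_prop)

theorem psi_mono {ε : ℝ} (hε : 0 < ε) : Monotone (psi ε) := by
  intro s t h
  refine Real.smoothTransition.monotone ?_
  gcongr

theorem psi_zero {ε t : ℝ} (hε : 0 < ε) (h : t ≤ ε ^ 2 / 2) : psi ε t = 0 := by
  refine Real.smoothTransition.zero_of_nonpos ?_
  rw [sub_nonpos, div_le_one (by positivity)]
  linarith

theorem psi_one {ε t : ℝ} (hε : 0 < ε) (h : ε ^ 2 ≤ t) : psi ε t = 1 := by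
  refine Real.smoothTransition.one_of_one_le ?_
  rw [le_sub_iff_add_le, le_div_iff₀ (by positivity)]
  linarith

theorem qf_smooth {ε : ℝ} (hε : 0 < ε) : ContDiff ℝ ∞ (qf ε) := by
  rw [contDiff_iff_contDiffAt]
  intro t
  rcases le_or_gt t 0 with h | h
  · have h1 : ∀ᶠ s in 𝓝 t, s < ε ^ 2 / 2 := gt_mem_nhds (lt_of_le_of_lt h (by positivity))
    have h2 : qf ε =ᶠ[𝓝 t] fun _ => 0 := by
      filter_upwards [h1] with s hs
      rw [qf, psi_zero hε hs.le, zero_div]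
    exact contDiffAt_const.congr_of_eventuallyEq h2
  · exact (psi_smooth ε).contDiffAt.div contDiffAt_id h.ne'

theorem mul_qf {ε : ℝ} (hε : 0 < ε) (t : ℝ) : t * qf ε t = psi ε t := by
  rcases eq_or_ne t 0 with rfl | h
  · rw [zero_mul, psi_zero hε (by positivity)]
  · rw [qf, mul_div_cancel₀ _ h]

theorem qf_eq {ε t : ℝ} (hε : 0 < ε) (h : ε ^ 2 ≤ t) : qf ε t = t⁻¹ := by
  rw [qf, psi_one hε h, one_div]

theorem deriv_psi {ε : ℝ} (hε : 0 < ε) (t : ℝ) :
    deriv (psi ε) t = qf ε t + t * deriv (qf ε) t := by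
  have h1 : HasDerivAt (fun s => s * qf ε s) (1 * qf ε t + t * deriv (qf ε) t) t :=
    (hasDerivAt_id t).mul (((qf_smooth hε).differentiable (by simp)) t).hasDerivAt
  have h2 : (fun s => s * qf ε s) = psi ε := funext (mul_qf hε)
  rw [h2] at h1
  rw [h1.deriv, one_mul]

theorem deriv_psi_smooth (ε : ℝ) : ContDiff ℝ ∞ (deriv (psi ε)) := by
  have := (psi_smooth ε)
  exact (contDiff_infty_iff_deriv.1 this).2

theorem normsq_smooth : ContDiff ℝ ∞ (fun y : ℂ => ‖y‖ ^ 2) := contDiff_norm_sq ℝ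

theorem kf_smooth (ε : ℝ) : ContDiff ℝ ∞ (kf ε) := (deriv_psi_smooth ε).comp normsq_smooth

theorem kf_nonneg {ε : ℝ} (hε : 0 < ε) (y : ℂ) : 0 ≤ kf ε y := (psi_mono hε).deriv_nonneg

theorem kf_zero {ε : ℝ} (hε : 0 < ε) {y : ℂ} (h : ε ≤ ‖y‖) : kf ε y = 0 := by
  rcases h.eq_or_lt with h | h
  · -- by continuity
    have h1 : ∀ t ∈ Ioi (ε ^ 2), deriv (psi ε) t = 0 := by
      intro t ht
      have : psi ε =ᶠ[𝓝 t] fun _ => 1 := by
        filter_upwards [Ioi_mem_nhds ht] with s hs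
        exact psi_one hε (le_of_lt hs)
      rw [this.deriv_eq, deriv_const]
    have h2 : ContinuousWithinAt (deriv (psi ε)) (Ioi (ε ^ 2)) (ε ^ 2) :=
      (deriv_psi_smooth ε).continuous.continuousWithinAt
    have h3 : Tendsto (deriv (psi ε)) (𝓝[>] (ε ^ 2)) (𝓝 0) := by
      refine tendsto_const_nhds.congr' ?_
      filter_upwards [self_mem_nhdsWithin] with t ht using (h1 t ht).symm
    rw [kf, ← h]
    exact tendsto_nhds_unique h2 h3
  · have h0 : ε ^ 2 < ‖y‖ ^ 2 := by gcongr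
    have : psi ε =ᶠ[𝓝 (‖y‖ ^ 2)] fun _ => 1 := by
      filter_upwards [Ioi_mem_nhds h0] with s hs
      exact psi_one hε (le_of_lt hs)
    rw [kf, this.deriv_eq, deriv_const]

theorem kf_lt {ε : ℝ} (hε : 0 < ε) {y : ℂ} (h : kf ε y ≠ 0) : ‖y‖ < ε := by
  by_contra hc
  exact h (kf_zero hε (not_lt.1 hc))

theorem kf_compact {ε : ℝ} (hε : 0 < ε) : HasCompactSupport (kf ε) := by
  refine HasCompactSupport.intro (isCompact_closedBall (0 : ℂ) ε) fun y hy => kf_zero hε ?_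
  rw [mem_closedBall_zero_iff, not_le] at hy
  exact hy.le

theorem kf_integral {ε : ℝ} (hε : 0 < ε) : ∫ y, kf ε y = Real.pi := by
  have h1 := integral_fun_norm_addHaar (volume : Measure ℂ) (fun t => deriv (psi ε) (t ^ 2))
  have h2 : ∫ y in Ioi (0 : ℝ), y * deriv (psi ε) (y ^ 2) = 1 / 2 := by
    have e1 : ∀ x ∈ Ici (0 : ℝ), HasDerivAt (fun y => (1 / 2 : ℝ) * psi ε (y ^ 2))
        (x * deriv (psi ε) (x ^ 2)) x := by
      intro x _
      have e2 := (((psi_smooth ε).differentiable (by simp)) (x ^ 2)).hasDerivAt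
      have e3 : HasDerivAt (fun y : ℝ => y ^ 2) (2 * x) x := by
        simpa using hasDerivAt_pow 2 x
      have e4 := (HasDerivAt.comp (h := fun y : ℝ => y ^ 2) x e2 e3).const_mul (1 / 2 : ℝ)
      refine e4.congr_deriv ?_
      ring
    have e5 : Tendsto (fun y => (1 / 2 : ℝ) * psi ε (y ^ 2)) atTop (𝓝 (1 / 2)) := by
      refine tendsto_const_nhds.congr' ?_
      filter_upwards [eventually_ge_atTop ε] with y hy
      rw [psi_one hε (by gcongr), mul_one]
    rw [integral_Ioi_of_hasDerivAt_of_nonneg' e1 (fun x hx => ?_) e5]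
    · rw [psi_zero hε (by rw [zero_pow two_ne_zero]; positivity)]
      simp
    · exact mul_nonneg (le_of_lt hx) (psi_mono hε).deriv_nonneg
  have h3 : (volume : Measure ℂ).real (ball 0 1) = Real.pi := by
    rw [Measure.real, Complex.volume_ball]
    simp
  rw [h3, Complex.finrank_real_complex] at h1
  simp only [Nat.add_one_sub_one, pow_one, smul_eq_mul] at h1
  rw [h2] at h1
  rw [show (∫ y, kf ε y) = ∫ x : ℂ, deriv (psi ε) (‖x‖ ^ 2) from rfl, h1]
  simp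
  ring

/-! ## the primitives -/

section
variable {E : Type*} [NormedAddCommGroup E] [NormedSpace ℝ E]

def P1 (ε : ℝ) (h : E → ℂ) (x : E) : ℝ := qf ε (‖h x‖ ^ 2) * (h x).re
def P2 (ε : ℝ) (h : E → ℂ) (x : E) : ℝ := qf ε (‖h x‖ ^ 2) * (h x).im

theorem P1_c1 {ε : ℝ} (hε : 0 < ε) {h : E → ℂ} (hh : ContDiff ℝ 1 h) : ContDiff ℝ 1 (P1 ε h) :=
  ((((qf_smooth hε).of_le (by simp)).comp ((normsq_smooth.of_le (by simp)).comp hh))).mul
    (Complex.reCLM.contDiff.comp hh)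

theorem P2_c1 {ε : ℝ} (hε : 0 < ε) {h : E → ℂ} (hh : ContDiff ℝ 1 h) : ContDiff ℝ 1 (P2 ε h) :=
  ((((qf_smooth hε).of_le (by simp)).comp ((normsq_smooth.of_le (by simp)).comp hh))).mul
    (Complex.imCLM.contDiff.comp hh)

theorem norm_sq_deriv {h : E → ℂ} {x : E} (hd : DifferentiableAt ℝ h x) :
    HasFDerivAt (fun x => ‖h x‖ ^ 2)
      ((2 : ℝ) • ((h x).re • re' (fderiv ℝ h x) + (h x).im • im' (fderiv ℝ h x))) x := by
  have e1 : (fun x => ‖h x‖ ^ 2) = fun x => (h x).re * (h x).re + (h x).im * (h x).im := by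
    funext x
    rw [← Complex.normSq_eq_norm_sq, Complex.normSq_apply]
  rw [e1]
  have e2 : HasFDerivAt (fun x => (h x).re) (re' (fderiv ℝ h x)) x :=
    Complex.reCLM.hasFDerivAt.comp x hd.hasFDerivAt
  have e3 : HasFDerivAt (fun x => (h x).im) (im' (fderiv ℝ h x)) x :=
    Complex.imCLM.hasFDerivAt.comp x hd.hasFDerivAt
  refine ((e2.mul e2).add (e3.mul e3)).congr_fderiv ?_
  ext v
  simp
  ring

theorem P1_fderiv {ε : ℝ} (hε : 0 < ε) {h : E → ℂ} {x : E} (hd : DifferentiableAt ℝ h x) :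
    fderiv ℝ (P1 ε h) x = (2 * deriv (qf ε) (‖h x‖ ^ 2) * (h x).re) •
      ((h x).re • re' (fderiv ℝ h x) + (h x).im • im' (fderiv ℝ h x)) +
      qf ε (‖h x‖ ^ 2) • re' (fderiv ℝ h x) := by
  have e1 := (((qf_smooth hε).differentiable (by simp)) (‖h x‖ ^ 2)).hasDerivAt
  have e2 := e1.comp_hasFDerivAt x (norm_sq_deriv hd)
  have e3 : HasFDerivAt (fun x => (h x).re) (re' (fderiv ℝ h x)) x :=
    Complex.reCLM.hasFDerivAt.comp x hd.hasFDerivAt
  refine (e2.mul e3).fderiv.trans ?_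
  ext v
  simp
  ring

theorem P2_fderiv {ε : ℝ} (hε : 0 < ε) {h : E → ℂ} {x : E} (hd : DifferentiableAt ℝ h x) :
    fderiv ℝ (P2 ε h) x = (2 * deriv (qf ε) (‖h x‖ ^ 2) * (h x).im) •
      ((h x).re • re' (fderiv ℝ h x) + (h x).im • im' (fderiv ℝ h x)) +
      qf ε (‖h x‖ ^ 2) • im' (fderiv ℝ h x) := by
  have e1 := (((qf_smooth hε).differentiable (by simp)) (‖h x‖ ^ 2)).hasDerivAt
  have e2 := e1.comp_hasFDerivAt x (norm_sq_deriv hd)
  have e3 : HasFDerivAt (fun x => (h x).im) (im' (fderiv ℝ h x)) x :=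
    Complex.imCLM.hasFDerivAt.comp x hd.hasFDerivAt
  refine (e2.mul e3).fderiv.trans ?_
  ext v
  simp
  ring

/-- the differential of the argument -/
def lam (h : E → ℂ) (x : E) : E →L[ℝ] ℝ := im' ((h x)⁻¹ • fderiv ℝ h x)

theorem lam_eq {h : E → ℂ} {x : E} :
    lam h x = (‖h x‖ ^ 2)⁻¹ • ((h x).re • im' (fderiv ℝ h x) - (h x).im • re' (fderiv ℝ h x)) := by
  ext v
  simp only [lam, im'_apply, _root_.smul_apply, smul_eq_mul, _root_.sub_apply, re'_apply,
    Complex.mul_im, Complex.inv_re, Complex.inv_im]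
  rw [← Complex.normSq_eq_norm_sq]
  ring

end

/-- the kernel as a divergence -/
theorem kf_br {ε : ℝ} (hε : 0 < ε) {h : C2 → ℂ} {x : C2} (hd : DifferentiableAt ℝ h x)
    (r s : Co) :
    kf ε (h x) * br (re' (fderiv ℝ h x)) (im' (fderiv ℝ h x)) r s =
      (1 / 2) * (br (fderiv ℝ (P1 ε h) x) (im' (fderiv ℝ h x)) r s -
        br (fderiv ℝ (P2 ε h) x) (re' (fderiv ℝ h x)) r s) := by
  rw [P1_fderiv hε hd, P2_fderiv hε hd, kf, deriv_psi hε]
  have e1 : ‖h x‖ ^ 2 = (h x).re * (h x).re + (h x).im * (h x).im := by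
    rw [← Complex.normSq_eq_norm_sq, Complex.normSq_apply]
  simp only [br_add1, br_smul1, br_self12, br_swap12 (re' (fderiv ℝ h x)) (im' (fderiv ℝ h x))]
  nth_rewrite 2 [e1]
  ring

theorem kf_br2 {ε : ℝ} (hε : 0 < ε) {h : ℂ → ℂ} {x : ℂ} (hd : DifferentiableAt ℝ h x) :
    kf ε (h x) * br2 (re' (fderiv ℝ h x)) (im' (fderiv ℝ h x)) =
      (1 / 2) * (br2 (fderiv ℝ (P1 ε h) x) (im' (fderiv ℝ h x)) -
        br2 (fderiv ℝ (P2 ε h) x) (re' (fderiv ℝ h x))) := by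
  rw [P1_fderiv hε hd, P2_fderiv hε hd, kf, deriv_psi hε]
  have e1 : ‖h x‖ ^ 2 = (h x).re * (h x).re + (h x).im * (h x).im := by
    rw [← Complex.normSq_eq_norm_sq, Complex.normSq_apply]
  simp only [br2_add1, br2_smul1, br2_self, br2_swap (re' (fderiv ℝ h x)) (im' (fderiv ℝ h x))]
  nth_rewrite 2 [e1]
  ring

end Vale.Agent.P247.H58.LW
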