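import Vale.Agent.P247.H58.LW.Tr

/-!
# The local contribution
-/

open scoped ContDiff Topology
open Set MeasureTheory Filter Metric Asymptotics

noncomputable section

namespace Vale.Agent.P247.H58.LW

open Vale.Agent.P247.H74 Vale.Agent.P247.H74.CE Vale.Agent.P247.H574
open Vale.Agent.P247.H74.CE.Lead (uh zt zt_zero)

/-- a root -/
theorem exists_root {k : ℕ} (hk : 1 ≤ k) (w : ℂ) : ∃ κ : ℂ, κ ^ k = w :=
  ⟨w ^ ((k : ℂ)⁻¹), Complex.cpow_nat_inv_pow w (by omega)⟩

/-- small enough is good enough -/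
theorem small_supp {P : (R4 → ℝ) → Prop}
    (h : ∃ ε₀ > 0, ∀ f : R4 → ℝ, Continuous f → tsupport f ⊆ ball 0 ε₀ → P f) :
    ∀ᶠ ε₀ in 𝓝[>] (0 : ℝ), ∀ f : R4 → ℝ, Continuous f → tsupport f ⊆ ball 0 ε₀ → P f := by
  obtain ⟨ε, hε, h⟩ := h
  have h1 : ∀ᶠ ε₀ in 𝓝[>] (0 : ℝ), ε₀ < ε := nhdsWithin_le_nhds (gt_mem_nhds hε)
  filter_upwards [h1] with ε₀ h1 f hf hs
  exact h f hf (hs.trans (ball_subset_ball h1.le))

/-- `LW` -/
theorem lw : LW_statement := by
  classical
  intro D hD K x N u ε hB b hT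
  obtain ⟨u', hs, he⟩ := exists_glob hB
  have hx : ∀ l, u' l 0 = x := fun l => glob_zero hB l (he l)
  have hex : ∀ l, ∃ (k : ℕ) (a b : R4), LeadL D (u' l) k a b := fun l =>
    exists_lead (glob_J hB l (hs l) (he l)) (glob_inj hB l (he l))
  choose k a b0 hL0 using hex
  have hL : ∀ l, LeadL D (u' l) (k l) (a l) b := by
    intro l
    refine (hL0 l).change ?_
    rw [← (hL0 l).trans_iff, hx l, glob_trans (he l)]
    exact hT l
  have hxi : ∀ l, ∃ (ξ : ℂ → ℂ) (δ : ℝ), Inv D (u' l) (k l) (a l) b ξ δ := by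
    intro l
    obtain ⟨ξ, δ, h1, h2, h3, h4, h5⟩ := (hL l).exists_inv
    exact ⟨ξ, δ, h1, h2, h3, h4, h5⟩
  choose ξ δ₀ hi using hxi
  -- the diagonal contributions
  have hdiag := fun l => diag hD (hL l) (hi l) (glob_far hB l (he l)) (glob_inj hB l (he l))
  choose c S hc hS hdiag using hdiag
  -- the other contributions
  have hcross : ∀ l j, ∃ M : ℝ, l ≠ j → (0 < M ∧ ∀ᶠ ρ in 𝓝[>] (0 : ℝ), ∀ v : R4 → ℂ,
      ContDiff ℝ ∞ v → ∀ᶠ δ in 𝓝[>] (0 : ℝ),
        Ctr (u' l) (u' j) (fun y => cm D x (v y) b) δ ρ M) := by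
    intro l j
    by_cases hlj : l = j
    · exact ⟨0, fun h => absurd hlj h⟩
    · obtain ⟨κ, hκ⟩ := exists_root (hL j).hk (Om D (u' j 0) (a l) b / Om D (u' j 0) (a j) b)
      have hp : PairD D (u' l) (u' j) (k l) (k j) (a l) (a j) b (ξ j) (δ₀ j) κ :=
        ⟨hL l, hL j, by rw [hx, hx], hi j, hκ⟩
      obtain ⟨M, h1, h2⟩ := hp.cross hD (glob_far hB j (he j)) (glob_dis hB hlj (he l) (he j))
      rw [hx j] at h2
      exact ⟨M, fun _ => ⟨h1, h2⟩⟩
  choose M₀ hcross using hcross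
  have hρ1 : ∀ᶠ ρ in 𝓝[>] (0 : ℝ), ρ ≤ 1 := nhdsWithin_le_nhds (ge_mem_nhds one_pos)
  have hρ2 : ∀ᶠ ρ in 𝓝[>] (0 : ℝ), ∀ l, ∀ v : R4 → ℂ, ContDiff ℝ ∞ v → ∀ q : ℤ,
      HasWinding (fun t => v (u' l t)) 0 ρ q → ∀ᶠ δ in 𝓝[>] (0 : ℝ),
        Ctr (u' l) (u' l) (fun y => cm D x (v y) b) δ ρ (c l * (q + S l)) := by
    rw [eventually_all]
    intro l
    have := hdiag l
    rwa [hx l] at this
  have hρ3 : ∀ᶠ ρ in 𝓝[>] (0 : ℝ), ∀ l j, l ≠ j → ∀ v : R4 → ℂ, ContDiff ℝ ∞ v →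
      ∀ᶠ δ in 𝓝[>] (0 : ℝ), Ctr (u' l) (u' j) (fun y => cm D x (v y) b) δ ρ (M₀ l j) := by
    rw [eventually_all]
    intro l
    rw [eventually_all]
    intro j
    by_cases hlj : l = j
    · exact Eventually.of_forall fun _ h => absurd hlj h
    · filter_upwards [(hcross l j hlj).2] with ρ h _
      exact h
  have hρ4 : ∀ᶠ ρ in 𝓝[>] (0 : ℝ), ∀ l, ∀ v : R4 → ℂ, Continuous v → ∀ o : ℤ,
      HasWinding (fun t => Om D (u' l t) (fderiv ℝ (u' l) t 1) (cm D x (v (u' l t)) b)) 0 ρ o →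
        HasWinding (fun t => v (u' l t)) 0 ρ (o - (k l - 1)) := by
    rw [eventually_all]
    intro l
    have := wind_o (hL l)
    rwa [hx l] at this
  filter_upwards [hρ1, hρ2, hρ3, hρ4] with ρ hρ1 hρ2 hρ3 hρ4 μ hμ v hv o ho hw
  have hq : ∀ l, HasWinding (fun t => v (u' l t)) 0 ρ (o l - (k l - 1)) := by
    intro l
    refine hρ4 l v hv.continuous (o l) (wind_congr (hw l) fun z hz => ?_)
    have hz' : z ∈ closedBall (0 : ℂ) 1 :=
      (sphere_subset_closedBall.trans (closedBall_subset_closedBall hρ1)) hz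
    rw [glob_eq (he l) hz', glob_fderiv (he l) hz']
  set M : Fin N → Fin N → ℝ := fun l j =>
    if l = j then c l * (((o l - (k l - 1) : ℤ) : ℝ) + S l) else M₀ l j with hM
  have hall : ∀ᶠ δ in 𝓝[>] (0 : ℝ), ∀ l j,
      Ctr (u' l) (u' j) (fun y => cm D x (v y) b) δ ρ (M l j) := by
    rw [eventually_all]
    intro l
    rw [eventually_all]
    intro j
    by_cases hlj : l = j
    · subst hlj
      filter_upwards [hρ2 l v hv _ (hq l)] with δ h
      simpa only [hM, if_true] using h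
    · filter_upwards [hρ3 l j hlj v hv] with δ h
      simpa only [hM, if_neg hlj] using h
  have hdd : ∀ l, ((o l : ℝ) + k l * (k l - 1)) ≤ ((o l - (k l - 1) : ℤ) : ℝ) + S l := by
    intro l
    have := hS l
    push_cast
    nlinarith
  have hkr : ∀ l, (1 : ℝ) ≤ k l := fun l => by exact_mod_cast (hL l).hk
  have hor : ∀ l, (0 : ℝ) ≤ o l := fun l => by exact_mod_cast ho l
  have hμr : ∀ l, (1 : ℝ) ≤ μ l := fun l => by exact_mod_cast hμ l
  have hM0 : ∀ l j, 0 ≤ M l j := by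
    intro l j
    by_cases hlj : l = j
    · subst hlj
      simp only [hM, if_true]
      refine mul_nonneg (hc l).le (le_trans ?_ (hdd l))
      have h1 := hkr l
      have h2 := hor l
      nlinarith
    · simp only [hM, if_neg hlj]
      exact ((hcross l j hlj).1).le
  have hterm : ∀ l j, 0 ≤ (μ l : ℝ) * (μ j : ℝ) * M l j := fun l j =>
    mul_nonneg (by positivity) (hM0 l j)
  refine ⟨∑ l, ∑ j, (μ l : ℝ) * (μ j : ℝ) * M l j,
    Finset.sum_nonneg fun l _ => Finset.sum_nonneg fun j _ => hterm l j, ?_, ?_⟩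
  · intro h0
    have h1 : ∀ l j, (μ l : ℝ) * (μ j : ℝ) * M l j = 0 := by
      intro l j
      have h2 := (Finset.sum_eq_zero_iff_of_nonneg
        (fun l _ => Finset.sum_nonneg fun j _ => hterm l j)).1 h0 l (Finset.mem_univ l)
      exact (Finset.sum_eq_zero_iff_of_nonneg (fun j _ => hterm l j)).1 h2 j (Finset.mem_univ j)
    have h2 : ∀ l j, M l j = 0 := by
      intro l j
      have h3 := h1 l j
      have h4 := hμr l
      have h5 := hμr j
      rcases mul_eq_zero.1 h3 with h6 | h6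
      · rcases mul_eq_zero.1 h6 with h7 | h7 <;> linarith
      · exact h6
    have h3 : ∀ l j : Fin N, l = j := by
      intro l j
      by_contra hlj
      have h4 := (hcross l j hlj).1
      have h5 := h2 l j
      simp only [hM, if_neg hlj] at h5
      linarith
    have h4 : ∀ l, ((o l : ℝ) + k l * (k l - 1)) ≤ 0 := by
      intro l
      have h5 := h2 l l
      simp only [hM, if_true] at h5
      rcases mul_eq_zero.1 h5 with h6 | h6
      · exact absurd h6 (hc l).ne'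
      · rw [← h6]
        exact hdd l
    refine ⟨?_, ?_, ?_⟩
    · have h5 := hB.posN
      by_contra h6
      have h7 : 1 < N := by omega
      have h8 := h3 ⟨0, h5⟩ ⟨1, h7⟩
      simp at h8
    · intro l hfd
      have h5 : 2 ≤ k l := by
        refine (hL l).two_le ?_
        rw [glob_fderiv (he l) (by simp)]
        exact hfd
      have h6 : (2 : ℝ) ≤ k l := by exact_mod_cast h5
      have h7 := h4 l
      have h8 := hor l
      nlinarith
    · intro l
      have h5 := h4 l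
      have h6 := hkr l
      have h7 : (o l : ℝ) ≤ 0 := by nlinarith
      have h8 : o l ≤ 0 := by exact_mod_cast h7
      exact le_antisymm h8 (ho l)
  · filter_upwards [hall] with δ hδ
    have h1 : ∀ᶠ ε₀ in 𝓝[>] (0 : ℝ), ∀ l j, ∀ f : R4 → ℝ, Continuous f →
        tsupport f ⊆ ball 0 ε₀ →
        Iuv (u' l) (u' j) (fun y => cm D x (v y) b) δ ρ f = M l j * ∫ y, f y := by
      rw [eventually_all]
      intro l
      rw [eventually_all]
      intro j
      exact small_supp (hδ l j)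
    obtain ⟨ε₀, h2, h3⟩ := (h1.and self_mem_nhdsWithin).exists
    refine ⟨ε₀, h3, fun f hf hfs => ?_⟩
    rw [Finset.sum_mul]
    refine Finset.sum_congr rfl fun l _ => ?_
    rw [Finset.sum_mul]
    refine Finset.sum_congr rfl fun j _ => ?_
    rw [← glob_Iuv (he l) (he j) _ hρ1 f, h2 l j f hf hfs]
    ring

end Vale.Agent.P247.H58.LW
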