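import Vale.Agent.P247.H58.LW.Frm
import Vale.Agent.P247.H74.CE.Lc

/-!
# The local contribution of a pair of branches, in terms of winding numbers
-/

open scoped ContDiff Topology
open Set MeasureTheory Filter Metric Asymptotics Polynomial

noncomputable section

namespace Vale.Agent.P247.H58.LW

open Vale.Agent.P247.H74 Vale.Agent.P247.H74.CE Vale.Agent.P247.H574
open Vale.Agent.P247.H74.CE.Lead (uh zt zt_zero)

/-- a pair of branches -/
structure PairD (D : Data) (ul uj : ℂ → R4) (kl kj : ℕ) (al aj b : R4) (ξ : ℂ → ℂ) (δ₀ : ℝ)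
    (κ : ℂ) : Prop where
  hl : LeadL D ul kl al b
  hj : LeadL D uj kj aj b
  h0 : ul 0 = uj 0
  hi : Inv D uj kj aj b ξ δ₀
  hκ : κ ^ kj = Om D (uj 0) al b / Om D (uj 0) aj b

/-- the root of the first coordinate -/
def Phi (D : Data) (ul : ℂ → R4) (kl kj : ℕ) (al b : R4) (κ : ℂ) (τ : ℂ) : ℂ :=
  κ * (zt D (fun z => ul (z ^ kj)) (kl * kj) al b τ) ^ kl

/-- the transversal difference -/
def nn (D : Data) (ul uj : ℂ → R4) (kl kj : ℕ) (al aj b : R4) (ξ : ℂ → ℂ) (κ w τ : ℂ) : ℂ :=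
  p2 D (uj 0) aj b (ul (τ ^ kj) - uj (ξ (w * Phi D ul kl kj al b κ τ)))

/-- the winding data at radius `R` and push off `δ` -/
def WD (D : Data) (ul uj : ℂ → R4) (kl kj : ℕ) (al aj b : R4) (ξ : ℂ → ℂ) (κ : ℂ)
    (v : R4 → ℂ) (R δ : ℝ) (m : ℂ → ℤ) : Prop :=
  ∀ w ∈ nthRootsFinset kj (1 : ℂ),
    HasWinding (fun τ => nn D ul uj kl kj al aj b ξ κ w τ + δ * v (ul (τ ^ kj))) 0 R (m w)

theorem ev_pow_small {K : ℕ} (hK : 1 ≤ K) :
    Tendsto (fun R : ℝ => R ^ K) (𝓝[>] 0) (𝓝[>] 0) := by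
  refine tendsto_nhdsWithin_iff.2 ⟨?_, ?_⟩
  · have h1 : Continuous (fun R : ℝ => R ^ K) := by fun_prop
    have := (h1.tendsto 0).mono_left (nhdsWithin_le_nhds (s := Ioi (0 : ℝ)))
    rwa [zero_pow (by omega)] at this
  · filter_upwards [self_mem_nhdsWithin] with R hR
    exact pow_pos (mem_Ioi.1 hR) K

/-- the local inverse preserves the orientation -/
theorem xi_det {D : Data} {u : ℂ → R4} {k : ℕ} {a b : R4} {ξ : ℂ → ℂ} {δ₀ : ℝ}
    (h : LeadL D u k a b) (hi : Inv D u k a b ξ δ₀) :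
    ∀ᶠ r in 𝓝 (0 : ℂ), 0 < (fderiv ℝ ξ r).det := by
  have h1 : ContDiffAt ℝ 1 ξ 0 := hi.ξc1
  have h2 : HasFDerivAt ξ (fderiv ℝ ξ 0) 0 := (h1.differentiableAt (by simp)).hasFDerivAt
  have h3 := h.zt_c1.2
  have h3' : HasFDerivAt (zt D u k a b) (ContinuousLinearMap.id ℝ ℂ) (ξ 0) := by
    rw [hi.zero]
    exact h3
  have h4 : HasFDerivAt (fun c => zt D u k a b (ξ c))
      ((ContinuousLinearMap.id ℝ ℂ).comp (fderiv ℝ ξ 0)) 0 := h3'.comp 0 h2
  have h5 : (fun c => zt D u k a b (ξ c)) =ᶠ[𝓝 0] fun c => c := by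
    filter_upwards [ball_mem_nhds (0 : ℂ) hi.pos] with c hc using hi.right c hc
  have h6 := (h4.congr_of_eventuallyEq h5.symm).unique (hasFDerivAt_id (𝕜 := ℝ) (0 : ℂ))
  rw [ContinuousLinearMap.id_comp] at h6
  have h7 : ContinuousAt (fun r => (fderiv ℝ ξ r).det) 0 :=
    ContinuousLinearMap.continuous_det.continuousAt.comp
      (h1.fderiv_right (m := 0) (by simp)).continuousAt
  refine h7.eventually (lt_mem_nhds ?_)
  beta_reduce
  rw [h6]
  have : (ContinuousLinearMap.id ℝ ℂ).det = 1 := LinearMap.det_id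
  rw [this]
  exact one_pos

namespace PairD

variable {D : Data} {ul uj : ℂ → R4} {kl kj : ℕ} {al aj b : R4} {ξ : ℂ → ℂ} {δ₀ : ℝ} {κ : ℂ}

theorem Phi_pow (h : PairD D ul uj kl kj al aj b ξ δ₀ κ) (τ : ℂ) :
    Phi D ul kl kj al b κ τ ^ kj = p1 D (uj 0) aj b (ul (τ ^ kj) - uj 0) := by
  have h1 := (h.hl.pow h.hj.hk).zt_pow τ
  have hk0 : kj ≠ 0 := h.hj.k0
  have e0 : ul (0 ^ kj) = uj 0 := by rw [zero_pow hk0, h.h0]
  have e1 : zt D (fun z => ul (z ^ kj)) (kl * kj) al b τ ^ (kl * kj) =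
      p1 D (uj 0) al b (ul (τ ^ kj) - uj 0) := by
    rw [h1, e0]
  have hal : Om D (uj 0) al b ≠ 0 := by rw [← h.h0]; exact h.hl.hab
  rw [Phi, mul_pow, ← pow_mul, e1, h.hκ, p1_apply, p1_apply]
  field_simp

theorem Phi_zero (h : PairD D ul uj kl kj al aj b ξ δ₀ κ) : Phi D ul kl kj al b κ 0 = 0 := by
  rw [Phi, zt_zero, zero_pow h.hl.k0, mul_zero]

theorem Phi_c1 (h : PairD D ul uj kl kj al aj b ξ δ₀ κ) :
    ContDiffAt ℝ 1 (Phi D ul kl kj al b κ) 0 :=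
  contDiffAt_const.mul ((h.hl.pow h.hj.hk).zt_c1.1.pow kl)

theorem Zc1 (h : PairD D ul uj kl kj al aj b ξ δ₀ κ) :
    ContDiffOn ℝ 1 (fun r => uj (ξ r)) (ball 0 δ₀) :=
  (h.hj.hu.1.of_le (by simp)).comp_contDiffOn h.hi.c1

/-- the contribution of a pair, in terms of winding numbers -/
theorem contrib (h : PairD D ul uj kl kj al aj b ξ δ₀ κ) (hD : Good D)
    (hfar : ∀ s ∈ closedBall (0 : ℂ) 1, uj s = uj 0 → s = 0) :
    ∃ c > 0, ∀ᶠ R in 𝓝[>] (0 : ℝ), ∀ v : R4 → ℂ, ContDiff ℝ ∞ v → ∀ m : ℂ → ℤ,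
      (∀ᶠ δ in 𝓝[>] (0 : ℝ), WD D ul uj kl kj al aj b ξ κ v R δ m) →
      ∀ᶠ δ in 𝓝[>] (0 : ℝ), ∃ ε₀ > 0, ∀ f : R4 → ℝ, Continuous f → tsupport f ⊆ ball 0 ε₀ →
        kj * Iuv ul uj (fun y => cm D (uj 0) (v y) b) δ (R ^ kj) f =
          ((∑ w ∈ nthRootsFinset kj (1 : ℂ), m w : ℤ) : ℝ) * c * ∫ y, f y := by
  set x := uj 0 with hx
  have hkj : 1 ≤ kj := h.hj.hk
  have hkj0 : kj ≠ 0 := h.hj.k0
  have haj : Om D x aj b ≠ 0 := h.hj.hab
  obtain ⟨c', hc', hcs⟩ := haar_scale haj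
  have hvQ := vQ_pos hD haj
  refine ⟨vQ (Qf D x aj b) * c', by positivity, ?_⟩
  -- choose `R'`
  have a1 : ∀ᶠ R' in 𝓝[>] (0 : ℝ), ∀ r ∈ closedBall (0 : ℂ) R', 0 < (fderiv ℝ ξ r).det :=
    ev_closedBall (xi_det h.hj h.hi)
  have a2 : ∀ᶠ R' in 𝓝[>] (0 : ℝ), ∀ r ∈ closedBall (0 : ℂ) R', ξ r ∈ ball (0 : ℂ) 1 := by
    refine ev_closedBall ?_
    have h1 : ContinuousAt ξ 0 := h.hi.ξc1.continuousAt
    refine h1.eventually ?_
    rw [h.hi.zero]
    exact ball_mem_nhds 0 one_pos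
  obtain ⟨R', a1, a2, hR'0, hR'δ⟩ := (a1.and (a2.and (ev_lt h.hi.pos))).exists
  have hinj : InjOn ξ (ball 0 R') := by
    intro r hr r' hr' hrr
    rw [← h.hi.right r (ball_subset_ball hR'δ.le hr), ← h.hi.right r' (ball_subset_ball hR'δ.le hr'),
      hrr]
  have hS : ξ '' ball 0 R' ∈ 𝓝 (0 : ℂ) := by
    have h1 : ∀ᶠ z in 𝓝 (0 : ℂ), zt D uj kj aj b z ∈ ball (0 : ℂ) R' := by
      have h1 : ContinuousAt (zt D uj kj aj b) 0 := h.hj.zt_c1.1.continuousAt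
      have h2 : ball (0 : ℂ) R' ∈ 𝓝 (zt D uj kj aj b 0) := by
        rw [zt_zero]
        exact ball_mem_nhds 0 hR'0
      exact h1.eventually h2
    filter_upwards [h1, h.hi.left] with z h1 h2 using ⟨_, h1, h2⟩
  have hsub : ξ '' ball 0 R' ⊆ ball 0 1 := by
    rintro _ ⟨r, hr, rfl⟩
    exact a2 r (ball_subset_closedBall hr)
  -- distance from `x`
  obtain ⟨c₁, hc₁, hc₁'⟩ := exists_pos_lb
    ((isCompact_closedBall (0 : ℂ) 1).diff isOpen_interior (t := interior (ξ '' ball 0 R')))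
    (f := fun s => ‖uj s - x‖) (h.hj.cont.sub continuous_const).norm.continuousOn (by
      rintro s ⟨hs1, hs2⟩
      rw [norm_pos_iff, sub_ne_zero]
      intro hs
      have := hfar s hs1 hs
      subst this
      exact hs2 (mem_interior_iff_mem_nhds.2 hS))
  -- extension of `uj ∘ ξ`
  obtain ⟨Z, hZ, hZe⟩ := exists_ext (by simp) (isCompact_closedBall (0 : ℂ) R')
    (isOpen_ball (x := (0 : ℂ)) (ε := δ₀)) (closedBall_subset_ball hR'δ) h.Zc1
  have hZe' : ∀ r ∈ closedBall (0 : ℂ) R', ∀ᶠ r' in 𝓝 r, Z r' = uj (ξ r') := fun r hr =>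
    ev_of_nhdsSet hZe hr
  have hZv : ∀ r ∈ closedBall (0 : ℂ) R', Z r = uj (ξ r) := fun r hr => (hZe' r hr).self_of_nhds
  have hZp : ∀ r ∈ closedBall (0 : ℂ) R', p1 D x aj b (Z r - x) = r ^ kj := by
    intro r hr
    rw [hZv r hr, hx, ← h.hj.zt_pow, h.hi.right r (closedBall_subset_ball hR'δ hr)]
  set Φ := Phi D ul kl kj al b κ with hΦ
  -- conditions on `R`
  have b1 : ∀ᶠ R in 𝓝[>] (0 : ℝ), ∀ τ ∈ closedBall (0 : ℂ) R, ContDiffAt ℝ 1 Φ τ :=
    ev_closedBall (h.Phi_c1.eventually (by simp))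
  have b2 : ∀ᶠ R in 𝓝[>] (0 : ℝ), ∀ τ ∈ closedBall (0 : ℂ) R, ‖Φ τ‖ < R' := by
    refine ev_closedBall ?_
    have h1 : ContinuousAt (fun τ => ‖Φ τ‖) 0 := h.Phi_c1.continuousAt.norm
    refine h1.eventually (gt_mem_nhds ?_)
    beta_reduce
    rw [hΦ, h.Phi_zero, norm_zero]
    exact hR'0
  have b3 : ∀ᶠ R in 𝓝[>] (0 : ℝ), ∀ t ∈ closedBall (0 : ℂ) (R ^ kj), ‖ul t - x‖ < c₁ / 4 := by
    refine (ev_pow_small hkj).eventually (ev_closedBall ?_)
    have h1 : Continuous (fun t => ‖ul t - x‖) := (h.hl.cont.sub continuous_const).norm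
    refine h1.continuousAt.eventually (gt_mem_nhds ?_)
    beta_reduce
    rw [h.h0, sub_self, norm_zero]
    positivity
  filter_upwards [b1, b2, b3, self_mem_nhdsWithin] with R b1 b2 b3 hR v hv m hwd
  have hR : 0 < R := hR
  have hRK : 0 < R ^ kj := by positivity
  set V : R4 → R4 := fun y => cm D x (v y) b with hV
  have hVs : ContDiff ℝ ∞ V := by
    have : V = fun y => (cmB D x).flip b (v y) := by
      funext y
      simp [hV, cmB_apply]
    rw [this]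
    exact ((cmB D x).flip b).contDiff.comp hv
  have hVu : ContDiff ℝ 1 (fun t => V (ul t)) := (hVs.comp h.hl.hu.1).of_le (by simp)
  obtain ⟨CV, hCV⟩ := (isCompact_closedBall (0 : ℂ) (R ^ kj)).exists_bound_of_continuousOn
    hVu.continuous.continuousOn
  have hCV0 : 0 ≤ |CV| := abs_nonneg CV
  have d1 : ∀ᶠ δ in 𝓝[>] (0 : ℝ), 0 < δ ∧ δ < c₁ / (4 * (|CV| + 1)) := ev_lt (by positivity)
  filter_upwards [hwd, d1] with δ hwd hδ
  obtain ⟨hδ0, hδ1⟩ := hδ
  set Y : ℂ → R4 := push ul V δ with hY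
  have hYs : ContDiff ℝ 1 Y :=
    (h.hl.hu.1.of_le (by simp)).add (hVu.const_smul δ)
  set Y' : ℂ → R4 := fun τ => Y (τ ^ kj) with hY'
  have hYs' : ContDiff ℝ 1 Y' := hYs.comp (by fun_prop)
  -- the first coordinate
  have q1 : ∀ τ r, r ∈ closedBall (0 : ℂ) R' → p1 D x aj b (Y' τ - Z r) = Φ τ ^ kj - r ^ kj := by
    intro τ r hr
    have e1 : Y' τ - Z r = (ul (τ ^ kj) - x) + δ • cm D x (v (ul (τ ^ kj))) b - (Z r - x) := by
      simp only [hY', hY, push, hV]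
      abel
    rw [e1, map_sub, map_add, map_smul, p1_b, smul_zero, add_zero, hZp r hr, h.Phi_pow]
  set H : C2 → ℂ := fun p => -(p2 D x aj b (Y' p.1 - Z p.2)) with hH
  have hHc : ContDiff ℝ 1 H := by
    refine ContDiff.neg ?_
    exact (p2 D x aj b).contDiff.comp
      ((hYs'.comp contDiff_fst).sub (hZ.comp contDiff_snd))
  have q2 : ∀ p : C2, p.2 ∈ closedBall (0 : ℂ) R' →
      Y' p.1 - Z p.2 = -(Qf D x aj b (dF kj Φ H p)) := by
    intro p hp
    have e1 : dF kj Φ H p = -(Pf D x aj b (Y' p.1 - Z p.2)) := by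
      rw [Pf_apply, q1 _ _ hp, dF]
      simp [hH]
    rw [e1, map_neg, Qf_Pf haj, neg_neg]
  -- windings of `H`
  have hS1 : ∀ w ∈ nthRootsFinset kj (1 : ℂ), ‖w‖ = 1 := fun w hw =>
    norm_root hkj0 ((mem_nthRootsFinset (by omega) 1).1 hw)
  have hwΦ : ∀ w ∈ nthRootsFinset kj (1 : ℂ), ∀ τ ∈ closedBall (0 : ℂ) R,
      w * Φ τ ∈ closedBall (0 : ℂ) R' := by
    intro w hw τ hτ
    rw [mem_closedBall_zero_iff, norm_mul, hS1 w hw, one_mul]
    exact (b2 τ hτ).le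
  have q3 : ∀ w ∈ nthRootsFinset kj (1 : ℂ), ∀ τ ∈ closedBall (0 : ℂ) R,
      H (τ, w * Φ τ) = -(nn D ul uj kl kj al aj b ξ κ w τ + δ * v (ul (τ ^ kj))) := by
    intro w hw τ hτ
    have e1 : Y' τ - Z (w * Φ τ) = (ul (τ ^ kj) - uj (ξ (w * Φ τ))) +
        δ • cm D x (v (ul (τ ^ kj))) b := by
      rw [hZv _ (hwΦ w hw τ hτ)]
      simp only [hY', hY, push, hV]
      abel
    simp only [hH]
    rw [e1, map_add, map_smul, p2_b D x aj b haj, nn]
    simp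
    rfl
  have q4 : ∀ w ∈ nthRootsFinset kj (1 : ℂ), HasWinding (fun z => H (z, w * Φ z)) 0 R (m w) := by
    intro w hw
    refine wind_congr (wind_neg hR (hwd w hw)) fun z hz => ?_
    exact (q3 w hw z (sphere_subset_closedBall hz)).symm
  -- the degree lemma
  have hVo : IsOpen {τ : ℂ | ContDiffAt ℝ 1 Φ τ} := by
    rw [isOpen_iff_mem_nhds]
    intro τ hτ
    have hτ' : ContDiffAt ℝ 1 Φ τ := hτ
    exact hτ'.eventually (by simp)
  obtain ⟨ε₁, hε₁, key⟩ := deg_local (K := kj) (Φ := Φ) (H := H) (R := R) (R' := R') (m := m)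
    (by omega) isOpen_univ hVo b1 (subset_univ _)
    (fun τ hτ => ContDiffAt.contDiffWithinAt hτ) hHc.contDiffOn hR b2 q4
  -- lower bound on the sphere
  have q5 : ∀ t ∈ sphere (0 : ℂ) (R ^ kj), ∀ r ∈ closedBall (0 : ℂ) R', Y t - Z r ≠ 0 := by
    intro t ht r hr h0
    obtain ⟨τ, hτ⟩ := IsAlgClosed.exists_pow_nat_eq t (n := kj) (by omega)
    have hτR : ‖τ‖ = R := by
      rw [mem_sphere_zero_iff_norm, ← hτ, norm_pow] at ht
      exact (pow_left_inj₀ (norm_nonneg _) hR.le hkj0).1 ht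
    have hτs : τ ∈ sphere (0 : ℂ) R := by rwa [mem_sphere_zero_iff_norm]
    have h1 : Y' τ - Z r = 0 := by
      simp only [hY']
      rw [hτ]
      exact h0
    have h2 := q1 τ r hr
    rw [h1, map_zero] at h2
    have h3 : r ^ kj - Φ τ ^ kj = 0 := by
      rw [← neg_sub, ← h2, neg_zero]
    rw [(Complex.isPrimitiveRoot_exp kj hkj0).pow_sub_pow_eq_prod_sub_mul _ _ (by omega),
      Finset.prod_eq_zero_iff] at h3
    obtain ⟨w, hwS, h4⟩ := h3
    have h5 : r = w * Φ τ := sub_eq_zero.1 h4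
    have h6 := wind_ne hR (q4 w hwS) hτs
    apply h6
    rw [← h5]
    simp only [hH]
    rw [h1, map_zero, neg_zero]
  obtain ⟨c₂, hc₂, hc₂'⟩ := exists_pos_lb
    ((isCompact_sphere (0 : ℂ) (R ^ kj)).prod (isCompact_closedBall (0 : ℂ) R'))
    (f := fun p : C2 => ‖Y p.1 - Z p.2‖)
    (((hYs.continuous.comp continuous_fst).sub (hZ.continuous.comp continuous_snd)).norm.continuousOn)
    (fun p hp => norm_pos_iff.2 (q5 p.1 hp.1 p.2 hp.2))
  set P := Pf D x aj b with hP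
  have hPn : 0 ≤ ‖P‖ := norm_nonneg P
  refine ⟨min (min (c₁ / 2) c₂) (ε₁ / (2 * (‖P‖ + 1))), by positivity, fun f hf hfs => ?_⟩
  have hf0 : ∀ y : R4, min (min (c₁ / 2) c₂) (ε₁ / (2 * (‖P‖ + 1))) ≤ ‖y‖ → f y = 0 := by
    intro y hy
    refine image_eq_zero_of_notMem_tsupport fun h' => ?_
    have := hfs h'
    rw [mem_ball_zero_iff] at this
    linarith
  -- first step
  have hfar2 : ∀ t ∈ ball (0 : ℂ) (R ^ kj), ∀ s ∈ ball (0 : ℂ) 1, s ∉ ξ '' ball 0 R' →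
      f (Y t - uj s) = 0 := by
    intro t ht s hs hsS
    refine hf0 _ ((min_le_left _ _).trans ((min_le_left _ _).trans ?_))
    have e1 := hc₁' s ⟨ball_subset_closedBall hs, fun h' => hsS (interior_subset h')⟩
    have e2 := b3 t (ball_subset_closedBall ht)
    have e3 := hCV t (ball_subset_closedBall ht)
    have e4 : ‖δ • V (ul t)‖ ≤ c₁ / 4 := by
      rw [norm_smul, Real.norm_of_nonneg hδ0.le]
      have e5 : ‖V (ul t)‖ ≤ |CV| + 1 := by
        have := le_abs_self CV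
        linarith
      calc δ * ‖V (ul t)‖ ≤ c₁ / (4 * (|CV| + 1)) * (|CV| + 1) := by gcongr
        _ = c₁ / 4 := by field_simp
    have e6 : uj s - x = (ul t - x) + δ • V (ul t) - (Y t - uj s) := by
      simp only [hY, push]
      abel
    have e7 : ‖uj s - x‖ ≤ ‖ul t - x‖ + ‖δ • V (ul t)‖ + ‖Y t - uj s‖ := by
      rw [e6]
      exact (norm_sub_le _ _).trans (by gcongr; exact norm_add_le _ _)
    linarith
  have s1 : Iuv ul uj V δ (R ^ kj) f = ∫ t in ball (0 : ℂ) (R ^ kj), ∫ r in ball (0 : ℂ) R',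
      f (Y t - Z r) * vol4 (fderiv ℝ Y t 1) (fderiv ℝ Y t Complex.I)
        (fderiv ℝ Z r 1) (fderiv ℝ Z r Complex.I) := by
    rw [Iuv]
    refine setIntegral_congr_fun measurableSet_ball fun t ht => ?_
    exact subst_s hR'δ (h.hj.hu.1.differentiable (by simp)) h.hi.c1 hinj
      (fun r hr => a1 r (ball_subset_closedBall hr)) hsub hZe' (hfar2 t ht)
  have s2 := cover_t hkj hYs hZ (R := R) (R' := R') hR hf (fun t ht r hr => by
    refine hf0 _ ((min_le_left _ _).trans ((min_le_right _ _).trans ?_))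
    exact hc₂' (t, r) ⟨ht, hr⟩)
  have s3 := lin_part (Y := Y') (Z := Z) (Q := Qf D x aj b) (F := dF kj Φ H) (R := R) (R' := R')
    hYs' hZ (fun p hp => by
      have e1 : ContDiffAt ℝ 1 Φ p.1 := b1 p.1 (ball_subset_closedBall hp.1)
      have e2 : DifferentiableAt ℝ (fun p : C2 => Φ p.1) p :=
        DifferentiableAt.comp (g := Φ) (f := fun p : C2 => p.1) p
          (e1.differentiableAt (by simp)) differentiableAt_fst
      have e3 : DifferentiableAt ℝ (fun p : C2 => p.2 ^ kj - Φ p.1 ^ kj) p :=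
        (differentiableAt_snd.pow kj).sub (e2.pow kj)
      exact e3.prodMk ((hHc.differentiable (by simp)) p))
    (fun p hp => q2 p (ball_subset_closedBall hp.2)) f
  have s4 := key (fun y => f (-(Qf D x aj b y)))
    (hf.comp ((Qf D x aj b).continuous.neg)) (by
      refine (closure_minimal (t := closedBall 0 (ε₁ / 2)) (fun y hy => ?_)
        isClosed_closedBall).trans (closedBall_subset_ball (half_lt_self hε₁))
      rw [mem_closedBall_zero_iff]
      have e1 : ‖Qf D x aj b y‖ < ε₁ / (2 * (‖P‖ + 1)) := by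
        by_contra hc
        apply hy
        refine hf0 _ ((min_le_right _ _).trans ?_)
        rw [norm_neg]
        exact not_lt.1 hc
      have e2 : y = P (Qf D x aj b y) := (Pf_Qf haj y).symm
      rw [e2]
      calc ‖P (Qf D x aj b y)‖ ≤ ‖P‖ * ‖Qf D x aj b y‖ := P.le_opNorm _
        _ ≤ (‖P‖ + 1) * (ε₁ / (2 * (‖P‖ + 1))) := by gcongr; linarith
        _ = ε₁ / 2 := by field_simp)
  rw [s1, s2, s3, s4, hcs f]
  ring

end PairD

end Vale.Agent.P247.H58.LW
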