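import Vale.Agent.P247.H58.LW.LbL
import Vale.Agent.P247.H58.LW.Deg

/-!
# Composition with `τ ↦ τ ^ K`
-/

open scoped ContDiff Topology
open Set MeasureTheory Filter Metric Asymptotics

noncomputable section

namespace Vale.Agent.P247.H58.LW

open Vale.Agent.P247.H74 Vale.Agent.P247.H74.CE
open Vale.Agent.P247.H74.CE.Lead (uh zt zt_zero)

theorem pow_tendsto {K : ℕ} (hK : 1 ≤ K) : Tendsto (fun z : ℂ => z ^ K) (𝓝[≠] 0) (𝓝[≠] 0) := by
  refine tendsto_nhdsWithin_iff.2 ⟨?_, ?_⟩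
  · have h1 : Continuous (fun z : ℂ => z ^ K) := by fun_prop
    have := (h1.tendsto 0).mono_left (nhdsWithin_le_nhds (s := {(0 : ℂ)}ᶜ))
    rwa [zero_pow (by omega)] at this
  · filter_upwards [ne_ev] with z hz using pow_ne_zero K hz

theorem pow_tendsto' {K : ℕ} (hK : 1 ≤ K) : Tendsto (fun z : ℂ => z ^ K) (𝓝 0) (𝓝 0) := by
  have h1 : Continuous (fun z : ℂ => z ^ K) := by fun_prop
  have := h1.tendsto 0
  rwa [zero_pow (by omega)] at this

/-- the derivative of the power -/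
theorem hasFDerivAt_pow (K : ℕ) (z : ℂ) : HasFDerivAt (fun z : ℂ => z ^ K)
    ((ContinuousLinearMap.mul ℝ ℂ) ((K : ℂ) * z ^ (K - 1))) z := by
  have h1 := (hasDerivAt_pow K z).hasFDerivAt.restrictScalars ℝ
  refine h1.congr_fderiv ?_
  ext v <;> simp [mul_comm]

theorem fderiv_comp_pow {E : Type*} [NormedAddCommGroup E] [NormedSpace ℝ E] {f : ℂ → E} {K : ℕ}
    {z : ℂ} (hf : DifferentiableAt ℝ f (z ^ K)) (w : ℂ) :
    fderiv ℝ (fun z => f (z ^ K)) z w = fderiv ℝ f (z ^ K) ((K : ℂ) * z ^ (K - 1) * w) := by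
  have := HasFDerivAt.comp (f := fun z : ℂ => z ^ K) z hf.hasFDerivAt (hasFDerivAt_pow K z)
  rw [show (fun z => f (z ^ K)) = f ∘ fun z => z ^ K from rfl, this.fderiv]
  rfl

theorem cl_compPow {E : Type*} [NormedAddCommGroup E] [NormedSpace ℝ E] {m : ℤ} {f : ℂ → E}
    (hf : Cl m f) {K : ℕ} (hK : 1 ≤ K) : Cl (K * m) (fun z => f (z ^ K)) where
  c1 := by
    filter_upwards [(pow_tendsto hK).eventually hf.c1] with z hz
    have h1 : ContDiffAt ℝ 1 (fun z : ℂ => z ^ K) z := by fun_prop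
    exact ContDiffAt.comp z hz h1
  bd := by
    refine (hf.bd.comp_tendsto (pow_tendsto hK)).congr_right fun z => ?_
    simp only [Function.comp_apply]
    rw [norm_pow, ← zpow_natCast, ← zpow_mul]
  dbd := by
    obtain ⟨C, hC⟩ := hf.dbd.bound
    refine IsBigO.of_bound (|C| * K) ?_
    filter_upwards [(pow_tendsto hK).eventually hC, (pow_tendsto hK).eventually hf.diff, ne_ev]
      with z h1 h2 hz
    have hz' : ‖z‖ ≠ 0 := norm_ne_zero_iff.2 hz
    have h3 : HasFDerivAt (fun z => f (z ^ K))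
        ((fderiv ℝ f (z ^ K)).comp ((ContinuousLinearMap.mul ℝ ℂ) ((K : ℂ) * z ^ (K - 1)))) z :=
      HasFDerivAt.comp (f := fun z : ℂ => z ^ K) z h2.hasFDerivAt (hasFDerivAt_pow K z)
    rw [h3.fderiv]
    have h4 : ‖(ContinuousLinearMap.mul ℝ ℂ) ((K : ℂ) * z ^ (K - 1))‖ ≤ K * ‖z‖ ^ (K - 1) := by
      refine ContinuousLinearMap.opNorm_le_bound _ (by positivity) fun v => ?_
      rw [ContinuousLinearMap.mul_apply', norm_mul, norm_mul, norm_pow, Complex.norm_natCast]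
    calc ‖(fderiv ℝ f (z ^ K)).comp ((ContinuousLinearMap.mul ℝ ℂ) ((K : ℂ) * z ^ (K - 1)))‖
        ≤ ‖fderiv ℝ f (z ^ K)‖ * ‖(ContinuousLinearMap.mul ℝ ℂ) ((K : ℂ) * z ^ (K - 1))‖ :=
          ContinuousLinearMap.opNorm_comp_le _ _
      _ ≤ (C * ‖‖z ^ K‖ ^ (m - 1)‖) * (K * ‖z‖ ^ (K - 1)) := by
          gcongr
          exact (norm_nonneg _).trans h1
      _ ≤ (|C| * ‖‖z ^ K‖ ^ (m - 1)‖) * (K * ‖z‖ ^ (K - 1)) := by
          gcongr
          exact le_abs_self C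
      _ = |C| * K * ‖‖z‖ ^ ((K : ℤ) * m - 1)‖ := by
          rw [norm_zpow, norm_zpow, norm_norm, norm_norm, norm_pow]
          have e1 : (‖z‖ ^ K) ^ (m - 1) * ‖z‖ ^ (K - 1) = ‖z‖ ^ ((K : ℤ) * m - 1) := by
            rw [← zpow_natCast ‖z‖ K, ← zpow_natCast ‖z‖ (K - 1), ← zpow_mul, ← zpow_add₀ hz']
            congr 1
            push_cast [hK]
            ring
          rw [← e1]
          ring

/-- the composition of a curve with a power -/
theorem LeadL.pow {D : Data} {u : ℂ → R4} {k : ℕ} {a b : R4} (h : LeadL D u k a b) {K : ℕ}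
    (hK : 1 ≤ K) : LeadL D (fun z => u (z ^ K)) (k * K) a b := by
  have hK0 : K ≠ 0 := by omega
  have hu0 : u (0 ^ K) = u 0 := by rw [zero_pow hK0]
  have hud : Differentiable ℝ u := h.hu.1.differentiable (by simp)
  have hder : ∀ᶠ z in 𝓝 (0 : ℂ), ∀ w : ℂ, fderiv ℝ (fun z => u (z ^ K)) z w =
      cm D (u (z ^ K)) (K * z ^ (K - 1) * w) (fderiv ℝ u (z ^ K) 1) := by
    filter_upwards [(pow_tendsto' hK).eventually h.hu.2] with z hz w
    rw [fderiv_comp_pow (hud _), fderiv_cmL D hz]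
  refine ⟨⟨h.hu.1.comp (by fun_prop), ?_⟩, Nat.mul_pos h.hk hK, ?_, ?_, ?_⟩
  · filter_upwards [hder] with z hz
    rw [hz, hz, mul_one]
    have e1 : ∀ v : R4, D.J (u (z ^ K)) v = cm D (u (z ^ K)) Complex.I v := by
      intro v
      simp [cm]
    rw [e1, cm_cm, mul_comm]
  · rw [hu0]
    exact h.hab
  · rw [hu0]
    refine ((cl_compPow h.rem0 hK).mono (m' := ((k * K : ℕ) : ℤ) + 1) ?_).congr
      (Eventually.of_forall fun z => ?_)
    · push_cast
      nlinarith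
    · rw [← pow_mul, mul_comm K k]
  · rw [hu0]
    have c1 : Cl ((K : ℤ) - 1) (fun z : ℂ => (K : ℂ) * z ^ (K - 1)) := by
      have h1 : Cl ((K : ℤ) - 1) (fun z : ℂ => ((K : ℝ) • ContinuousLinearMap.id ℝ ℂ)
        (z ^ ((K : ℤ) - 1))) := (Cl.zpow ((K : ℤ) - 1)).clm _
      refine h1.congr (Eventually.of_forall fun z => ?_)
      have e1 : z ^ ((K : ℤ) - 1) = z ^ (K - 1) := by
        rw [show (K : ℤ) - 1 = ((K - 1 : ℕ) : ℤ) by push_cast [hK]; ring, zpow_natCast]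
      rw [e1]
      simp
    have c2 : Cl (K * (k : ℤ)) (fun z => cmB D (u (z ^ K)) - cmB D (u 0)) := by
      have h1 : Cl (k : ℤ) (fun z => cmB D (u z) - cmB D (u 0)) :=
        h.sub_cl.left ((cmB_smooth D).contDiffAt.of_le (by simp)) (by have := h.hk; omega)
      exact cl_compPow h1 hK
    have c3 : Cl (K * ((k : ℤ) - 1)) (fun z => fderiv ℝ u (z ^ K) 1) := cl_compPow h.T_cl hK
    have c4 : Cl (K * (k : ℤ) + ((K : ℤ) - 1) + K * ((k : ℤ) - 1))
        (fun z => (cmB D (u (z ^ K)) - cmB D (u 0)) ((K : ℂ) * z ^ (K - 1))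
          (fderiv ℝ u (z ^ K) 1)) := by
      have e1 := (c2.bil (ContinuousLinearMap.id ℝ (ℂ →L[ℝ] R4 →L[ℝ] R4)) c1)
      exact e1.bil (ContinuousLinearMap.id ℝ (R4 →L[ℝ] R4)) c3
    have c5 : Cl (((K : ℤ) - 1) + K * (k : ℤ)) (fun z => cmB D (u 0) ((K : ℂ) * z ^ (K - 1))
        (fderiv ℝ u (z ^ K) 1 - cm D (u 0) (k * (z ^ K) ^ (k - 1)) a)) :=
      c1.bil (cmB D (u 0)) (cl_compPow h.rem1 hK)
    have hk := h.hk
    refine ((c4.mono (m' := ((k * K : ℕ) : ℤ)) (by push_cast; nlinarith)).add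
      (c5.mono (m' := ((k * K : ℕ) : ℤ)) (by push_cast; nlinarith))).congr ?_
    filter_upwards [nhdsWithin_le_nhds hder] with z hz
    rw [hz 1, mul_one]
    simp only [_root_.sub_apply, cmB_apply, cm_sub, cm_cm]
    have e1 : (K : ℂ) * z ^ (K - 1) * (k * (z ^ K) ^ (k - 1)) =
        ((k * K : ℕ) : ℂ) * z ^ (k * K - 1) := by
      have e2 : k * K - 1 = (K - 1) + K * (k - 1) := by
        obtain ⟨k', rfl⟩ : ∃ k', k = k' + 1 := ⟨k - 1, by omega⟩
        obtain ⟨K', rfl⟩ : ∃ K', K = K' + 1 := ⟨K - 1, by omega⟩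
        simp only [Nat.add_sub_cancel]
        ring_nf
        omega
      rw [e2, pow_add, ← pow_mul]
      push_cast
      ring
    rw [e1]
    abel

/-! ## power substitution -/

theorem det_mul_clm (c : ℂ) : ((ContinuousLinearMap.mul ℝ ℂ) c).det = ‖c‖ ^ 2 := by
  rw [det2_eq, ← Complex.normSq_eq_norm_sq, Complex.normSq_apply]
  simp [br2]

theorem fderiv_pow_det (K : ℕ) (z : ℂ) :
    (fderiv ℝ (fun z : ℂ => z ^ K) z).det = ‖(K : ℂ) * z ^ (K - 1)‖ ^ 2 := by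
  rw [(hasFDerivAt_pow K z).fderiv, det_mul_clm]

theorem pow_subst {K : ℕ} (hK : 1 ≤ K) {f : ℂ → ℝ} (hf : Continuous f)
    (hfs : HasCompactSupport f) :
    ∫ z, f (z ^ K) * ‖(K : ℂ) * z ^ (K - 1)‖ ^ 2 = K * ∫ z, f z := by
  have hw : HasWinding (fun z : ℂ => z ^ K) 0 1 K := by
    refine ⟨fun _ => 0, continuousOn_const, fun z _ => ?_⟩
    simp
  have hc : ContDiff ℝ 1 (fun z : ℂ => z ^ K) := by fun_prop
  obtain ⟨ε₀, hε₀, key⟩ := avg (volume : Measure ℂ) hc (isOpen_ball (x := (0 : ℂ)) (ε := 1))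
    (by rw [closure_ball _ one_ne_zero]; exact isCompact_closedBall _ _)
    (by
      intro x hx h0
      rw [closure_ball _ one_ne_zero] at hx
      have h1 : x = 0 := by
        by_contra hne
        exact pow_ne_zero K hne h0
      apply hx.2
      rw [h1]
      exact mem_ball_self one_pos) (g := kf) (c := Real.pi) (N := K) Real.pi_pos
    (fun ε hε => ⟨(kf_smooth ε).of_le (by simp), kf_nonneg hε,
      fun w hw => kf_zero hε (le_of_lt hw), kf_integral hε⟩)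
    (by
      filter_upwards [ev_lt one_pos] with ε hε
      rw [deg2 hc one_pos hw hε.1]
      · simp
      · intro z hz
        rw [mem_sphere_zero_iff_norm] at hz
        rw [norm_pow, hz, one_pow]
        exact hε.2)
  simp only [fderiv_pow_det] at key
  -- scaling
  obtain ⟨R, hR⟩ := hfs.isBounded.subset_closedBall (0 : ℂ)
  set R' := max R 0 + 1 with hR'
  have hR'0 : 0 < R' := by positivity
  set η := min ε₀ 1 / 2 with hη
  have hη0 : 0 < η := by positivity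
  have hηε : η < ε₀ := by
    have := min_le_left ε₀ 1
    rw [hη]
    have h2 : 0 < min ε₀ 1 := by positivity
    linarith
  have hη1 : η < 1 := by
    have := min_le_right ε₀ 1
    rw [hη]
    linarith
  -- `l ^ K = R' / η`
  set l : ℝ := (R' / η) ^ ((K : ℝ)⁻¹) with hl
  have hl0 : 0 < l := by positivity
  have hlK : l ^ K = R' / η := Real.rpow_inv_natCast_pow (by positivity) (by omega)
  set g : ℂ → ℝ := fun z => f ((l ^ K : ℝ) • z) with hg
  have hgc : Continuous g := hf.comp (by fun_prop)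
  have hgz : ∀ z, η < ‖z‖ → g z = 0 := by
    intro z hz
    change f ((l ^ K : ℝ) • z) = 0
    refine image_eq_zero_of_notMem_tsupport fun h => ?_
    have h1 := hR h
    rw [mem_closedBall_zero_iff, norm_smul, hlK, Real.norm_of_nonneg (by positivity),
      div_mul_eq_mul_div, div_le_iff₀ hη0] at h1
    have h2 : R < R' := by
      have := le_max_left R 0
      linarith
    have h3 : R * η < R' * ‖z‖ := by
      calc R * η < R' * η := by gcongr
        _ ≤ R' * ‖z‖ := by gcongr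
    linarith
  have hgs : tsupport g ⊆ ball 0 ε₀ := by
    refine (closure_minimal (t := closedBall 0 η) (fun z hz => ?_) isClosed_closedBall).trans
      (closedBall_subset_ball hηε)
    rw [mem_closedBall_zero_iff]
    by_contra hc
    exact hz (hgz z (not_le.1 hc))
  have k1 := key g hgc hgs
  have k2 : ∫ z in ball (0 : ℂ) 1, g (z ^ K) * ‖(K : ℂ) * z ^ (K - 1)‖ ^ 2 =
      ∫ z, g (z ^ K) * ‖(K : ℂ) * z ^ (K - 1)‖ ^ 2 := by
    refine setIntegral_eq_integral_of_forall_compl_eq_zero fun z hz => ?_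
    rw [mem_ball_zero_iff, not_lt] at hz
    have h1 : η < ‖z ^ K‖ := by
      rw [norm_pow]
      exact lt_of_lt_of_le hη1 (one_le_pow₀ hz)
    rw [hgz _ h1, zero_mul]
  rw [k2] at k1
  -- substitute
  have s1 : ∫ z, g z = ((l ^ K) ^ 2)⁻¹ * ∫ z, f z := by
    have := Measure.integral_comp_smul (volume : Measure ℂ) f (l ^ K)
    rw [Complex.finrank_real_complex, abs_of_pos (by positivity)] at this
    simpa [hg] using this
  have s2 : ∫ z, g (z ^ K) * ‖(K : ℂ) * z ^ (K - 1)‖ ^ 2 =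
      (l ^ (K - 1) * l ^ (K - 1))⁻¹ * ((l ^ 2)⁻¹ * ∫ z, f (z ^ K) * ‖(K : ℂ) * z ^ (K - 1)‖ ^ 2) := by
    have h1 := Measure.integral_comp_smul (volume : Measure ℂ)
      (fun z => f (z ^ K) * ‖(K : ℂ) * z ^ (K - 1)‖ ^ 2) l
    rw [Complex.finrank_real_complex, abs_of_pos (by positivity)] at h1
    rw [smul_eq_mul] at h1
    rw [← h1, ← integral_const_mul]
    refine integral_congr_ae (Eventually.of_forall fun z => ?_)
    simp only [hg]
    have e1 : (l ^ K : ℝ) • z ^ K = (l • z) ^ K := by rw [smul_pow]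
    have e2 : ‖(K : ℂ) * (l • z) ^ (K - 1)‖ = l ^ (K - 1) * ‖(K : ℂ) * z ^ (K - 1)‖ := by
      rw [norm_mul, norm_pow, norm_smul, Real.norm_of_nonneg hl0.le, norm_mul, norm_pow]
      ring
    rw [e1, e2]
    have e3 : l ^ (K - 1) ≠ 0 := by positivity
    field_simp
  rw [s1, s2] at k1
  have e4 : l ^ (K - 1) * l ^ (K - 1) * l ^ 2 = (l ^ K) ^ 2 := by
    obtain ⟨K', rfl⟩ : ∃ K', K = K' + 1 := ⟨K - 1, by omega⟩
    simp only [Nat.add_sub_cancel]
    ring
  have e5 : (l ^ K) ^ 2 ≠ 0 := by positivity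
  have e6 : (l ^ (K - 1) * l ^ (K - 1))⁻¹ * ((l ^ 2)⁻¹ *
      ∫ z, f (z ^ K) * ‖(K : ℂ) * z ^ (K - 1)‖ ^ 2) =
      ((l ^ K) ^ 2)⁻¹ * ∫ z, f (z ^ K) * ‖(K : ℂ) * z ^ (K - 1)‖ ^ 2 := by
    rw [← e4, mul_inv (l ^ (K - 1) * l ^ (K - 1))]
    ring
  rw [e6] at k1
  have k3 : ((l ^ K) ^ 2)⁻¹ * (∫ z, f (z ^ K) * ‖(K : ℂ) * z ^ (K - 1)‖ ^ 2) =
      ((l ^ K) ^ 2)⁻¹ * (K * ∫ z, f z) := by
    rw [k1]
    ring
  exact mul_left_cancel₀ (inv_ne_zero e5) k3

end Vale.Agent.P247.H58.LW
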