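import Vale.Agent.P247.H58.LW.Diag
import Mathlib.GroupTheory.CosetCover

/-!
# Transversal directions
-/

open scoped ContDiff Topology
open Set MeasureTheory Filter Metric Asymptotics

noncomputable section

namespace Vale.Agent.P247.H58.LW

open Vale.Agent.P247.H74 Vale.Agent.P247.H74.CE Vale.Agent.P247.H574
open Vale.Agent.P247.H74.CE.Lead (uh zt zt_zero)

section ext
variable {D : Data} {K : Set R4} {x : R4} {N : ℕ} {u : Fin N → ℂ → R4} {ε : ℝ}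

/-- global smooth extensions of the branches -/
theorem exists_glob (h : Brs D K x N u ε) : ∃ u' : Fin N → ℂ → R4,
    (∀ l, ContDiff ℝ ∞ (u' l)) ∧ ∀ l, ∀ᶠ z in 𝓝ˢ (closedBall (0 : ℂ) 1), u' l z = u l z := by
  have : ∀ l, ∃ g : ℂ → R4, ContDiff ℝ ∞ g ∧ ∀ᶠ z in 𝓝ˢ (closedBall (0 : ℂ) 1), g z = u l z :=
    fun l => exists_ext le_rfl (isCompact_closedBall (0 : ℂ) 1) isOpen_ball
      (closedBall_subset_ball (by norm_num)) (h.disc l).smooth
  choose g h1 h2 using this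
  exact ⟨g, h1, h2⟩

theorem glob_ev {u u' : ℂ → R4} (h : ∀ᶠ z in 𝓝ˢ (closedBall (0 : ℂ) 1), u' z = u z) {z : ℂ}
    (hz : z ∈ closedBall (0 : ℂ) 1) : u' =ᶠ[𝓝 z] u :=
  h.filter_mono (nhds_le_nhdsSet hz)

theorem glob_eq {u u' : ℂ → R4} (h : ∀ᶠ z in 𝓝ˢ (closedBall (0 : ℂ) 1), u' z = u z) {z : ℂ}
    (hz : z ∈ closedBall (0 : ℂ) 1) : u' z = u z :=
  (glob_ev h hz).self_of_nhds

theorem glob_fderiv {u u' : ℂ → R4} (h : ∀ᶠ z in 𝓝ˢ (closedBall (0 : ℂ) 1), u' z = u z) {z : ℂ}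
    (hz : z ∈ closedBall (0 : ℂ) 1) : fderiv ℝ u' z = fderiv ℝ u z :=
  (glob_ev h hz).fderiv_eq

theorem small_closed {r : ℝ} (hr : r ≤ 1) {z : ℂ} (hz : z ∈ ball (0 : ℂ) r) :
    z ∈ closedBall (0 : ℂ) 1 := ball_subset_closedBall (ball_subset_ball hr hz)

theorem glob_J (h : Brs D K x N u ε) (l : Fin N) {u' : ℂ → R4} (hs : ContDiff ℝ ∞ u')
    (hu : ∀ᶠ z in 𝓝ˢ (closedBall (0 : ℂ) 1), u' z = u l z) : JHl D 0 u' := by
  refine ⟨hs, ?_⟩
  filter_upwards [ball_mem_nhds (0 : ℂ) one_pos] with z hz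
  have hz' := small_closed le_rfl hz
  rw [glob_fderiv hu hz', glob_eq hu hz']
  exact (h.disc l).hol z (ball_subset_ball (by norm_num) hz)

theorem glob_inj (h : Brs D K x N u ε) (l : Fin N) {u' : ℂ → R4}
    (hu : ∀ᶠ z in 𝓝ˢ (closedBall (0 : ℂ) 1), u' z = u l z) :
    ∃ ε > 0, ∀ z ∈ ball (0 : ℂ) ε, ∀ w ∈ ball (0 : ℂ) ε, u' z = u' w → z = w := by
  refine ⟨1, one_pos, fun z hz w hw he => ?_⟩
  rw [glob_eq hu (small_closed le_rfl hz), glob_eq hu (small_closed le_rfl hw)] at he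
  rcases h.inj l l z (ball_subset_ball (by norm_num) hz) w (ball_subset_ball (by norm_num) hw) he
    with h1 | h1
  · exact h1.2
  · rw [h1.1, h1.2]

theorem glob_far (h : Brs D K x N u ε) (l : Fin N) {u' : ℂ → R4}
    (hu : ∀ᶠ z in 𝓝ˢ (closedBall (0 : ℂ) 1), u' z = u l z) :
    ∀ s ∈ closedBall (0 : ℂ) 1, u' s = u' 0 → s = 0 := by
  intro s hs he
  rw [glob_eq hu hs, glob_eq hu (by simp)] at he
  rcases h.inj l l s (closedBall_subset_ball (by norm_num) hs) 0 (by simp) he with h1 | h1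
  · exact h1.2
  · exact h1.1

theorem glob_dis (h : Brs D K x N u ε) {l j : Fin N} (hlj : l ≠ j) {u' u'' : ℂ → R4}
    (hu : ∀ᶠ z in 𝓝ˢ (closedBall (0 : ℂ) 1), u' z = u l z)
    (hu' : ∀ᶠ z in 𝓝ˢ (closedBall (0 : ℂ) 1), u'' z = u j z) :
    ∃ ε > 0, ∀ z ∈ ball (0 : ℂ) ε, ∀ z' ∈ ball (0 : ℂ) ε, u' z = u'' z' → z = 0 := by
  refine ⟨1, one_pos, fun z hz w hw he => ?_⟩
  rw [glob_eq hu (small_closed le_rfl hz), glob_eq hu' (small_closed le_rfl hw)] at he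
  rcases h.inj l j z (ball_subset_ball (by norm_num) hz) w (ball_subset_ball (by norm_num) hw) he
    with h1 | h1
  · exact absurd h1.1 hlj
  · exact h1.1

theorem glob_zero (h : Brs D K x N u ε) (l : Fin N) {u' : ℂ → R4}
    (hu : ∀ᶠ z in 𝓝ˢ (closedBall (0 : ℂ) 1), u' z = u l z) : u' 0 = x := by
  rw [glob_eq hu (by simp), h.zero l]

theorem glob_trans {u u' : ℂ → R4} {b : R4}
    (hu : ∀ᶠ z in 𝓝ˢ (closedBall (0 : ℂ) 1), u' z = u z) :
    Trans D x u' b ↔ Trans D x u b := by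
  have key : ∀ z ∈ ball (0 : ℂ) 1, fderiv ℝ u' z = fderiv ℝ u z :=
    fun z hz => glob_fderiv hu (small_closed le_rfl hz)
  have hev : ∀ᶠ z in 𝓝[≠] (0 : ℂ), fderiv ℝ u' z = fderiv ℝ u z :=
    nhdsWithin_le_nhds (by filter_upwards [ball_mem_nhds (0 : ℂ) one_pos] with z hz using key z hz)
  unfold Trans
  constructor
  · rintro ⟨c, hc, h⟩
    refine ⟨c, hc, ?_⟩
    filter_upwards [h, hev] with z h1 h2
    rwa [← h2]
  · rintro ⟨c, hc, h⟩
    refine ⟨c, hc, ?_⟩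
    filter_upwards [h, hev] with z h1 h2
    rwa [h2]

theorem glob_Iuv {u u' v v' : ℂ → R4}
    (hu : ∀ᶠ z in 𝓝ˢ (closedBall (0 : ℂ) 1), u' z = u z)
    (hv : ∀ᶠ z in 𝓝ˢ (closedBall (0 : ℂ) 1), v' z = v z) (V : R4 → R4) {δ ρ : ℝ} (hρ : ρ ≤ 1)
    (f : R4 → ℝ) : Iuv u' v' V δ ρ f = Iuv u v V δ ρ f := by
  unfold Iuv
  refine setIntegral_congr_fun measurableSet_ball fun t ht => ?_
  refine setIntegral_congr_fun measurableSet_ball fun s hs => ?_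
  have ht' := small_closed hρ ht
  have hs' := small_closed le_rfl hs
  have e1 : push u' V δ =ᶠ[𝓝 t] push u V δ := by
    filter_upwards [glob_ev hu ht'] with z hz
    simp only [push, hz]
  rw [e1.self_of_nhds, e1.fderiv_eq, glob_eq hv hs', glob_fderiv hv hs']

end ext

namespace LeadL
variable {D : Data} {u : ℂ → R4} {k : ℕ} {a b b' : R4}

theorem change (h : LeadL D u k a b) (hb' : Om D (u 0) a b' ≠ 0) : LeadL D u k a b' :=
  ⟨h.hu, h.hk, hb', h.rem0, h.rem1⟩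

theorem a_ne (h : LeadL D u k a b) : a ≠ 0 := by
  rintro rfl
  apply h.hab
  rw [← OmL_apply, map_zero, zero_apply]

/-- the rescaled tangent tends to `k a` -/
theorem tang (h : LeadL D u k a b) :
    Tendsto (fun z => cm D (u 0) (z ^ (1 - (k : ℤ))) (fderiv ℝ u z 1)) (𝓝[≠] 0)
      (𝓝 (cm D (u 0) k a)) := by
  have h1 : Cl (1 - (k : ℤ) + k) (fun z => cmB D (u 0) (z ^ (1 - (k : ℤ)))
      (fderiv ℝ u z 1 - cm D (u 0) (k * z ^ (k - 1)) a)) :=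
    (Cl.zpow (1 - (k : ℤ))).bil (cmB D (u 0)) h.rem1
  rw [show (1 - (k : ℤ) + k) = 1 by ring] at h1
  have h2 := (h1.tendsto le_rfl).add_const (cm D (u 0) k a)
  rw [zero_add] at h2
  refine h2.congr' ?_
  filter_upwards [ne_ev] with z hz
  rw [cmB_apply, cm_sub, cm_cm]
  have e1 : z ^ (1 - (k : ℤ)) * (k * z ^ (k - 1)) = k := by
    have e2 : z ^ (k - 1) = z ^ ((k : ℤ) - 1) := by
      rw [show (k : ℤ) - 1 = ((k - 1 : ℕ) : ℤ) by push_cast [h.hk]; ring, zpow_natCast]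
    rw [e2]
    have e3 : z ^ (1 - (k : ℤ)) * z ^ ((k : ℤ) - 1) = 1 := by
      rw [← zpow_add₀ hz]
      simp
    linear_combination (k : ℂ) * e3
  rw [e1]
  abel

theorem trans_iff (h : LeadL D u k a b) : Trans D (u 0) u b' ↔ Om D (u 0) a b' ≠ 0 := by
  set G : ℂ → R4 := fun z => cm D (u 0) (z ^ (1 - (k : ℤ))) (fderiv ℝ u z 1) with hG
  have hGt := h.tang
  have hOm : Tendsto (fun z => ‖OmL D (u 0) (G z) b'‖) (𝓝[≠] 0)
      (𝓝 ‖OmL D (u 0) (cm D (u 0) k a) b'‖) := by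
    have hc : Continuous (fun y : R4 => ‖OmL D (u 0) y b'‖) := by fun_prop
    exact (hc.tendsto _).comp hGt
  have hn : Tendsto (fun z => ‖G z‖) (𝓝[≠] 0) (𝓝 ‖cm D (u 0) k a‖) := hGt.norm
  have hka : ‖OmL D (u 0) (cm D (u 0) k a) b'‖ = k * ‖Om D (u 0) a b'‖ := by
    rw [OmL_apply, cm_Om, norm_mul, Complex.norm_natCast]
  have hOmG : ∀ z, ‖OmL D (u 0) (G z) b'‖ = ‖z ^ (1 - (k : ℤ))‖ * ‖Om D (u 0) (fderiv ℝ u z 1) b'‖ := by
    intro z
    rw [OmL_apply, hG, cm_Om, norm_mul]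
  have hk0 : (0 : ℝ) < k := by exact_mod_cast h.hk
  constructor
  · rintro ⟨c, hc, hT⟩ h0
    set C : ℝ := ‖cmB D (u 0)‖ + 1 with hC
    have hC0 : 0 < C := by positivity
    have h1 : ∀ᶠ z in 𝓝[≠] (0 : ℂ), c / C * ‖G z‖ ≤ ‖OmL D (u 0) (G z) b'‖ := by
      filter_upwards [hT] with z hz
      rw [hOmG]
      have h2 : ‖G z‖ ≤ C * ‖z ^ (1 - (k : ℤ))‖ * ‖fderiv ℝ u z 1‖ := by
        have := (cmB D (u 0)).le_opNorm₂ (z ^ (1 - (k : ℤ))) (fderiv ℝ u z 1)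
        rw [cmB_apply] at this
        refine this.trans ?_
        have h3 : ‖cmB D (u 0)‖ ≤ C := by rw [hC]; linarith
        gcongr
      calc c / C * ‖G z‖ ≤ c / C * (C * ‖z ^ (1 - (k : ℤ))‖ * ‖fderiv ℝ u z 1‖) := by gcongr
        _ = ‖z ^ (1 - (k : ℤ))‖ * (c * ‖fderiv ℝ u z 1‖) := by field_simp
        _ ≤ _ := by gcongr
    have h2 : c / C * ‖cm D (u 0) k a‖ ≤ ‖OmL D (u 0) (cm D (u 0) k a) b'‖ :=
      le_of_tendsto_of_tendsto (hn.const_mul _) hOm h1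
    rw [hka, h0, norm_zero, mul_zero] at h2
    have h3 : 0 < ‖cm D (u 0) k a‖ := norm_pos_iff.2 fun h4 =>
      h.k0c (Vale.Agent.P247.H94.cm_eq_zero D (u 0) a k h.a_ne h4)
    have : 0 < c / C * ‖cm D (u 0) k a‖ := by positivity
    linarith
  · intro h0
    set A : ℝ := k * ‖Om D (u 0) a b'‖ with hA
    have hA0 : 0 < A := mul_pos hk0 (norm_pos_iff.2 h0)
    set B : ℝ := ‖cm D (u 0) k a‖ + 1 with hB
    have hB0 : 0 < B := by positivity
    obtain ⟨C, hC0, hC⟩ : ∃ C > 0, ∀ (w : ℂ) (y : R4), ‖cm D (u 0) w y‖ ≤ C * ‖w‖ * ‖y‖ := by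
      refine ⟨‖cmB D (u 0)‖ + 1, by positivity, fun w y => ?_⟩
      have := (cmB D (u 0)).le_opNorm₂ w y
      rw [cmB_apply] at this
      refine this.trans ?_
      have h3 : ‖cmB D (u 0)‖ ≤ ‖cmB D (u 0)‖ + 1 := by linarith
      gcongr
    refine ⟨A / 2 / (C * B), by positivity, ?_⟩
    have h1 : ∀ᶠ z in 𝓝[≠] (0 : ℂ), A / 2 < ‖OmL D (u 0) (G z) b'‖ := by
      refine hOm.eventually (lt_mem_nhds ?_)
      rw [hka]
      linarith
    have h2 : ∀ᶠ z in 𝓝[≠] (0 : ℂ), ‖G z‖ < B := hn.eventually (gt_mem_nhds (by rw [hB]; linarith))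
    filter_upwards [h1, h2, ne_ev] with z h1 h2 hz
    rw [hOmG] at h1
    have e1 : fderiv ℝ u z 1 = cm D (u 0) (z ^ ((k : ℤ) - 1)) (G z) := by
      rw [hG]
      simp only
      rw [cm_cm, ← zpow_add₀ hz]
      simp [cm_one]
    have e2 : ‖fderiv ℝ u z 1‖ ≤ C * ‖z ^ ((k : ℤ) - 1)‖ * B := by
      rw [e1]
      exact (hC _ _).trans (by gcongr)
    have e3 : ‖z ^ ((k : ℤ) - 1)‖ * ‖z ^ (1 - (k : ℤ))‖ = 1 := by
      rw [← norm_mul, ← zpow_add₀ hz]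
      simp
    calc A / 2 / (C * B) * ‖fderiv ℝ u z 1‖ ≤ A / 2 / (C * B) * (C * ‖z ^ ((k : ℤ) - 1)‖ * B) := by
          gcongr
      _ = ‖z ^ ((k : ℤ) - 1)‖ * (A / 2) := by field_simp
      _ ≤ ‖z ^ ((k : ℤ) - 1)‖ * (‖z ^ (1 - (k : ℤ))‖ * ‖Om D (u 0) (fderiv ℝ u z 1) b'‖) := by
          gcongr
      _ = ‖Om D (u 0) (fderiv ℝ u z 1) b'‖ := by
          rw [← mul_assoc, e3, one_mul]

end LeadL

/-- a direction transversal to finitely many others -/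
theorem exists_common (D : Data) (x : R4) {N : ℕ} (a b : Fin N → R4)
    (h : ∀ l, Om D x (a l) (b l) ≠ 0) : ∃ b' : R4, ∀ l, Om D x (a l) b' ≠ 0 := by
  classical
  set s : Finset (Subspace ℝ R4) := Finset.univ.image
    (fun l => LinearMap.ker (OmL D x (a l) : R4 →ₗ[ℝ] ℂ)) with hs
  have h1 : ⊤ ∉ s := by
    rw [hs, Finset.mem_image]
    rintro ⟨l, -, hl⟩
    rw [LinearMap.ker_eq_top] at hl
    have := congrArg (fun f => f (b l)) hl
    simp only [ContinuousLinearMap.coe_coe, LinearMap.zero_apply, OmL_apply] at this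
    exact h l this
  have h2 := Subspace.biUnion_ne_univ_of_top_notMem h1
  rw [Set.ne_univ_iff_exists_notMem] at h2
  obtain ⟨b', hb'⟩ := h2
  refine ⟨b', fun l h0 => hb' ?_⟩
  rw [Set.mem_iUnion₂]
  refine ⟨_, Finset.mem_image_of_mem _ (Finset.mem_univ l), ?_⟩
  simp only [SetLike.mem_coe, LinearMap.mem_ker, ContinuousLinearMap.coe_coe, OmL_apply]
  exact h0

/-- `TRV` -/
theorem trv : TRV_statement := by
  intro D K x N u ε h
  obtain ⟨u', h1, h2⟩ := exists_glob h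
  have h3 : ∀ l, ∃ (k : ℕ) (a b : R4), LeadL D (u' l) k a b := fun l =>
    exists_lead (glob_J h l (h1 l) (h2 l)) (glob_inj h l (h2 l))
  choose k a b0 h4 using h3
  have h5 : ∀ l, Om D x (a l) (b0 l) ≠ 0 := by
    intro l
    have := (h4 l).hab
    rwa [glob_zero h l (h2 l)] at this
  obtain ⟨b, hb⟩ := exists_common D x a b0 h5
  refine ⟨b, fun l => ?_⟩
  rw [← glob_trans (h2 l), ← glob_zero h l (h2 l), (h4 l).trans_iff, glob_zero h l (h2 l)]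
  exact hb l

end Vale.Agent.P247.H58.LW
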