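import Vale.Agent.P247.H58.LW.Pow
import Vale.Agent.P247.H58.LW.Sta

/-!
# `vol4`, and the changes of variables
-/

open scoped ContDiff Topology
open Set MeasureTheory Filter Metric Asymptotics

noncomputable section

namespace Vale.Agent.P247.H58.LW

open Vale.Agent.P247.H74 Vale.Agent.P247.H74.CE

theorem vol4_eq (a b c d : R4) : vol4 a b c d =
    (a 0 * b 1 - a 1 * b 0) * (c 2 * d 3 - c 3 * d 2)
    - (a 0 * b 2 - a 2 * b 0) * (c 1 * d 3 - c 3 * d 1)
    + (a 0 * b 3 - a 3 * b 0) * (c 1 * d 2 - c 2 * d 1)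
    + (a 1 * b 2 - a 2 * b 1) * (c 0 * d 3 - c 3 * d 0)
    - (a 1 * b 3 - a 3 * b 1) * (c 0 * d 2 - c 2 * d 0)
    + (a 2 * b 3 - a 3 * b 2) * (c 0 * d 1 - c 1 * d 0) := by
  rw [vol4, det4]
  rfl

theorem clm_apply_c {E : Type*} [NormedAddCommGroup E] [NormedSpace ℝ E] (L : ℂ →L[ℝ] E) (w : ℂ) :
    L w = w.re • L 1 + w.im • L Complex.I := by
  have h1 : w = w.re • (1 : ℂ) + w.im • Complex.I := by
    apply Complex.ext <;> simp
  conv_lhs => rw [h1]
  rw [map_add, map_smul, map_smul]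

theorem vol4_det1 (L : ℂ →L[ℝ] R4) (M : ℂ →L[ℝ] ℂ) (c d : R4) :
    vol4 (L (M 1)) (L (M Complex.I)) c d = M.det * vol4 (L 1) (L Complex.I) c d := by
  rw [clm_apply_c L (M 1), clm_apply_c L (M Complex.I), det2_eq, vol4_eq, vol4_eq]
  simp only [br2, re'_apply, im'_apply, Pi.add_apply, Pi.smul_apply, smul_eq_mul]
  ring

theorem vol4_det2 (L : ℂ →L[ℝ] R4) (M : ℂ →L[ℝ] ℂ) (a b : R4) :
    vol4 a b (L (M 1)) (L (M Complex.I)) = M.det * vol4 a b (L 1) (L Complex.I) := by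
  rw [clm_apply_c L (M 1), clm_apply_c L (M Complex.I), det2_eq, vol4_eq, vol4_eq]
  simp only [br2, re'_apply, im'_apply, Pi.add_apply, Pi.smul_apply, smul_eq_mul]
  ring

theorem vol4_neg (a b c d : R4) : vol4 (-a) (-b) (-c) (-d) = vol4 a b c d := by
  rw [vol4_eq, vol4_eq]
  simp only [Pi.neg_apply]
  ring

theorem vol4_neg2 (a b c d : R4) : vol4 a b (-c) (-d) = vol4 a b c d := by
  rw [vol4_eq, vol4_eq]
  simp only [Pi.neg_apply]
  ring

theorem bs4_0 : bs4 0 = (1, 0) := by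
  simp only [bs4, bs, Module.Basis.reindex_apply]
  rw [show finSumFinEquiv.symm (0 : Fin (2 + 2)) = Sum.inl 0 from rfl]
  simp
theorem bs4_1 : bs4 1 = (Complex.I, 0) := by
  simp only [bs4, bs, Module.Basis.reindex_apply]
  rw [show finSumFinEquiv.symm (1 : Fin (2 + 2)) = Sum.inl 1 from rfl]
  simp
theorem bs4_2 : bs4 2 = (0, 1) := by
  simp only [bs4, bs, Module.Basis.reindex_apply]
  rw [show finSumFinEquiv.symm (2 : Fin (2 + 2)) = Sum.inr 0 from rfl]
  simp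
theorem bs4_3 : bs4 3 = (0, Complex.I) := by
  simp only [bs4, bs, Module.Basis.reindex_apply]
  rw [show finSumFinEquiv.symm (3 : Fin (2 + 2)) = Sum.inr 1 from rfl]
  simp

/-- the determinant of a map into `ℝ⁴` -/
def vQ (Q : C2 →L[ℝ] R4) : ℝ :=
  vol4 (Q (1, 0)) (Q (Complex.I, 0)) (Q (0, 1)) (Q (0, Complex.I))

theorem vQ_eq (Q : C2 →L[ℝ] R4) : vQ Q = Matrix.det (Matrix.of fun j => Q (bs4 j)) := by
  rw [vQ, vol4]
  congr 2
  funext j
  fin_cases j
  · simp [bs4_0]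
  · simp [bs4_1]
  · simp [bs4_2]
  · simp [bs4_3]

theorem vQ_comp (Q : C2 →L[ℝ] R4) (M : C2 →L[ℝ] C2) : vQ (Q.comp M) = M.det * vQ Q := by
  rw [vQ_eq, vQ_eq]
  have h1 : (Matrix.of fun j => (Q.comp M) (bs4 j)) =
      (LinearMap.toMatrix bs4 bs4 (M : C2 →ₗ[ℝ] C2)).transpose * Matrix.of fun j => Q (bs4 j) := by
    ext j l
    rw [Matrix.mul_apply]
    simp only [Matrix.of_apply, Matrix.transpose_apply, LinearMap.toMatrix_apply,
      ContinuousLinearMap.coe_coe, ContinuousLinearMap.comp_apply]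
    conv_lhs => rw [← bs4.sum_repr (M (bs4 j)), map_sum]
    rw [Finset.sum_apply]
    exact Finset.sum_congr rfl fun i _ => by
      rw [map_smul, Pi.smul_apply, smul_eq_mul]
  rw [h1, Matrix.det_mul, Matrix.det_transpose, LinearMap.det_toMatrix]

theorem vQ_neg (Q : C2 →L[ℝ] R4) : vQ (-Q) = vQ Q := by
  rw [vQ, vQ, ← vol4_neg (Q (1, 0))]
  rfl

/-! ## continuity of `vol4` -/

theorem vol4_cont {X : Type*} [TopologicalSpace X] {a b c d : X → R4} (ha : Continuous a)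
    (hb : Continuous b) (hc : Continuous c) (hd : Continuous d) :
    Continuous fun x => vol4 (a x) (b x) (c x) (d x) := by
  simp only [vol4_eq]
  fun_prop

/-- the change of variables in the second variable -/
theorem subst_s {Y : R4} {A₁ A₂ : R4} {v Z : ℂ → R4} {ξ : ℂ → ℂ} {R' δ₀ : ℝ} (hR' : R' < δ₀)
    (hv : Differentiable ℝ v)
    (hξ : ContDiffOn ℝ 1 ξ (ball 0 δ₀)) (hinj : InjOn ξ (ball 0 R'))
    (hdet : ∀ r ∈ ball (0 : ℂ) R', 0 < (fderiv ℝ ξ r).det)
    (hsub : ξ '' ball 0 R' ⊆ ball 0 1)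
    (hZ : ∀ r ∈ closedBall (0 : ℂ) R', ∀ᶠ r' in 𝓝 r, Z r' = v (ξ r')) {f : R4 → ℝ}
    (hf0 : ∀ s ∈ ball (0 : ℂ) 1, s ∉ ξ '' ball 0 R' → f (Y - v s) = 0) :
    ∫ s in ball (0 : ℂ) 1, f (Y - v s) * vol4 A₁ A₂ (fderiv ℝ v s 1) (fderiv ℝ v s Complex.I) =
      ∫ r in ball (0 : ℂ) R', f (Y - Z r) *
        vol4 A₁ A₂ (fderiv ℝ Z r 1) (fderiv ℝ Z r Complex.I) := by
  have hd : ∀ r ∈ ball (0 : ℂ) R', DifferentiableAt ℝ ξ r := fun r hr =>
    (hξ.contDiffAt (isOpen_ball.mem_nhds (ball_subset_ball hR'.le hr))).differentiableAt (by simp)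
  have hmeas : MeasurableSet (ξ '' ball 0 R') :=
    measurableSet_ball.image_of_continuousOn_injOn
      (hξ.continuousOn.mono (ball_subset_ball hR'.le)) hinj
  have e1 : ∫ s in ball (0 : ℂ) 1, f (Y - v s) *
      vol4 A₁ A₂ (fderiv ℝ v s 1) (fderiv ℝ v s Complex.I) =
      ∫ s in ξ '' ball 0 R', f (Y - v s) *
        vol4 A₁ A₂ (fderiv ℝ v s 1) (fderiv ℝ v s Complex.I) := by
    refine setIntegral_eq_of_subset_of_forall_sdiff_eq_zero measurableSet_ball hsub ?_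
    rintro s ⟨hs1, hs2⟩
    rw [hf0 s hs1 hs2, zero_mul]
  rw [e1, integral_image_eq_integral_abs_det_fderiv_smul volume measurableSet_ball
    (fun r hr => (hd r hr).hasFDerivAt.hasFDerivWithinAt) hinj]
  refine setIntegral_congr_fun measurableSet_ball fun r hr => ?_
  have h1 := hZ r (ball_subset_closedBall hr)
  have h2 : fderiv ℝ Z r = (fderiv ℝ v (ξ r)).comp (fderiv ℝ ξ r) := by
    have h3 : Z =ᶠ[𝓝 r] v ∘ ξ := h1
    rw [h3.fderiv_eq]
    exact fderiv_comp r (hv _) (hd r hr)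
  rw [abs_of_pos (hdet r hr), h1.self_of_nhds, h2, ContinuousLinearMap.comp_apply,
    ContinuousLinearMap.comp_apply, vol4_det2, smul_eq_mul]
  ring

/-- the cover in the first variable -/
theorem cover_t {K : ℕ} (hK : 1 ≤ K) {Y Z : ℂ → R4} (hY : ContDiff ℝ 1 Y) (hZ : ContDiff ℝ 1 Z)
    {R R' : ℝ} (hR : 0 < R) {f : R4 → ℝ} (hf : Continuous f)
    (hf0 : ∀ t ∈ sphere (0 : ℂ) (R ^ K), ∀ r ∈ closedBall (0 : ℂ) R', f (Y t - Z r) = 0) :
    K * ∫ t in ball (0 : ℂ) (R ^ K), ∫ r in ball (0 : ℂ) R', f (Y t - Z r) *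
      vol4 (fderiv ℝ Y t 1) (fderiv ℝ Y t Complex.I) (fderiv ℝ Z r 1) (fderiv ℝ Z r Complex.I) =
    ∫ p in pd R R', f (Y (p.1 ^ K) - Z p.2) *
      vol4 (fderiv ℝ (fun τ => Y (τ ^ K)) p.1 1) (fderiv ℝ (fun τ => Y (τ ^ K)) p.1 Complex.I)
        (fderiv ℝ Z p.2 1) (fderiv ℝ Z p.2 Complex.I) := by
  set g : ℂ → ℂ → ℝ := fun t r => f (Y t - Z r) *
      vol4 (fderiv ℝ Y t 1) (fderiv ℝ Y t Complex.I) (fderiv ℝ Z r 1) (fderiv ℝ Z r Complex.I)
    with hg
  have hYd := hY.continuous_fderiv (by simp)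
  have hZd := hZ.continuous_fderiv (by simp)
  have hYc := hY.continuous
  have hZc := hZ.continuous
  have hgc : Continuous (fun p : C2 => g p.1 p.2) := by
    have c1 : Continuous (fun p : C2 => f (Y p.1 - Z p.2)) := by fun_prop
    refine c1.mul (vol4_cont ?_ ?_ ?_ ?_) <;> fun_prop
  have hRK : 0 < R ^ K := by positivity
  -- swap
  have i1 : IntegrableOn (fun p : C2 => g p.1 p.2) (ball (0 : ℂ) (R ^ K) ×ˢ ball (0 : ℂ) R')
      (volume.prod volume) := by
    refine (hgc.continuousOn.integrableOn_compact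
      ((isCompact_closedBall (0 : ℂ) (R ^ K)).prod (isCompact_closedBall (0 : ℂ) R'))).mono_set ?_
    exact prod_mono ball_subset_closedBall ball_subset_closedBall
  have e1 : ∫ t in ball (0 : ℂ) (R ^ K), ∫ r in ball (0 : ℂ) R', g t r =
      ∫ r in ball (0 : ℂ) R', ∫ t in ball (0 : ℂ) (R ^ K), g t r := by
    refine integral_integral_swap (f := g) ?_
    rw [IntegrableOn, ← Measure.prod_restrict] at i1
    exact i1
  -- the one dimensional substitution
  have e2 : ∀ r ∈ ball (0 : ℂ) R', K * ∫ t in ball (0 : ℂ) (R ^ K), g t r =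
      ∫ τ in ball (0 : ℂ) R, g (τ ^ K) r * ‖(K : ℂ) * τ ^ (K - 1)‖ ^ 2 := by
    intro r hr
    have c1 : Continuous (fun t => g t r) := hgc.comp (by fun_prop : Continuous fun t : ℂ => (t, r))
    have c2 : Continuous (indicator (ball (0 : ℂ) (R ^ K)) fun t => g t r) := by
      refine continuous_indicator (fun t ht => ?_) c1.continuousOn
      rw [frontier_ball _ hRK.ne'] at ht
      simp only [hg]
      rw [hf0 t ht r (ball_subset_closedBall hr), zero_mul]
    have c3 : HasCompactSupport (indicator (ball (0 : ℂ) (R ^ K)) fun t => g t r) := by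
      refine HasCompactSupport.intro (isCompact_closedBall (0 : ℂ) (R ^ K)) fun t ht => ?_
      exact indicator_of_notMem (fun h => ht (ball_subset_closedBall h)) _
    have e3 := pow_subst hK c2 c3
    rw [integral_indicator measurableSet_ball] at e3
    rw [← e3, ← integral_indicator measurableSet_ball]
    refine integral_congr_ae (Eventually.of_forall fun τ => ?_)
    simp only [indicator, mem_ball_zero_iff, norm_pow]
    have h1 : ‖τ‖ ^ K < R ^ K ↔ ‖τ‖ < R := by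
      rw [pow_lt_pow_iff_left₀ (norm_nonneg _) hR.le (by omega)]
    by_cases h : ‖τ‖ < R
    · rw [if_pos (h1.2 h), if_pos h]
    · rw [if_neg (fun h' => h (h1.1 h')), if_neg h, zero_mul]
  have e4 : ∫ p in pd R R', f (Y (p.1 ^ K) - Z p.2) *
      vol4 (fderiv ℝ (fun τ => Y (τ ^ K)) p.1 1) (fderiv ℝ (fun τ => Y (τ ^ K)) p.1 Complex.I)
        (fderiv ℝ Z p.2 1) (fderiv ℝ Z p.2 Complex.I) =
      ∫ p in pd R R', g (p.1 ^ K) p.2 * ‖(K : ℂ) * p.1 ^ (K - 1)‖ ^ 2 := by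
    refine setIntegral_congr_fun (pd_open R R').measurableSet fun p _ => ?_
    have hYd' : DifferentiableAt ℝ Y (p.1 ^ K) := (hY.differentiable (by simp)) _
    have h1 := vol4_det1 (fderiv ℝ Y (p.1 ^ K)) (fderiv ℝ (fun z : ℂ => z ^ K) p.1)
      (fderiv ℝ Z p.2 1) (fderiv ℝ Z p.2 Complex.I)
    rw [fderiv_pow_det, (hasFDerivAt_pow K p.1).fderiv] at h1
    simp only [hg]
    rw [fderiv_comp_pow hYd', fderiv_comp_pow hYd']
    simp only [ContinuousLinearMap.mul_apply'] at h1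
    rw [h1]
    ring
  rw [e1, ← integral_const_mul, setIntegral_congr_fun measurableSet_ball e2, e4]
  have i2 : IntegrableOn (fun p : C2 => g (p.1 ^ K) p.2 * ‖(K : ℂ) * p.1 ^ (K - 1)‖ ^ 2)
      (ball (0 : ℂ) R ×ˢ ball (0 : ℂ) R') (volume.prod volume) := by
    have c1 : Continuous (fun p : C2 => g (p.1 ^ K) p.2 * ‖(K : ℂ) * p.1 ^ (K - 1)‖ ^ 2) := by
      refine Continuous.mul ?_ (by fun_prop)
      exact hgc.comp (by fun_prop : Continuous fun p : C2 => (p.1 ^ K, p.2))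
    refine (c1.continuousOn.integrableOn_compact
      ((isCompact_closedBall (0 : ℂ) R).prod (isCompact_closedBall (0 : ℂ) R'))).mono_set ?_
    exact prod_mono ball_subset_closedBall ball_subset_closedBall
  rw [pd, Measure.volume_eq_prod, setIntegral_prod _ i2]
  refine (integral_integral_swap (f := fun τ r => g (τ ^ K) r * ‖(K : ℂ) * τ ^ (K - 1)‖ ^ 2) ?_).symm
  rw [IntegrableOn, ← Measure.prod_restrict] at i2
  exact i2

end Vale.Agent.P247.H58.LW
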