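import Vale.Agent.P247.H58.LW.Pair

/-!
# The winding numbers of the transversal differences
-/

open scoped ContDiff Topology
open Set MeasureTheory Filter Metric Asymptotics Polynomial

noncomputable section

namespace Vale.Agent.P247.H58.LW

open Vale.Agent.P247.H74 Vale.Agent.P247.H74.CE Vale.Agent.P247.H574
open Vale.Agent.P247.H74.CE.Lead (uh zt zt_zero)

/-- transversal vectors, local version -/
theorem trans_nearL {D : Data} {u : ℂ → R4} {k : ℕ} {a b : R4} (h : LeadL D u k a b) :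
    ∀ᶠ y in 𝓝[≠] (0 : ℂ), ∀ t : ℂ,
    ‖OmL D (u y) (uh D u k y) (cm D (u 0) t b) - Om D (u 0) a b * t‖ ≤
      ‖Om D (u 0) a b‖ / 2 * ‖t‖ := by
  have h1 := tendsto_PL h (σ := fun z => z) contDiffAt_id rfl ne_ev
  have h2 : Tendsto (fun z => ‖OmL D (u z) (uh D u k z) - OmL D (u 0) a‖) (𝓝[≠] 0) (𝓝 0) := by
    simpa using (h1.sub_const (OmL D (u 0) a)).norm
  have hl : 0 < ‖Om D (u 0) a b‖ := norm_pos_iff.2 h.hab
  set K := ‖(cmB D (u 0)).flip b‖ + 1 with hK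
  have hK0 : 0 < K := by positivity
  have h3 := h2.eventually_le_const (show 0 < ‖Om D (u 0) a b‖ / (2 * K) by positivity)
  filter_upwards [h3] with y hy t
  have h4 : OmL D (u y) (uh D u k y) (cm D (u 0) t b) - Om D (u 0) a b * t =
      (OmL D (u y) (uh D u k y) - OmL D (u 0) a) (cm D (u 0) t b) := by
    rw [_root_.sub_apply, OmL_apply D (u 0) a, Om_cm]
    ring
  rw [h4]
  have h5 : ‖cm D (u 0) t b‖ ≤ K * ‖t‖ := by
    have := ((cmB D (u 0)).flip b).le_opNorm t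
    rw [ContinuousLinearMap.flip_apply, cmB_apply] at this
    nlinarith [norm_nonneg t]
  calc _ ≤ ‖OmL D (u y) (uh D u k y) - OmL D (u 0) a‖ * ‖cm D (u 0) t b‖ :=
        ContinuousLinearMap.le_opNorm _ _
    _ ≤ ‖Om D (u 0) a b‖ / (2 * K) * (K * ‖t‖) := by gcongr
    _ = _ := by field_simp

theorem LeadL.inv {D : Data} {u : ℂ → R4} {k : ℕ} {a b : R4} (h : LeadL D u k a b) :
    ∃ ξ δ, Inv D u k a b ξ δ := by
  obtain ⟨ξ, δ, h1, h2, h3, h4, h5⟩ := h.exists_inv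
  exact ⟨ξ, δ, h1, h2, h3, h4, h5⟩

theorem LeadL.zt_ne {D : Data} {u : ℂ → R4} {k : ℕ} {a b : R4} (h : LeadL D u k a b) :
    ∀ᶠ z in 𝓝[≠] (0 : ℂ), zt D u k a b z ≠ 0 := by
  obtain ⟨ξ, δ, hi⟩ := h.inv
  exact hi.zt_ne

theorem LeadL.zt_O {D : Data} {u : ℂ → R4} {k : ℕ} {a b : R4} (h : LeadL D u k a b) :
    (zt D u k a b) =O[𝓝 0] fun z : ℂ => z := by
  have := h.zt_c1.2.isBigO_sub
  simpa [zt_zero] using this

/-- composition with powers of winding numbers -/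
theorem wind_pow {g : ℂ → ℂ} {R : ℝ} {K : ℕ} {m : ℤ}
    (h : HasWinding g 0 (R ^ K) m) : HasWinding (fun τ => g (τ ^ K)) 0 R (K * m) := by
  obtain ⟨G, hG, hg⟩ := h
  refine ⟨fun τ => G (τ ^ K), ?_, fun τ hτ => ?_⟩
  · refine hG.comp (by fun_prop) fun τ hτ => ?_
    rw [mem_sphere_zero_iff_norm] at hτ ⊢
    rw [norm_pow, hτ]
  · have h1 : τ ^ K ∈ sphere (0 : ℂ) (R ^ K) := by
      rw [mem_sphere_zero_iff_norm] at hτ ⊢
      rw [norm_pow, hτ]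
    have h2 := hg _ h1
    simp only [sub_zero] at h2 ⊢
    rw [h2, zpow_mul, zpow_natCast]

/-- stability of the winding number under small perturbations -/
theorem wind_perturb {n g : ℂ → ℂ} {R : ℝ} (hR : 0 < R) {m : ℤ} (hn : ContinuousOn n (sphere 0 R))
    (hg : ContinuousOn g (sphere 0 R)) (h : HasWinding n 0 R m) :
    ∀ᶠ δ : ℝ in 𝓝[>] (0 : ℝ), HasWinding (fun z => n z + (δ : ℂ) * g z) 0 R m := by
  obtain ⟨c, hc, hcn⟩ := exists_pos_lb (isCompact_sphere (0 : ℂ) R) (f := fun z => ‖n z‖)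
    hn.norm (fun z hz => norm_pos_iff.2 (wind_ne hR h hz))
  obtain ⟨C, hC⟩ := (isCompact_sphere (0 : ℂ) R).exists_bound_of_continuousOn hg
  have hC0 : 0 ≤ |C| := abs_nonneg C
  filter_upwards [ev_lt (show 0 < c / (|C| + 1) by positivity)] with δ hδ
  refine WWIND.W5 n _ 0 R m hR hn (hn.add (continuousOn_const.mul hg)) (fun z hz => ?_) h
  rw [add_sub_cancel_left, norm_mul, Complex.norm_real, Real.norm_of_nonneg hδ.1.le]
  have e1 : ‖g z‖ ≤ |C| := (hC z hz).trans (le_abs_self C)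
  calc δ * ‖g z‖ ≤ δ * |C| := by gcongr; exact hδ.1.le
    _ < c / (|C| + 1) * (|C| + 1) := by
        have := hδ.1
        have := hδ.2
        nlinarith
    _ = c := by field_simp
    _ ≤ ‖n z‖ := hcn z hz

namespace PairD

variable {D : Data} {ul uj : ℂ → R4} {kl kj : ℕ} {al aj b : R4} {ξ : ℂ → ℂ} {δ₀ : ℝ} {κ : ℂ}

theorem κ_ne (h : PairD D ul uj kl kj al aj b ξ δ₀ κ) : κ ≠ 0 := by
  rintro rfl
  have h1 := h.hκ
  rw [zero_pow h.hj.k0] at h1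
  have hal : Om D (uj 0) al b ≠ 0 := by rw [← h.h0]; exact h.hl.hab
  exact (div_ne_zero hal h.hj.hab) h1.symm

theorem Phi_ne (h : PairD D ul uj kl kj al aj b ξ δ₀ κ) :
    ∀ᶠ τ in 𝓝[≠] (0 : ℂ), Phi D ul kl kj al b κ τ ≠ 0 := by
  filter_upwards [(h.hl.pow h.hj.hk).zt_ne] with τ hτ
  exact mul_ne_zero h.κ_ne (pow_ne_zero _ hτ)

theorem Phi_O (h : PairD D ul uj kl kj al aj b ξ δ₀ κ) :
    (Phi D ul kl kj al b κ) =O[𝓝 0] fun τ : ℂ => τ ^ kl :=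
  ((h.hl.pow h.hj.hk).zt_O.pow kl).const_mul_left κ

/-- the reparametrisation -/
def sw (D : Data) (ul : ℂ → R4) (kl kj : ℕ) (al b : R4) (ξ : ℂ → ℂ) (κ w τ : ℂ) : ℂ :=
  ξ (w * Phi D ul kl kj al b κ τ)

theorem wPhi_tendsto (h : PairD D ul uj kl kj al aj b ξ δ₀ κ) (w : ℂ) :
    Tendsto (fun τ => w * Phi D ul kl kj al b κ τ) (𝓝 0) (𝓝 0) := by
  have h1 : ContinuousAt (fun τ => w * Phi D ul kl kj al b κ τ) 0 :=
    continuousAt_const.mul h.Phi_c1.continuousAt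
  have := h1.tendsto
  rwa [h.Phi_zero, mul_zero] at this

theorem wPhi_small (h : PairD D ul uj kl kj al aj b ξ δ₀ κ) (w : ℂ) :
    ∀ᶠ τ in 𝓝 (0 : ℂ), w * Phi D ul kl kj al b κ τ ∈ ball (0 : ℂ) δ₀ :=
  (h.wPhi_tendsto w).eventually (ball_mem_nhds 0 h.hi.pos)

theorem sw_zero (h : PairD D ul uj kl kj al aj b ξ δ₀ κ) (w : ℂ) :
    sw D ul kl kj al b ξ κ w 0 = 0 := by
  rw [sw, h.Phi_zero, mul_zero, h.hi.zero]

theorem sw_c1 (h : PairD D ul uj kl kj al aj b ξ δ₀ κ) (w : ℂ) :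
    ContDiffAt ℝ 1 (sw D ul kl kj al b ξ κ w) 0 := by
  have h1 : ContDiffAt ℝ 1 (fun τ => w * Phi D ul kl kj al b κ τ) 0 :=
    contDiffAt_const.mul h.Phi_c1
  have h2 : ContDiffAt ℝ 1 ξ (w * Phi D ul kl kj al b κ 0) := by
    rw [h.Phi_zero, mul_zero]
    exact h.hi.ξc1
  exact ContDiffAt.comp (f := fun τ => w * Phi D ul kl kj al b κ τ) 0 h2 h1

theorem sw_ne (h : PairD D ul uj kl kj al aj b ξ δ₀ κ) {w : ℂ} (hw : w ≠ 0) :
    ∀ᶠ τ in 𝓝[≠] (0 : ℂ), sw D ul kl kj al b ξ κ w τ ≠ 0 := by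
  filter_upwards [h.Phi_ne, nhdsWithin_le_nhds (h.wPhi_small w)] with τ h1 h2 h3
  have h4 := h.hi.right _ h2
  rw [show ξ (w * Phi D ul kl kj al b κ τ) = 0 from h3, zt_zero] at h4
  exact mul_ne_zero hw h1 h4.symm

theorem sw_O (h : PairD D ul uj kl kj al aj b ξ δ₀ κ) (w : ℂ) :
    (sw D ul kl kj al b ξ κ w) =O[𝓝 0] fun τ : ℂ => τ ^ kl := by
  have h1 : ξ =O[𝓝 0] fun c : ℂ => c := by
    have := (h.hi.ξc1.differentiableAt (by simp)).isBigO_sub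
    simpa [h.hi.zero] using this
  have h2 := h1.comp_tendsto (h.wPhi_tendsto w)
  refine h2.trans ?_
  exact h.Phi_O.const_mul_left w

theorem root_ne (h : PairD D ul uj kl kj al aj b ξ δ₀ κ) {w : ℂ} (hw : w ^ kj = 1) : w ≠ 0 := by
  rintro rfl
  rw [zero_pow h.hj.k0] at hw
  exact zero_ne_one hw

theorem nn_diff (h : PairD D ul uj kl kj al aj b ξ δ₀ κ) {w : ℂ} (hw : w ^ kj = 1) :
    ∀ᶠ τ in 𝓝 (0 : ℂ), ul (τ ^ kj) - uj (sw D ul kl kj al b ξ κ w τ) =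
      cm D (uj 0) (nn D ul uj kl kj al aj b ξ κ w τ) b := by
  filter_upwards [h.wPhi_small w] with τ h1
  set s := sw D ul kl kj al b ξ κ w τ with hs
  have h2 : p1 D (uj 0) aj b (ul (τ ^ kj) - uj s) = 0 := by
    have e1 : ul (τ ^ kj) - uj s = (ul (τ ^ kj) - uj 0) - (uj s - uj 0) := by abel
    rw [e1, map_sub, ← h.Phi_pow, ← h.hj.zt_pow]
    have e2 : zt D uj kj aj b s = w * Phi D ul kl kj al b κ τ := h.hi.right _ h1
    rw [e2, mul_pow, hw, one_mul, sub_self]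
  have h3 := frame_decomp D (uj 0) aj b h.hj.hab (ul (τ ^ kj) - uj s)
  rw [h2, cm_zero, zero_add] at h3
  exact h3

theorem nn_eq (w τ : ℂ) : nn D ul uj kl kj al aj b ξ κ w τ =
    p2 D (uj 0) aj b (ul (τ ^ kj) - uj 0) -
      p2 D (uj 0) aj b (uj (sw D ul kl kj al b ξ κ w τ) - uj 0) := by
  rw [← map_sub, nn]
  congr 1
  rw [sw]
  abel

theorem nn_cl (h : PairD D ul uj kl kj al aj b ξ δ₀ κ) {w : ℂ} (hw : w ≠ 0) :
    Cl 1 (nn D ul uj kl kj al aj b ξ κ w) := by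
  have hkj := h.hj.hk
  have hkl := h.hl.hk
  have e0 : ul (0 ^ kj) = uj 0 := by rw [zero_pow h.hj.k0, h.h0]
  have h1 : Cl 1 (fun τ => p2 D (uj 0) aj b (ul (τ ^ kj) - uj 0)) := by
    have e1 := ((h.hl.pow hkj).sub_cl.mono (m' := 1) (by
      have := Nat.mul_pos hkl hkj
      exact_mod_cast this)).clm (p2 D (uj 0) aj b)
    rwa [e0] at e1
  have h2 : Cl 1 (fun τ => p2 D (uj 0) aj b (uj (sw D ul kl kj al b ξ κ w τ) - uj 0)) := by
    have e1 := (h.hj.sub_cl.mono (m' := 1) (by exact_mod_cast hkj)).right le_rfl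
      (h.sw_c1 w) (h.sw_zero w) (h.sw_ne hw)
    exact e1.clm (p2 D (uj 0) aj b)
  exact (h1.sub h2).congr (Eventually.of_forall fun τ => (nn_eq w τ).symm)

theorem sw_tendsto (h : PairD D ul uj kl kj al aj b ξ δ₀ κ) {w : ℂ} (hw : w ≠ 0) :
    Tendsto (sw D ul kl kj al b ξ κ w) (𝓝[≠] 0) (𝓝[≠] 0) := by
  refine tendsto_nhdsWithin_iff.2 ⟨?_, h.sw_ne hw⟩
  have := (h.sw_c1 w).continuousAt.tendsto.mono_left (nhdsWithin_le_nhds (s := {(0 : ℂ)}ᶜ))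
  rwa [h.sw_zero w] at this

/-- order of vanishing along the reparametrisation -/
theorem comp_sw_O (h : PairD D ul uj kl kj al aj b ξ δ₀ κ) {w : ℂ} (hw : w ≠ 0) {g : ℂ → ℂ}
    {q : ℕ} (hg : g =O[𝓝[≠] 0] fun z : ℂ => ‖z‖ ^ (q : ℤ)) :
    (fun τ => g (sw D ul kl kj al b ξ κ w τ)) =O[𝓝[≠] 0] fun τ : ℂ => τ ^ (kl * q) := by
  have h1 := hg.comp_tendsto (h.sw_tendsto hw)
  refine h1.trans ?_
  have h2 := ((h.sw_O w).mono (nhdsWithin_le_nhds (s := {(0 : ℂ)}ᶜ))).norm_left.pow q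
  refine (h2.congr (fun τ => ?_) (fun τ => ?_))
  · simp only [Function.comp_apply, zpow_natCast]
  · rw [← pow_mul]

theorem nn_O (h : PairD D ul uj kl kj al aj b ξ δ₀ κ) {w : ℂ} (hw : w ≠ 0) :
    (nn D ul uj kl kj al aj b ξ κ w) =O[𝓝[≠] 0] fun τ : ℂ => τ ^ (kl * kj) := by
  have e0 : ul (0 ^ kj) = uj 0 := by rw [zero_pow h.hj.k0, h.h0]
  have h1 : (fun τ => p2 D (uj 0) aj b (ul (τ ^ kj) - uj 0)) =O[𝓝[≠] 0]
      fun τ : ℂ => τ ^ (kl * kj) := by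
    have e1 := ((h.hl.pow h.hj.hk).sub_cl.clm (p2 D (uj 0) aj b)).bd
    rw [e0] at e1
    refine e1.trans (IsBigO.of_bound 1 (Eventually.of_forall fun τ => ?_))
    rw [zpow_natCast, norm_pow, norm_norm, norm_pow, one_mul]
  have h2 := h.comp_sw_O hw (h.hj.sub_cl.clm (p2 D (uj 0) aj b)).bd
  refine (h1.sub h2).congr_left fun τ => ?_
  exact (nn_eq w τ).symm

/-- the winding number of a nontrivial transversal difference, with push off -/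
theorem nn_wind (h : PairD D ul uj kl kj al aj b ξ δ₀ κ) {w : ℂ} (hw : w ^ kj = 1) {m₀ : ℕ}
    (hO : (nn D ul uj kl kj al aj b ξ κ w) =O[𝓝[≠] 0] fun τ : ℂ => τ ^ m₀)
    (hne : ∀ᶠ τ in 𝓝[≠] (0 : ℂ), nn D ul uj kl kj al aj b ξ κ w τ ≠ 0) :
    ∃ m : ℕ, m₀ ≤ m ∧ ∀ᶠ R in 𝓝[>] (0 : ℝ), ∀ v : R4 → ℂ, Continuous v →
      ∀ᶠ δ : ℝ in 𝓝[>] (0 : ℝ), HasWinding
        (fun τ => nn D ul uj kl kj al aj b ξ κ w τ + (δ : ℂ) * v (ul (τ ^ kj))) 0 R m := by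
  have hw0 := h.root_ne hw
  have e0 : ul (0 ^ kj) = uj 0 := by rw [zero_pow h.hj.k0, h.h0]
  obtain ⟨m, A, hm, hA, ho⟩ := cross_exp h.hj (h.sw_c1 w) (h.sw_zero w) (h.sw_ne hw0)
    (u' := fun τ => ul (τ ^ kj)) (h.hl.pow h.hj.hk).hu e0 (h.nn_cl hw0) hO (h.nn_diff hw) hne
  have h1 : ∀ᶠ z in 𝓝[≠] (0 : ℂ), ContinuousAt (nn D ul uj kl kj al aj b ξ κ w) z :=
    (h.nn_cl hw0).c1.mono fun z hz => hz.continuousAt
  refine ⟨m, hm, ?_⟩
  have h2 := WWIND.W6 (nn D ul uj kl kj al aj b ξ κ w) 0 A (m : ℤ) hA h1 (by simpa using ho)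
  filter_upwards [h2, ev_sphere h1, self_mem_nhdsWithin] with R hR1 hR2 hR0 v hv
  have hR : 0 < R := hR0
  have hul := h.hl.cont
  exact wind_perturb hR (fun z hz => (hR2 z hz).continuousWithinAt)
    (Continuous.continuousOn (by fun_prop)) hR1

end PairD

end Vale.Agent.P247.H58.LW
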